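import Crest.Agent.R186.Defs1

/-! Row 186, part K1: the ten-dimensional algebra `C`. -/

set_option autoImplicit false
open CategoryTheory Abelian
open scoped TensorProduct ModuleCat

namespace Crest.Agent.R186
namespace K1

open Crest.Agent.R178

universe u

/-- the ten-dimensional algebra -/
@[ext] structure Cp (k : Type u) (p : k) : Type u where
  e : k
  x : k
  y : k
  z : k
  a : k
  A : k
  b : k
  B : k
  f : k
  E : k

variable {k : Type u} [Field k] {p : k}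

namespace Cp

instance : Zero (Cp k p) := ⟨⟨0, 0, 0, 0, 0, 0, 0, 0, 0, 0⟩⟩
instance : One (Cp k p) := ⟨⟨1, 0, 0, 0, 0, 0, 0, 0, 1, 0⟩⟩
instance : Add (Cp k p) := ⟨fun u v => ⟨u.e + v.e, u.x + v.x, u.y + v.y, u.z + v.z, u.a + v.a,
  u.A + v.A, u.b + v.b, u.B + v.B, u.f + v.f, u.E + v.E⟩⟩
instance : Neg (Cp k p) := ⟨fun u => ⟨-u.e, -u.x, -u.y, -u.z, -u.a, -u.A, -u.b, -u.B, -u.f, -u.E⟩⟩
instance : SMul k (Cp k p) := ⟨fun c u => ⟨c * u.e, c * u.x, c * u.y, c * u.z, c * u.a, c * u.A,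
  c * u.b, c * u.B, c * u.f, c * u.E⟩⟩
instance : Mul (Cp k p) := ⟨fun u v => ⟨u.e * v.e, u.e * v.x + u.x * v.e + u.a * v.b,
  u.e * v.y + u.y * v.e - p * u.a * v.b,
  u.e * v.z + u.x * v.y + p * u.y * v.x + u.z * v.e + u.a * v.B - p * u.A * v.b,
  u.e * v.a + u.a * v.f, u.e * v.A + u.x * v.a - u.y * v.a + u.a * v.E + u.A * v.f,
  u.b * v.e + u.f * v.b,
  -(p ^ 2 * u.b * v.x) + u.b * v.y + u.B * v.e + u.f * v.B - p * u.E * v.b,
  u.f * v.f, (1 + p) * u.b * v.a + u.f * v.E + u.E * v.f⟩⟩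

section
variable (u v : Cp k p) (c : k)
@[simp] lemma zero_e : (0 : Cp k p).e = 0 := rfl
@[simp] lemma zero_x : (0 : Cp k p).x = 0 := rfl
@[simp] lemma zero_y : (0 : Cp k p).y = 0 := rfl
@[simp] lemma zero_z : (0 : Cp k p).z = 0 := rfl
@[simp] lemma zero_a : (0 : Cp k p).a = 0 := rfl
@[simp] lemma zero_A : (0 : Cp k p).A = 0 := rfl
@[simp] lemma zero_b : (0 : Cp k p).b = 0 := rfl
@[simp] lemma zero_B : (0 : Cp k p).B = 0 := rfl
@[simp] lemma zero_f : (0 : Cp k p).f = 0 := rfl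
@[simp] lemma zero_E : (0 : Cp k p).E = 0 := rfl
@[simp] lemma one_e : (1 : Cp k p).e = 1 := rfl
@[simp] lemma one_x : (1 : Cp k p).x = 0 := rfl
@[simp] lemma one_y : (1 : Cp k p).y = 0 := rfl
@[simp] lemma one_z : (1 : Cp k p).z = 0 := rfl
@[simp] lemma one_a : (1 : Cp k p).a = 0 := rfl
@[simp] lemma one_A : (1 : Cp k p).A = 0 := rfl
@[simp] lemma one_b : (1 : Cp k p).b = 0 := rfl
@[simp] lemma one_B : (1 : Cp k p).B = 0 := rfl
@[simp] lemma one_f : (1 : Cp k p).f = 1 := rfl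
@[simp] lemma one_E : (1 : Cp k p).E = 0 := rfl
@[simp] lemma add_e : (u + v).e = u.e + v.e := rfl
@[simp] lemma add_x : (u + v).x = u.x + v.x := rfl
@[simp] lemma add_y : (u + v).y = u.y + v.y := rfl
@[simp] lemma add_z : (u + v).z = u.z + v.z := rfl
@[simp] lemma add_a : (u + v).a = u.a + v.a := rfl
@[simp] lemma add_A : (u + v).A = u.A + v.A := rfl
@[simp] lemma add_b : (u + v).b = u.b + v.b := rfl
@[simp] lemma add_B : (u + v).B = u.B + v.B := rfl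
@[simp] lemma add_f : (u + v).f = u.f + v.f := rfl
@[simp] lemma add_E : (u + v).E = u.E + v.E := rfl
@[simp] lemma neg_e : (-u).e = -u.e := rfl
@[simp] lemma neg_x : (-u).x = -u.x := rfl
@[simp] lemma neg_y : (-u).y = -u.y := rfl
@[simp] lemma neg_z : (-u).z = -u.z := rfl
@[simp] lemma neg_a : (-u).a = -u.a := rfl
@[simp] lemma neg_A : (-u).A = -u.A := rfl
@[simp] lemma neg_b : (-u).b = -u.b := rfl
@[simp] lemma neg_B : (-u).B = -u.B := rfl
@[simp] lemma neg_f : (-u).f = -u.f := rfl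
@[simp] lemma neg_E : (-u).E = -u.E := rfl
@[simp] lemma smul_e : (c • u).e = c * u.e := rfl
@[simp] lemma smul_x : (c • u).x = c * u.x := rfl
@[simp] lemma smul_y : (c • u).y = c * u.y := rfl
@[simp] lemma smul_z : (c • u).z = c * u.z := rfl
@[simp] lemma smul_a : (c • u).a = c * u.a := rfl
@[simp] lemma smul_A : (c • u).A = c * u.A := rfl
@[simp] lemma smul_b : (c • u).b = c * u.b := rfl
@[simp] lemma smul_B : (c • u).B = c * u.B := rfl
@[simp] lemma smul_f : (c • u).f = c * u.f := rfl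
@[simp] lemma smul_E : (c • u).E = c * u.E := rfl
@[simp] lemma mul_e : (u * v).e = u.e * v.e := rfl
@[simp] lemma mul_x : (u * v).x = u.e * v.x + u.x * v.e + u.a * v.b := rfl
@[simp] lemma mul_y : (u * v).y = u.e * v.y + u.y * v.e - p * u.a * v.b := rfl
@[simp] lemma mul_z : (u * v).z =
    u.e * v.z + u.x * v.y + p * u.y * v.x + u.z * v.e + u.a * v.B - p * u.A * v.b := rfl
@[simp] lemma mul_a : (u * v).a = u.e * v.a + u.a * v.f := rfl
@[simp] lemma mul_A : (u * v).A = u.e * v.A + u.x * v.a - u.y * v.a + u.a * v.E + u.A * v.f := rfl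
@[simp] lemma mul_b : (u * v).b = u.b * v.e + u.f * v.b := rfl
@[simp] lemma mul_B : (u * v).B =
    -(p ^ 2 * u.b * v.x) + u.b * v.y + u.B * v.e + u.f * v.B - p * u.E * v.b := rfl
@[simp] lemma mul_f : (u * v).f = u.f * v.f := rfl
@[simp] lemma mul_E : (u * v).E = (1 + p) * u.b * v.a + u.f * v.E + u.E * v.f := rfl
end

instance : Ring (Cp k p) := Ring.ofMinimalAxioms
  (fun u v w => by ext <;> simp [add_assoc])
  (fun u => by ext <;> simp)
  (fun u => by ext <;> simp)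
  (fun u v w => by ext <;> simp <;> ring)
  (fun u => by ext <;> simp)
  (fun u => by ext <;> simp)
  (fun u v w => by ext <;> simp <;> ring)
  (fun u v w => by ext <;> simp <;> ring)

instance : Module k (Cp k p) := Module.ofMinimalAxioms
  (fun c u v => by ext <;> simp [mul_add])
  (fun c d u => by ext <;> simp [add_mul])
  (fun c d u => by ext <;> simp [mul_assoc])
  (fun u => by ext <;> simp)

instance : Algebra k (Cp k p) := Algebra.ofModule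
  (fun c u v => by ext <;> simp <;> ring) (fun c u v => by ext <;> simp <;> ring)

/-- coordinates -/
def eqv : Cp k p ≃ₗ[k] (Fin 10 → k) where
  toFun u := ![u.e, u.x, u.y, u.z, u.a, u.A, u.b, u.B, u.f, u.E]
  invFun v := ⟨v 0, v 1, v 2, v 3, v 4, v 5, v 6, v 7, v 8, v 9⟩
  map_add' u v := by ext i; fin_cases i <;> rfl
  map_smul' c u := by ext i; fin_cases i <;> rfl
  left_inv _ := rfl
  right_inv v := by ext i; fin_cases i <;> rfl

instance : Module.Finite k (Cp k p) := Module.Finite.equiv (eqv (p := p)).symm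

end Cp

open Cp

/-- basis vectors -/
def bs (p : k) (i : Fin 10) : Cp k p := eqv.symm (Pi.single i 1)

lemma bs0 : bs p 0 = ⟨1, 0, 0, 0, 0, 0, 0, 0, 0, 0⟩ := by ext <;> simp [bs, eqv]
lemma bs1 : bs p 1 = ⟨0, 1, 0, 0, 0, 0, 0, 0, 0, 0⟩ := by ext <;> simp [bs, eqv]
lemma bs2 : bs p 2 = ⟨0, 0, 1, 0, 0, 0, 0, 0, 0, 0⟩ := by ext <;> simp [bs, eqv]
lemma bs3 : bs p 3 = ⟨0, 0, 0, 1, 0, 0, 0, 0, 0, 0⟩ := by ext <;> simp [bs, eqv]
lemma bs4 : bs p 4 = ⟨0, 0, 0, 0, 1, 0, 0, 0, 0, 0⟩ := by ext <;> simp [bs, eqv]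
lemma bs5 : bs p 5 = ⟨0, 0, 0, 0, 0, 1, 0, 0, 0, 0⟩ := by ext <;> simp [bs, eqv]
lemma bs6 : bs p 6 = ⟨0, 0, 0, 0, 0, 0, 1, 0, 0, 0⟩ := by ext <;> simp [bs, eqv]
lemma bs7 : bs p 7 = ⟨0, 0, 0, 0, 0, 0, 0, 1, 0, 0⟩ := by ext <;> simp [bs, eqv]
lemma bs8 : bs p 8 = ⟨0, 0, 0, 0, 0, 0, 0, 0, 1, 0⟩ := by ext <;> simp [bs, eqv]
lemma bs9 : bs p 9 = ⟨0, 0, 0, 0, 0, 0, 0, 0, 0, 1⟩ := by ext <;> simp [bs, eqv]

lemma expand (ψ : Cp k p →ₗ[k] k) (t : Cp k p) : ψ t = t.e * ψ (bs p 0) + t.x * ψ (bs p 1) +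
    t.y * ψ (bs p 2) + t.z * ψ (bs p 3) + t.a * ψ (bs p 4) + t.A * ψ (bs p 5) + t.b * ψ (bs p 6) +
    t.B * ψ (bs p 7) + t.f * ψ (bs p 8) + t.E * ψ (bs p 9) := by
  simp only [← smul_eq_mul, ← map_smul, ← map_add]
  congr 1
  ext <;> simp [bs0, bs1, bs2, bs3, bs4, bs5, bs6, bs7, bs8, bs9]

lemma trace_eq (v : Cp k p) : LinearMap.trace k _ (LinearMap.mulRight k v) = 6 * v.e + 4 * v.f := by
  rw [LinearMap.trace_eq_matrix_trace k (Module.Basis.ofEquivFun (eqv (p := p))), Matrix.trace]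
  simp only [Matrix.diag, LinearMap.toMatrix_apply, Module.Basis.ofEquivFun_repr_apply,
    Module.Basis.coe_ofEquivFun, LinearMap.mulRight_apply]
  change ∑ i, eqv (bs p i * v) i = _
  simp only [Fin.sum_univ_succ, Fin.sum_univ_zero]
  change (bs p 0 * v).e + ((bs p 1 * v).x + ((bs p 2 * v).y + ((bs p 3 * v).z + ((bs p 4 * v).a +
    ((bs p 5 * v).A + ((bs p 6 * v).b + ((bs p 7 * v).B + ((bs p 8 * v).f +
    ((bs p 9 * v).E + 0))))))))) = _
  simp [bs0, bs1, bs2, bs3, bs4, bs5, bs6, bs7, bs8, bs9]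
  ring

/-- the character -/
def chi (p : k) : Cp k p →ₐ[k] k where
  toFun u := u.f
  map_one' := rfl
  map_mul' _ _ := rfl
  map_zero' := rfl
  map_add' _ _ := rfl
  commutes' c := by simp [Algebra.algebraMap_eq_smul_one]

/-- the semisimple quotient -/
def piA (p : k) : Cp k p →ₐ[k] (Fin 2 → k) where
  toFun u := ![u.e, u.f]
  map_one' := by ext i; fin_cases i <;> rfl
  map_mul' _ _ := by ext i; fin_cases i <;> rfl
  map_zero' := by ext i; fin_cases i <;> rfl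
  map_add' _ _ := by ext i; fin_cases i <;> rfl
  commutes' c := by ext i; fin_cases i <;> simp [Algebra.algebraMap_eq_smul_one]

/-- `C e` -/
def Qm (p : k) : Submodule (Cp k p) (Cp k p) where
  carrier := {u | u.a = 0 ∧ u.A = 0 ∧ u.f = 0 ∧ u.E = 0}
  add_mem' := fun ⟨a, b, c, d⟩ ⟨a', b', c', d'⟩ => by simp [*]
  zero_mem' := by simp
  smul_mem' := fun w u ⟨a, b, c, d⟩ => by simp [*]

/-- `C f` -/
def Pm (p : k) : Submodule (Cp k p) (Cp k p) where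
  carrier := {u | u.e = 0 ∧ u.x = 0 ∧ u.y = 0 ∧ u.z = 0 ∧ u.b = 0 ∧ u.B = 0}
  add_mem' := fun ⟨a, b, c, d, e, f⟩ ⟨a', b', c', d', e', f'⟩ => by simp [*]
  zero_mem' := by simp
  smul_mem' := fun w u ⟨a, b, c, d, e, f⟩ => by simp [*]

/-- `rad (C f)` -/
def Wm (p : k) : Submodule (Cp k p) (Cp k p) where
  carrier := {u | (u.e = 0 ∧ u.x = 0 ∧ u.y = 0 ∧ u.z = 0 ∧ u.b = 0 ∧ u.B = 0) ∧ u.f = 0}
  add_mem' := fun ⟨⟨a, b, c, d, e, f⟩, g⟩ ⟨⟨a', b', c', d', e', f'⟩, g'⟩ => by simp [*]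
  zero_mem' := by simp
  smul_mem' := fun w u ⟨⟨a, b, c, d, e, f⟩, g⟩ => by simp [*]

/-- `C (x + l y)` -/
def Mm (p l : k) : Submodule (Cp k p) (Cp k p) where
  carrier := {u | (u.a = 0 ∧ u.A = 0 ∧ u.f = 0 ∧ u.E = 0) ∧ u.e = 0 ∧ u.b = 0 ∧ u.y = l * u.x}
  add_mem' := fun ⟨⟨a, b, c, d⟩, e, f, g⟩ ⟨⟨a', b', c', d'⟩, e', f', g'⟩ => by simp [*, mul_add]
  zero_mem' := by simp
  smul_mem' := fun w u ⟨⟨a, b, c, d⟩, e, f, g⟩ => by simp [*, mul_left_comm]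

/-- `C (x + p² y)` -/
def Km (p : k) : Submodule (Cp k p) (Cp k p) where
  carrier := {u | (u.a = 0 ∧ u.A = 0 ∧ u.f = 0 ∧ u.E = 0) ∧ u.e = 0 ∧ u.b = 0 ∧ u.B = 0 ∧
    u.y = p ^ 2 * u.x}
  add_mem' := fun ⟨⟨a, b, c, d⟩, e, f, g, h⟩ ⟨⟨a', b', c', d'⟩, e', f', g', h'⟩ => by
    simp [*, mul_add]
  zero_mem' := by simp
  smul_mem' := fun w u ⟨⟨a, b, c, d⟩, e, f, g, h⟩ => by
    simp only [Set.mem_ofPred_eq, smul_eq_mul, mul_a, mul_A, mul_f, mul_E, mul_e, mul_b, mul_B,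
      mul_y, mul_x, a, b, c, d, e, f, g, h]
    refine ⟨⟨?_, ?_, ?_, ?_⟩, ?_, ?_, ?_, ?_⟩ <;> ring

/-- right multiplication between submodules -/
def rm (S T : Submodule (Cp k p) (Cp k p)) (v : Cp k p) (h : ∀ u ∈ S, u * v ∈ T) :
    S →ₗ[Cp k p] T where
  toFun u := ⟨u.1 * v, h _ u.2⟩
  map_add' _ _ := Subtype.ext (add_mul _ _ _)
  map_smul' _ _ := Subtype.ext (mul_assoc _ _ _)

lemma ses_rm (S T U : Submodule (Cp k p) (Cp k p)) (hST : S ≤ T) (v : Cp k p)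
    (h : ∀ u ∈ T, u * v ∈ U) (hk : ∀ u ∈ T, u * v = 0 ↔ u ∈ S) (hs : ∀ w ∈ U, ∃ u ∈ T, u * v = w) :
    SES (ModuleCat.of (Cp k p) S) (ModuleCat.of _ T) (ModuleCat.of _ U) := by
  refine SES.mk' (Submodule.inclusion hST) (rm T U v h) (Submodule.inclusion_injective _)
    (fun u => ⟨fun hu => ⟨⟨u.1, (hk _ u.2).1 (congrArg Subtype.val hu)⟩, rfl⟩, ?_⟩) fun w => ?_
  · rintro ⟨s, rfl⟩
    exact Subtype.ext ((hk _ (hST s.2)).2 s.2)
  · obtain ⟨u, hu, e⟩ := hs w.1 w.2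
    exact ⟨⟨u, hu⟩, Subtype.ext e⟩

lemma proj_of (S : Submodule (Cp k p) (Cp k p)) (v : Cp k p) (h : ∀ u, u * v ∈ S)
    (hv : ∀ u ∈ S, u * v = u) : Module.Projective (Cp k p) S :=
  Module.Projective.of_split S.subtype
    (((LinearMap.toSpanSingleton (Cp k p) (Cp k p) v)).codRestrict S h)
    (LinearMap.ext fun u => Subtype.ext (hv _ u.2))

lemma mul_e_mem (u : Cp k p) : u * bs p 0 ∈ Qm p := by simp [Qm, bs0]
lemma mul_f_mem (u : Cp k p) : u * bs p 8 ∈ Pm p := by simp [Pm, bs8]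

lemma projQ : Module.Projective (Cp k p) (Qm p) :=
  proj_of _ (bs p 0) mul_e_mem fun u ⟨a, b, c, d⟩ => by ext <;> simp [bs0, *]

lemma projP : Module.Projective (Cp k p) (Pm p) :=
  proj_of _ (bs p 8) mul_f_mem fun u ⟨a, b, c, d, e, f⟩ => by ext <;> simp [bs8, *]

lemma Qs (g : Qm p →ₗ[Cp k p] Chi (chi p)) : g = 0 := by
  ext u
  have e0 : bs p 0 ∈ Qm p := by simp [Qm, bs0]
  have : u = u.1 • (⟨bs p 0, e0⟩ : Qm p) := by
    obtain ⟨u, a, b, c, d⟩ := u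
    apply Subtype.ext
    ext <;> simp [bs0, *]
  rw [this, map_smul]
  change u.1.f * _ = (0 : k)
  rw [u.2.2.2.1, zero_mul]

lemma sQ (g : Chi (chi p) →ₗ[Cp k p] Qm p) : g = 0 := by
  have key : ∀ (w : Cp k p) (t : Chi (chi p)), w.f = 0 → w * (g t).1 = 0 := by
    intro w t hw
    have : w • t = 0 := by
      change w.f * Chi.val _ t = (0 : k)
      rw [hw, zero_mul]
    have h := congrArg (fun s => (g s).1) this
    simpa using h
  refine LinearMap.ext fun t => Subtype.ext ?_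
  have h1 := key (bs p 0) t (by simp [bs0])
  have h2 := key (bs p 4) t (by simp [bs4])
  obtain ⟨a, b, c, d⟩ := (g t).2
  have e1 := congrArg Cp.e h1
  have e2 := congrArg Cp.x h1
  have e3 := congrArg Cp.y h1
  have e4 := congrArg Cp.z h1
  have e5 := congrArg Cp.x h2
  have e6 := congrArg Cp.z h2
  simp [bs0, bs4] at e1 e2 e3 e4 e5 e6
  ext <;> simp [*]

lemma xvQ (n : ℤ) : XV (ModuleCat.of (Cp k p) (Qm p)) (sM (chi p)) n := by
  rcases lt_trichotomy n 0 with h | rfl | h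
  · exact XV.neg h
  · exact xv_zero_iff.2 Qs
  · exact XV.of_proj projQ h

lemma sesW : SES (ModuleCat.of (Cp k p) (Wm p)) (ModuleCat.of _ (Pm p)) (sM (chi p)) := by
  refine SES.mk' (Submodule.inclusion fun u hu => hu.1)
    { toFun := fun u => Chi.mk _ u.1.f, map_add' := fun _ _ => rfl, map_smul' := fun _ _ => rfl }
    (Submodule.inclusion_injective _) (fun u => ⟨fun hu => ⟨⟨u.1, u.2, hu⟩, rfl⟩, ?_⟩) fun t => ?_
  · rintro ⟨s, rfl⟩
    exact s.2.2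
  · exact ⟨⟨⟨0, 0, 0, 0, 0, 0, 0, 0, Chi.val _ t, 0⟩, by simp [Pm]⟩, rfl⟩

lemma sesM {l l' : k} (hp : p ≠ 0) (hl : l ≠ p ^ 2) (hl' : p * l' = -l) :
    SES (ModuleCat.of (Cp k p) (Mm p l')) (ModuleCat.of _ (Qm p)) (ModuleCat.of _ (Mm p l)) := by
  have hl0 : l - p ^ 2 ≠ 0 := sub_ne_zero.2 hl
  refine ses_rm _ _ _ (fun u hu => hu.1) ⟨0, 1, l, 0, 0, 0, 0, 0, 0, 0⟩
    (fun u _ => by simp [Mm, mul_comm]) (fun u ⟨a, b, c, d⟩ => ⟨fun h => ?_, ?_⟩) ?_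
  · have e1 := congrArg Cp.x h
    have e2 := congrArg Cp.z h
    have e3 := congrArg Cp.B h
    simp only [mul_x, mul_z, mul_B, zero_x, zero_z, zero_B] at e1 e2 e3
    refine ⟨⟨a, b, c, d⟩, by linear_combination e1, mul_left_cancel₀ hl0 (by linear_combination e3),
      mul_left_cancel₀ hp (by linear_combination e2 - u.x * hl')⟩
  · rintro ⟨-, e, f, g⟩
    ext <;> simp [*]
    linear_combination u.x * hl'
  · rintro w ⟨⟨a, b, c, d⟩, e, f, g⟩
    refine ⟨⟨w.x, 0, w.z / p, 0, 0, 0, w.B / (l - p ^ 2), 0, 0, 0⟩, by simp [Qm], ?_⟩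
    ext <;> simp [*] <;> field_simp <;> ring

lemma sesWM (hp : 1 + p ≠ 0) :
    SES (ModuleCat.of (Cp k p) (Mm p 1)) (ModuleCat.of _ (Qm p)) (ModuleCat.of _ (Wm p)) := by
  refine ses_rm _ _ _ (fun u hu => hu.1) (bs p 4)
    (fun u _ => by simp [Wm, bs4]) (fun u ⟨a, b, c, d⟩ => ⟨fun h => ?_, ?_⟩) ?_
  · have e1 := congrArg Cp.a h
    have e2 := congrArg Cp.A h
    have e3 := congrArg Cp.E h
    simp only [bs4, mul_a, mul_A, mul_E, zero_a, zero_A, zero_E] at e1 e2 e3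
    refine ⟨⟨a, b, c, d⟩, by linear_combination e1, mul_left_cancel₀ hp (by linear_combination e3),
      by linear_combination -e2⟩
  · rintro ⟨-, e, f, g⟩
    ext <;> simp [bs4, *]
  · rintro w ⟨⟨a, b, c, d, e, f⟩, g⟩
    refine ⟨⟨w.a, w.A, 0, 0, 0, 0, w.E / (1 + p), 0, 0, 0⟩, by simp [Qm], ?_⟩
    ext <;> simp [bs4, *] <;> field_simp

lemma ses1 (hp : p ≠ 0) :
    SES (ModuleCat.of (Cp k p) (Pm p)) (ModuleCat.of _ (Qm p)) (ModuleCat.of _ (Km p)) := by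
  refine SES.mk' (rm _ _ (bs p 6) fun u _ => by simp [Qm, bs6])
    (rm _ _ ⟨0, 1, p ^ 2, 0, 0, 0, 0, 0, 0, 0⟩ fun u _ => by simp [Km, mul_comm])
    ((injective_iff_map_eq_zero _).2 ?_) (fun u => ⟨fun h => ?_, ?_⟩) ?_
  · rintro ⟨u, a, b, c, d, e, f⟩ h
    have h := congrArg Subtype.val h
    have e1 := congrArg Cp.x h
    have e2 := congrArg Cp.z h
    have e3 := congrArg Cp.b h
    have e4 := congrArg Cp.B h
    simp [rm, bs6, hp] at e1 e2 e3 e4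
    apply Subtype.ext
    ext <;> simp [*]
  · obtain ⟨u, a, b, c, d⟩ := u
    have h := congrArg Subtype.val h
    have e1 := congrArg Cp.x h
    have e2 := congrArg Cp.z h
    simp [rm] at e1 e2
    have e3 : u.y = -(p * u.x) := mul_left_cancel₀ hp (by linear_combination e2)
    refine ⟨⟨⟨0, 0, 0, 0, u.x, -(u.z / p), 0, 0, u.b, -(u.B / p)⟩, by simp [Pm]⟩, Subtype.ext ?_⟩
    ext <;> simp [rm, bs6, *] <;> field_simp
  · rintro ⟨⟨s, a, b, c, d, e, f⟩, rfl⟩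
    apply Subtype.ext
    ext <;> simp [rm, bs6, *] <;> ring
  · rintro ⟨w, ⟨a, b, c, d⟩, e, f, g, h⟩
    refine ⟨⟨⟨w.x, 0, w.z / p, 0, 0, 0, 0, 0, 0, 0⟩, by simp [Qm]⟩, Subtype.ext ?_⟩
    ext <;> simp [rm, *] <;> field_simp

/-- the coordinate functional `z*` -/
def zs (p : k) : CoI k (Cp k p) k :=
  CoI.mk { toFun := Cp.z, map_add' := fun _ _ => rfl, map_smul' := fun _ _ => rfl }

/-- the coordinate functional `B*` -/
def Bs (p : k) : CoI k (Cp k p) k :=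
  CoI.mk { toFun := Cp.B, map_add' := fun _ _ => rfl, map_smul' := fun _ _ => rfl }

/-- `u ↦ u • ψ` -/
def act (ψ : CoI k (Cp k p) k) : Qm p →ₗ[Cp k p] CoI k (Cp k p) k :=
  LinearMap.toSpanSingleton (Cp k p) _ ψ ∘ₗ (Qm p).subtype

lemma act_z (u : Qm p) (t : Cp k p) : (act (zs p) u).lin t = (t * u.1).z := rfl
lemma act_B (u : Qm p) (t : Cp k p) : (act (Bs p) u).lin t = (t * u.1).B := rfl

lemma ker_act (hp : p ≠ 0) (u v : Qm p) (h : act (zs p) u + act (Bs p) v = 0) :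
    u = 0 ∧ v.1 ∈ Km p := by
  have key : ∀ t : Cp k p, (t * u.1).z + (t * v.1).B = 0 := fun t => congr(CoI.lin $h t)
  have e0 := key (bs p 0)
  have e1 := key (bs p 1)
  have e2 := key (bs p 2)
  have e3 := key (bs p 3)
  have e4 := key (bs p 4)
  have e5 := key (bs p 5)
  have e6 := key (bs p 6)
  have e7 := key (bs p 7)
  have e8 := key (bs p 8)
  have e9 := key (bs p 9)
  simp [bs0, bs1, bs2, bs3, bs4, bs5, bs6, bs7, bs8, bs9, hp] at e0 e1 e2 e3 e4 e5 e6 e7 e8 e9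
  obtain ⟨a, b, c, d⟩ := u.2
  refine ⟨Subtype.ext (by ext <;> simp [*]), v.2, e7, e9, e8, by linear_combination e6⟩

/-- preimage of the `eC`-part of a functional -/
def pre (ψ : CoI k (Cp k p) k) : Qm p :=
  ⟨⟨ψ.lin (bs p 3), ψ.lin (bs p 2) / p, ψ.lin (bs p 1), ψ.lin (bs p 0), 0, 0,
    -(ψ.lin (bs p 5) / p), ψ.lin (bs p 4), 0, 0⟩, by simp [Qm]⟩

lemma ses0 (hp : p ≠ 0) : SES (ModuleCat.of (Cp k p) (Km p)) (ModuleCat.of _ (Qm p × Qm p))
    (DG k (Cp k p)) := by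
  refine SES.mk' (LinearMap.inr _ _ _ ∘ₗ Submodule.inclusion fun u hu => hu.1)
    ((act (zs p)).coprod (act (Bs p)))
    (LinearMap.inr_injective.comp (Submodule.inclusion_injective _))
    (fun u => ⟨fun h => ?_, ?_⟩) fun ψ => ?_
  · obtain ⟨h1, h2⟩ := ker_act hp u.1 u.2 h
    exact ⟨⟨u.2.1, h2⟩, Prod.ext h1.symm rfl⟩
  · rintro ⟨⟨s, ⟨a, b, c, d⟩, e, f, g, h⟩, rfl⟩
    refine CoI.ext fun t => ?_
    change (t * 0).z + (t * s).B = 0
    simp [*]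
    ring
  · refine ⟨(pre ψ, ⟨⟨ψ.lin (bs p 7), 0, ψ.lin (bs p 6), 0, 0, 0, -(ψ.lin (bs p 9) / p),
      ψ.lin (bs p 8), 0, 0⟩, by simp [Qm]⟩), CoI.ext fun t => ?_⟩
    rw [expand ψ.lin t]
    change (t * _).z + (t * _).B = _
    simp [pre]
    field_simp
    ring

lemma injQ (hp : p ≠ 0) : Module.Injective (Cp k p) (Qm p) := by
  have hi : Function.Injective (act (zs p)) := (injective_iff_map_eq_zero _).2 fun u hu =>
    (ker_act hp u 0 (by rw [hu, map_zero, add_zero])).1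
  have hm : ∀ ψ, rD k _ (bs p 0) ψ ∈ LinearMap.range (act (zs p)) := fun ψ =>
    ⟨pre ψ, CoI.ext fun t => by
      rw [rD_apply, expand ψ.lin, act_z]
      simp [pre, bs0]
      field_simp⟩
  let r : CoI k (Cp k p) k →ₗ[Cp k p] Qm p :=
    (LinearEquiv.ofInjective _ hi).symm.toLinearMap ∘ₗ (rD k _ (bs p 0)).codRestrict _ hm
  have hr : ∀ u, r (act (zs p) u) = u := fun u => by
    apply hi
    refine (congrArg Subtype.val ((LinearEquiv.ofInjective _ hi).apply_symm_apply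
      ⟨_, hm (act (zs p) u)⟩)).trans (CoI.ext fun t => ?_)
    rw [rD_apply, act_z, act_z]
    simp [bs0]
  refine ⟨fun X Y _ _ _ _ f hf g => ?_⟩
  obtain ⟨h, hh⟩ := (CoI.injective (k := k) (Γ := Cp k p) (V := k)).out f hf (act (zs p) ∘ₗ g)
  exact ⟨r ∘ₗ h, fun x => by rw [LinearMap.comp_apply, hh]; exact hr _⟩

lemma nil (v : Cp k p) (he : v.e = 0) (hf : v.f = 0) : IsNilpotent v := by
  refine ⟨5, ?_⟩
  have h2 : ∀ u : Cp k p, u.e = 0 → u.f = 0 → (u * v).e = 0 ∧ (u * v).f = 0 ∧ (u * v).a = 0 ∧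
      (u * v).b = 0 := fun u a b => by simp [*]
  have h3 : ∀ u : Cp k p, u.e = 0 → u.f = 0 → u.a = 0 → u.b = 0 → (u * v).x = 0 ∧ (u * v).y = 0 ∧
      (u * v).E = 0 := fun u a b c d => by simp [*]
  have h4 : ∀ u : Cp k p, u.e = 0 → u.f = 0 → u.a = 0 → u.b = 0 → u.x = 0 → u.y = 0 → u.E = 0 →
      (u * v).A = 0 ∧ (u * v).B = 0 := fun u a b c d e f g => by simp [*]
  obtain ⟨a1, a2, a3, a4⟩ := h2 v he hf
  obtain ⟨b1, b2, b3, b4⟩ := h2 _ a1 a2
  obtain ⟨b5, b6, b7⟩ := h3 _ a1 a2 a3 a4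
  obtain ⟨c1, c2, c3, c4⟩ := h2 _ b1 b2
  obtain ⟨c5, c6, c7⟩ := h3 _ b1 b2 b3 b4
  obtain ⟨c8, c9⟩ := h4 _ b1 b2 b3 b4 b5 b6 b7
  have : v ^ 5 = v * v * v * v * v := by simp only [pow_succ, pow_zero, one_mul]
  rw [this]
  generalize v * v * v * v = w at *
  ext <;> simp [*]

end K1

universe u

open K1 K1.Cp in
theorem k1Stmt : K1Stmt.{u} := by
  intro k _ _ q hq hn
  obtain ⟨p, hpq⟩ : ∃ p : k, p * q = -1 := ⟨-q⁻¹, by field_simp⟩
  have hp : p ≠ 0 := by rintro rfl; simp at hpq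
  have hp1 : 1 + p ≠ 0 := fun h => hn 1 one_pos (by linear_combination q * h - hpq)
  have hl : ∀ i : ℕ, q ^ i ≠ p ^ 2 := fun i h => hn (i + 2) (by omega) (by
    linear_combination q ^ 2 * h + (p * q - 1) * hpq)
  have hN : IsNoetherianRing (Cp k p) := noeth k _
  refine ⟨Cp k p, inferInstance, inferInstance, inferInstance, chi p, ⟨{
    Q := ModuleCat.of _ (Qm p)
    P := ModuleCat.of _ (Pm p)
    W := ModuleCat.of _ (Wm p)
    K := ModuleCat.of _ (Km p)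
    finQ := inferInstance
    finP := inferInstance
    projQ := projQ
    injQ := injQ hp
    projP := projP
    sQ := sQ
    Qs := Qs
    sesW := sesW
    Ws := fun n => XV.src₃ (sesWM hp1) ?_ (xvQ n)
    ses1 := ses1 hp
    ses0 := ses0 hp
    retr := ⟨((LinearMap.toSpanSingleton _ _ (bs p 0)).codRestrict _ mul_e_mem).prod
        ((LinearMap.toSpanSingleton _ _ (bs p 8)).codRestrict _ mul_f_mem),
      (Qm p).subtype.coprod (Pm p).subtype, fun u => ?_⟩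
    iq := (Qm p).subtype
    gen := fun v hv => ?_
    tr := fun v => ?_
    rad := ⟨piA p, fun w => ⟨⟨w 0, 0, 0, 0, 0, 0, 0, 0, w 1, 0⟩, ?_⟩,
      fun v hv => nil v (congrFun hv 0) (congrFun hv 1), bs p 4, bs p 6, ?_, ?_, fun h => ?_⟩ }⟩⟩
  · have := xv_all_src (fun i : ℕ => ModuleCat.of (Cp k p) (Mm p (q ^ i))) (sM (chi p))
      (fun i => ⟨i + 1, _, sesM hp (hl i) (by rw [pow_succ]; linear_combination q ^ i * hpq), xvQ⟩)
      (n - 1) 0
    rwa [pow_zero] at this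
  · change u * bs p 0 + u * bs p 8 = u
    ext <;> simp [bs0, bs8]
  · have hv' : v.f = 0 := hv
    have e0 : bs p 0 ∈ Qm p := by simp [Qm, bs0]
    have e6 : bs p 6 ∈ Qm p := by simp [Qm, bs6]
    have : v = v * bs p 0 * 1 + bs p 0 * (v * bs p 8) + (v.E / (1 + p)) • (bs p 6 * bs p 4) := by
      ext <;> simp [bs0, bs4, bs6, bs8, hv', hp1]
    rw [this]
    exact Submodule.add_mem _ (Submodule.add_mem _
      (Submodule.subset_span ⟨⟨_, mul_e_mem v⟩, 1, rfl⟩) (Submodule.subset_span ⟨⟨_, e0⟩, _, rfl⟩))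
      (Submodule.smul_mem _ _ (Submodule.subset_span ⟨⟨_, e6⟩, _, rfl⟩))
  · have h2 : (2 : k) = 0 := CharP.cast_eq_zero k 2
    rw [trace_eq]
    linear_combination (3 * v.e + 2 * v.f) * h2
  · ext i; fin_cases i <;> rfl
  · ext i; fin_cases i <;> simp [piA, bs4]
  · ext i; fin_cases i <;> simp [piA, bs6]
  · simpa [bs4, bs6] using congrArg Cp.x h

end Crest.Agent.R186
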