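import Crest.Agent.R186.Defs0
import Crest.Agent.R178.Hom

/-! 186-D: `GorProjVanishingData` from a complete resolution, and base change. -/

set_option autoImplicit false
set_option linter.unusedSectionVars false
open CategoryTheory Crest.AlgebraR
open scoped TensorProduct

namespace Crest.Agent.R186

universe u v

namespace D

section core
variable {R : Type u} [Ring R]

theorem ext_vanish {P : ℤ → Type u} [∀ n, AddCommGroup (P n)] [∀ n, Module R (P n)]
    [∀ n, Module.Projective R (P n)] (d : ∀ n : ℤ, P (n + 1) →ₗ[R] P n)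
    (ex : ∀ n : ℤ, Function.Exact (d (n + 1)) (d n)) (N : Type u) [AddCommGroup N] [Module R N]
    (exN : ∀ n : ℤ, 0 ≤ n → Function.Exact (fun f : P n →ₗ[R] N => f ∘ₗ d n)
      (fun g : P (n + 1) →ₗ[R] N => g ∘ₗ d (n + 1))) (i : ℕ) :
    ∀ (m : ℤ), 0 ≤ m → ∀ (Z : Type u) [AddCommGroup Z] [Module R Z] (π : P m →ₗ[R] Z),
      Function.Surjective π → Function.Exact (d m) π →
      ∀ x : Abelian.Ext (ModuleCat.of R Z) (ModuleCat.of R N) (i + 1), x = 0 := by
  induction i with
  | zero =>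
    intro m hm Z _ _ π hπ hex x
    have hS := R178.ses (LinearMap.range (d m)).subtype π Subtype.val_injective
      (fun y => (hex y).trans (by simp)) hπ
    have : Projective (ModuleCat.of R (P m)) := (IsProjective.iff_projective _).1 inferInstance
    obtain ⟨y, rfl⟩ := Abelian.Ext.contravariant_sequence_exact₃ hS _ x
      (Abelian.Ext.eq_zero_of_projective _) (n₀ := 0) rfl
    obtain ⟨φ, rfl⟩ := (Abelian.Ext.mk₀_bijective _ _).2 y
    let ψ : LinearMap.range (d m) →ₗ[R] N := φ.hom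
    obtain ⟨f, hf⟩ := (exN m hm (ψ ∘ₗ (d m).rangeRestrict)).1 (by
      ext z
      have : (d m).rangeRestrict (d (m + 1) z) = 0 := Subtype.ext ((ex m).apply_apply_eq_zero z)
      simp [this])
    have e : φ = ModuleCat.ofHom (LinearMap.range (d m)).subtype ≫ ModuleCat.ofHom f := by
      ext ⟨_, z, rfl⟩
      exact (LinearMap.congr_fun hf z).symm
    rw [e, ← Abelian.Ext.mk₀_comp_mk₀]
    exact hS.extClass_comp_assoc _
  | succ i ih =>
    intro m hm Z _ _ π hπ hex x
    have hS := R178.ses (LinearMap.range (d m)).subtype π Subtype.val_injective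
      (fun y => (hex y).trans (by simp)) hπ
    have : Projective (ModuleCat.of R (P m)) := (IsProjective.iff_projective _).1 inferInstance
    obtain ⟨y, rfl⟩ := Abelian.Ext.contravariant_sequence_exact₃ hS _ x
      (Abelian.Ext.eq_zero_of_projective _) (n₀ := i + 1) (by omega)
    have := ih (m + 1) (by omega) (LinearMap.range (d m)) (d m).rangeRestrict
      (d m).surjective_rangeRestrict (fun z => by
        rw [← ex m z]; exact Subtype.ext_iff) y
    rw [this, Abelian.Ext.comp_zero]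

theorem jac_eq {F : Type u} [Field F] [Algebra F R] {m : ℕ} (π : R →ₐ[F] (Fin m → F))
    (hs : Function.Surjective π) (hn : ∀ x, π x = 0 → IsNilpotent x) :
    Ring.jacobson R = RingHom.ker π := by
  refine le_antisymm (fun x hx => ?_) fun x hx => ?_
  · have : RingHomSurjective (π : R →+* (Fin m → F)) := ⟨hs⟩
    have := Ring.le_comap_jacobson (π : R →+* (Fin m → F)) hx
    rwa [IsSemisimpleRing.jacobson_eq_bot] at this
  · rw [← Ideal.jacobson_bot, Ideal.mem_jacobson_iff]
    intro y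
    have h1 : IsNilpotent (y * x) := hn _ (by rw [map_mul, RingHom.mem_ker.1 hx, mul_zero])
    obtain ⟨z, hz⟩ := h1.isUnit_add_one.exists_left_inv
    exact ⟨z, by rw [Ideal.mem_bot, sub_eq_zero, ← hz, mul_add, mul_one, mul_assoc]⟩

theorem core {F : Type u} [Field F] [Algebra F R] [FiniteDimensional F R] {Z : Type u}
    [AddCommGroup Z] [Module R Z] (C : CRes R Z) (hp : ¬ Module.Projective R Z)
    (hr : Rad F R 8) : GorProjVanishingData F R Z := by
  obtain ⟨π, hs, hn, a, b, c, d, ha, hb, hc, hd, h⟩ := hr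
  have hJ := jac_eq π hs hn
  refine ⟨inferInstance, ⟨(Ideal.quotientEquivAlgOfEq F hJ).trans
    (Ideal.quotientKerAlgEquivOfSurjective hs)⟩, fun h4 => h ?_,
    Module.Finite.of_surjective C.π C.π_surj, hp, ⟨fun n => Fin (C.r n) → R, inferInstance,
      inferInstance, C.d, fun n => ⟨inferInstance, inferInstance⟩, C.ex, C.exΛ,
      ⟨((Submodule.quotEquivOfEq _ _ C.ex0.linearMap_ker_eq.symm).trans
        (C.π.quotKerEquivOfSurjective C.π_surj)).symm⟩⟩, fun i hi => ?_, fun i hi => ?_⟩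
  · rw [← Ideal.mem_bot, ← h4, hJ, Submodule.pow_succ, Submodule.pow_succ, Submodule.pow_succ,
      Submodule.pow_one]
    exact Ideal.mul_mem_mul (Ideal.mul_mem_mul (Ideal.mul_mem_mul ha hb) hc) hd
  · obtain ⟨i, rfl⟩ := Nat.exists_eq_succ_of_ne_zero hi.ne'
    exact subsingleton_of_forall_eq 0 (ext_vanish (P := fun n => Fin (C.r n) → R) C.d C.ex Z
      (fun n hn => C.exZ n (by omega) (by omega)) i 0 le_rfl Z C.π C.π_surj C.ex0)
  · obtain ⟨i, rfl⟩ := Nat.exists_eq_succ_of_ne_zero hi.ne'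
    exact subsingleton_of_forall_eq 0 (ext_vanish (P := fun n => Fin (C.r n) → R) C.d C.ex R
      (fun n _ => C.exΛ n) i 0 le_rfl Z C.π C.π_surj C.ex0)

/-- the action of a map of free modules on column vectors -/
def col {a b : ℕ} (d : (Fin b → R) →ₗ[R] (Fin a → R)) {N : Type*} [AddCommGroup N] [Module R N]
    (v : Fin a → N) : Fin b → N := fun i => ∑ j, d (Pi.single i 1) j • v j

theorem col_iff {a b c : ℕ} (d₁ : (Fin b → R) →ₗ[R] (Fin a → R))
    (d₂ : (Fin c → R) →ₗ[R] (Fin b → R)) (N : Type*) [AddCommGroup N] [Module R N] :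
    Function.Exact (fun f : (Fin a → R) →ₗ[R] N => f ∘ₗ d₁)
      (fun g : (Fin b → R) →ₗ[R] N => g ∘ₗ d₂) ↔
    Function.Exact (col d₁ (N := N)) (col d₂ (N := N)) := by
  have key : ∀ {a b : ℕ} (d : (Fin b → R) →ₗ[R] (Fin a → R)) (v : Fin a → N),
      Fintype.linearCombination R v ∘ₗ d = Fintype.linearCombination R (col d v) := by
    intro a b d v
    refine LinearMap.pi_ext' fun i => LinearMap.ext_ring ?_
    simp [col, Fintype.linearCombination_apply, Pi.single_apply]
  have inj : ∀ {a : ℕ} {v w : Fin a → N},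
      Fintype.linearCombination R v = Fintype.linearCombination R w → v = w := by
    intro a v w h
    funext i
    simpa using LinearMap.congr_fun h (Pi.single i 1)
  have sur : ∀ {a : ℕ} (f : (Fin a → R) →ₗ[R] N), ∃ v, f = Fintype.linearCombination R v := by
    intro a f
    refine ⟨fun i => f (Pi.single i 1), LinearMap.pi_ext' fun i => LinearMap.ext_ring ?_⟩
    simp
  have zero : ∀ {a : ℕ}, Fintype.linearCombination R (0 : Fin a → N) = 0 := by
    intro a
    refine LinearMap.pi_ext' fun i => LinearMap.ext_ring ?_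
    simp
  constructor
  · intro h v
    have := h (Fintype.linearCombination R v)
    simp only [key] at this
    constructor
    · intro h0
      obtain ⟨f, hf⟩ := this.1 (by rw [h0, zero])
      obtain ⟨w, rfl⟩ := sur f
      exact ⟨w, inj ((key d₁ w).symm.trans hf)⟩
    · rintro ⟨w, rfl⟩
      exact inj ((this.2 ⟨_, key d₁ w⟩).trans zero.symm)
  · intro h g
    obtain ⟨v, rfl⟩ := sur g
    simp only [key]
    constructor
    · intro h0
      obtain ⟨w, rfl⟩ := (h v).1 (inj (h0.trans zero.symm))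
      exact ⟨_, key d₁ w⟩
    · rintro ⟨f, hf⟩
      obtain ⟨w, rfl⟩ := sur f
      rw [(h v).2 ⟨w, inj ((key d₁ w).symm.trans hf)⟩, zero]

end core

section bc
variable {k : Type} [Field k] {Λ : Type} [Ring Λ] [Algebra k Λ]
  {E : Type v} [Field E] [Algebra k E]

section
variable {M N Q : Type} [AddCommGroup M] [Module Λ M] [Module k M] [IsScalarTower k Λ M]
  [AddCommGroup N] [Module Λ N] [Module k N] [IsScalarTower k Λ N]
  [AddCommGroup Q] [Module Λ Q] [Module k Q] [IsScalarTower k Λ Q]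
  {M' N' Q' : Type v} [AddCommGroup M'] [Module (E ⊗[k] Λ) M']
  [AddCommGroup N'] [Module (E ⊗[k] Λ) N'] [AddCommGroup Q'] [Module (E ⊗[k] Λ) Q']

variable (Λ) in
/-- `θ` identifies `M'` with the base change of `M` -/
def IsBC (θ : E ⊗[k] M ≃+ M') : Prop :=
  ∀ (a b : E) (r : Λ) (z : M), (a ⊗ₜ[k] r) • θ (b ⊗ₜ[k] z) = θ ((a * b) ⊗ₜ[k] (r • z))

/-- base change of a linear map -/
noncomputable def bc {θ : E ⊗[k] M ≃+ M'} {η : E ⊗[k] N ≃+ N'} (hθ : IsBC Λ θ) (hη : IsBC Λ η)
    (f : M →ₗ[Λ] N) : M' →ₗ[E ⊗[k] Λ] N' where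
  toFun x := η ((f.restrictScalars k).lTensor E (θ.symm x))
  map_add' x y := by simp only [map_add]
  map_smul' c x := by
    obtain ⟨x, rfl⟩ := θ.surjective x
    rw [RingHom.id_apply, θ.symm_apply_apply]
    induction c using TensorProduct.induction_on with
    | zero => simp
    | add c c' h h' => simp only [add_smul, map_add, h, h']
    | tmul a r =>
      induction x using TensorProduct.induction_on with
      | zero => simp
      | add x y h h' => simp only [smul_add, map_add, h, h']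
      | tmul b z =>
        rw [hθ, θ.symm_apply_apply, LinearMap.lTensor_tmul, LinearMap.lTensor_tmul, hη]
        simp

theorem bc_apply {θ : E ⊗[k] M ≃+ M'} {η : E ⊗[k] N ≃+ N'} (hθ : IsBC Λ θ) (hη : IsBC Λ η)
    (f : M →ₗ[Λ] N) (x : E ⊗[k] M) :
    bc hθ hη f (θ x) = η ((f.restrictScalars k).lTensor E x) := by
  simp [bc]

theorem exact_of {X Y Z : Type} [AddCommGroup X] [Module k X] [AddCommGroup Y] [Module k Y]
    [AddCommGroup Z] [Module k Z] {X' Y' Z' : Type v} [AddCommGroup X'] [AddCommGroup Y']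
    [AddCommGroup Z'] (θ : E ⊗[k] X ≃+ X') (η : E ⊗[k] Y ≃+ Y') (ζ : E ⊗[k] Z ≃+ Z')
    {f : X →ₗ[k] Y} {g : Y →ₗ[k] Z} (h : Function.Exact f g) {f' : X' → Y'} {g' : Y' → Z'}
    (hf : ∀ x, f' (θ x) = η (f.lTensor E x)) (hg : ∀ y, g' (η y) = ζ (g.lTensor E y)) :
    Function.Exact f' g' := by
  intro y
  obtain ⟨y, rfl⟩ := η.surjective y
  rw [hg, map_eq_zero_iff _ ζ.injective, Module.Flat.lTensor_exact E h y]
  constructor
  · rintro ⟨x, rfl⟩
    exact ⟨θ x, hf x⟩
  · rintro ⟨x, hx⟩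
    obtain ⟨x, rfl⟩ := θ.surjective x
    exact ⟨x, η.injective ((hf x).symm.trans hx)⟩

theorem bc_exact {θ : E ⊗[k] M ≃+ M'} {η : E ⊗[k] N ≃+ N'} {ζ : E ⊗[k] Q ≃+ Q'} (hθ : IsBC Λ θ)
    (hη : IsBC Λ η) (hζ : IsBC Λ ζ) {f : M →ₗ[Λ] N} {g : N →ₗ[Λ] Q} (h : Function.Exact f g) :
    Function.Exact (bc hθ hη f) (bc hη hζ g) :=
  exact_of θ η ζ (f := f.restrictScalars k) (g := g.restrictScalars k) h (bc_apply hθ hη f)
    (bc_apply hη hζ g)

theorem bc_surj {θ : E ⊗[k] M ≃+ M'} {η : E ⊗[k] N ≃+ N'} (hθ : IsBC Λ θ) (hη : IsBC Λ η)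
    {f : M →ₗ[Λ] N} (h : Function.Surjective f) : Function.Surjective (bc hθ hη f) := fun y => by
  obtain ⟨y, rfl⟩ := η.surjective y
  obtain ⟨x, rfl⟩ := LinearMap.lTensor_surjective E (g := f.restrictScalars k) h y
  exact ⟨θ x, bc_apply hθ hη f x⟩

/-- finite powers -/
noncomputable def piE (θ : E ⊗[k] M ≃+ M') (a : ℕ) : E ⊗[k] (Fin a → M) ≃+ (Fin a → M') :=
  (TensorProduct.piRight k k E fun _ : Fin a => M).toAddEquiv.trans (AddEquiv.piCongrRight fun _ => θ)

theorem piE_tmul (θ : E ⊗[k] M ≃+ M') (a : ℕ) (b : E) (v : Fin a → M) (i : Fin a) :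
    piE θ a (b ⊗ₜ v) i = θ (b ⊗ₜ v i) := rfl

theorem IsBC.pi {θ : E ⊗[k] M ≃+ M'} (hθ : IsBC Λ θ) (a : ℕ) : IsBC Λ (piE θ a) :=
  fun c b r v => funext fun i => hθ c b r (v i)

theorem isBC_self : IsBC Λ (AddEquiv.refl (E ⊗[k] Λ)) := fun _ _ _ _ =>
  Algebra.TensorProduct.tmul_mul_tmul ..

variable (k N) in
/-- `col` as a `k`-linear map -/
def colk {a b : ℕ} (d : (Fin b → Λ) →ₗ[Λ] (Fin a → Λ)) : (Fin a → N) →ₗ[k] (Fin b → N) where
  toFun := col d
  map_add' v w := by funext i; simp [col, Finset.sum_add_distrib]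
  map_smul' c v := by funext i; simp [col, Finset.smul_sum, smul_comm c]

theorem col_bc {η : E ⊗[k] N ≃+ N'} (hη : IsBC Λ η) {a b : ℕ} (d : (Fin b → Λ) →ₗ[Λ] (Fin a → Λ))
    (x : E ⊗[k] (Fin a → N)) :
    col (bc ((isBC_self (k := k) (E := E)).pi b) (isBC_self.pi a) d) (piE η a x) =
      piE η b ((colk k N d).lTensor E x) := by
  have e : ∀ i : Fin b, (Pi.single i 1 : Fin b → E ⊗[k] Λ) =
      piE (AddEquiv.refl (E ⊗[k] Λ)) b (1 ⊗ₜ Pi.single i 1) := fun i => funext fun j => by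
    rw [piE_tmul, Pi.single_apply, Pi.single_apply]
    split_ifs
    · rfl
    · simp
  funext i
  induction x using TensorProduct.induction_on with
  | zero => simp [col]
  | add x y h h' =>
    simp only [col, map_add, Pi.add_apply, smul_add, Finset.sum_add_distrib] at *
    rw [h, h']
  | tmul c v =>
    rw [LinearMap.lTensor_tmul, piE_tmul, col, e, bc_apply, LinearMap.lTensor_tmul]
    show _ = η (c ⊗ₜ ∑ j, d (Pi.single i 1) j • v j)
    rw [TensorProduct.tmul_sum, map_sum]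
    refine Finset.sum_congr rfl fun j _ => ?_
    rw [piE_tmul, piE_tmul, AddEquiv.refl_apply, hη, one_mul]
    rfl

theorem hom_exact {η : E ⊗[k] N ≃+ N'} (hη : IsBC Λ η) {a b c : ℕ}
    {d₁ : (Fin b → Λ) →ₗ[Λ] (Fin a → Λ)} {d₂ : (Fin c → Λ) →ₗ[Λ] (Fin b → Λ)}
    (h : Function.Exact (fun f : (Fin a → Λ) →ₗ[Λ] N => f ∘ₗ d₁)
      (fun g : (Fin b → Λ) →ₗ[Λ] N => g ∘ₗ d₂)) :
    Function.Exact (fun f : (Fin a → E ⊗[k] Λ) →ₗ[E ⊗[k] Λ] N' =>
        f ∘ₗ bc ((isBC_self (E := E)).pi b) (isBC_self.pi a) d₁)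
      (fun g : (Fin b → E ⊗[k] Λ) →ₗ[E ⊗[k] Λ] N' =>
        g ∘ₗ bc ((isBC_self (E := E)).pi c) (isBC_self.pi b) d₂) :=
  (col_iff _ _ N').2 (exact_of (piE η a) (piE η b) (piE η c) (f := colk k N d₁) (g := colk k N d₂)
    ((col_iff _ _ N).1 h) (col_bc hη d₁) (col_bc hη d₂))

/-- base change of a complete resolution -/
noncomputable def cres {η : E ⊗[k] N ≃+ N'} (hη : IsBC Λ η) (C : CRes Λ N) :
    CRes (E ⊗[k] Λ) N' where
  r := C.r
  d n := bc (isBC_self.pi _) (isBC_self.pi _) (C.d n)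
  ex n := bc_exact _ _ _ (C.ex n)
  exΛ n := hom_exact isBC_self (C.exΛ n)
  π := bc (isBC_self.pi _) hη C.π
  π_surj := bc_surj _ _ C.π_surj
  ex0 := bc_exact _ _ _ C.ex0
  exZ n h1 h2 := hom_exact hη (C.exZ n h1 h2)

/-- contraction with a linear form -/
noncomputable def ctr (τ : E →ₗ[k] k) (X : Type) [AddCommGroup X] [Module k X] :
    E ⊗[k] X →ₗ[k] X := TensorProduct.lift ((LinearMap.lsmul k X).comp τ)

theorem ctr_tmul (τ : E →ₗ[k] k) {X : Type} [AddCommGroup X] [Module k X] (e : E) (x : X) :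
    ctr τ X (e ⊗ₜ x) = τ e • x := rfl

theorem ctr_nat (τ : E →ₗ[k] k) {X Y : Type} [AddCommGroup X] [Module k X] [AddCommGroup Y]
    [Module k Y] (f : X →ₗ[k] Y) (x : E ⊗[k] X) : ctr τ Y (f.lTensor E x) = f (ctr τ X x) := by
  induction x using TensorProduct.induction_on with
  | zero => simp
  | add x y h h' => simp only [map_add, h, h']
  | tmul c v => simp [ctr_tmul]

variable (k E) in
theorem exists_τ : ∃ τ : E →ₗ[k] k, τ 1 = 1 := by
  obtain ⟨τ, h⟩ := (Algebra.linearMap k E).exists_leftInverse_of_injective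
    (LinearMap.ker_eq_bot.2 (algebraMap k E).injective)
  exact ⟨τ, by simpa using LinearMap.congr_fun h 1⟩

theorem IsBC.ctr_smul {θ : E ⊗[k] M ≃+ M'} (hθ : IsBC Λ θ) (τ : E →ₗ[k] k) (r : Λ) (x : M') :
    ctr τ M (θ.symm (((1 : E) ⊗ₜ[k] r) • x)) = r • ctr τ M (θ.symm x) := by
  obtain ⟨x, rfl⟩ := θ.surjective x
  induction x using TensorProduct.induction_on with
  | zero => simp
  | add x y h h' => simp only [map_add, smul_add, h, h']
  | tmul c v =>
    rw [hθ, θ.symm_apply_apply, θ.symm_apply_apply, ctr_tmul, ctr_tmul, one_mul, smul_comm]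

theorem proj_desc {θ : E ⊗[k] M ≃+ M'} {η : E ⊗[k] N ≃+ N'} (hθ : IsBC Λ θ) (hη : IsBC Λ η)
    [Module.Projective Λ M] {f : M →ₗ[Λ] N} (h : Function.Surjective f)
    [Module.Projective (E ⊗[k] Λ) N'] : Module.Projective Λ N := by
  obtain ⟨τ, hτ⟩ := exists_τ k E
  obtain ⟨s, hs⟩ := Module.projective_lifting_property (bc hθ hη f) LinearMap.id (bc_surj hθ hη h)
  let t : N →ₗ[Λ] M :=
    { toFun := fun z => ctr τ M (θ.symm (s (η (1 ⊗ₜ z))))
      map_add' := fun x y => by simp only [TensorProduct.tmul_add, map_add]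
      map_smul' := fun r z => by
        rw [← one_mul (1 : E), ← hη, map_smul, hθ.ctr_smul, one_mul]; rfl }
  refine Module.Projective.of_split t f (LinearMap.ext fun z => ?_)
  have h1 := bc_apply hθ hη f (θ.symm (s (η (1 ⊗ₜ z))))
  rw [θ.apply_symm_apply, show bc hθ hη f (s (η (1 ⊗ₜ z))) = η (1 ⊗ₜ z) from
    LinearMap.congr_fun hs _] at h1
  have h2 := ctr_nat τ (f.restrictScalars k) (θ.symm (s (η (1 ⊗ₜ z))))
  rw [← η.injective h1, ctr_tmul, hτ, one_smul] at h2
  exact h2.symm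

end

theorem rad_bc [FiniteDimensional k Λ] {m : ℕ} (h : Rad k Λ m) : Rad E (E ⊗[k] Λ) m := by
  obtain ⟨π, hs, hn, a, b, c, d, ha, hb, hc, hd, h⟩ := h
  let π' : E ⊗[k] Λ →ₐ[E] (Fin m → E) :=
    (Algebra.TensorProduct.piScalarRight k E E (Fin m)).toAlgHom.comp
      (Algebra.TensorProduct.map (AlgHom.id E E) π)
  have e : ∀ x, π' x = Algebra.TensorProduct.piScalarRight k E E (Fin m)
      (π.toLinearMap.lTensor E x) := fun x => rfl
  have h1 : ∀ x, π x = 0 → π' (1 ⊗ₜ x) = 0 := fun x hx => by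
    rw [e, LinearMap.lTensor_tmul, AlgHom.toLinearMap_apply, hx, TensorProduct.tmul_zero, map_zero]
  refine ⟨π', fun y => ?_, fun x hx => ?_, _, _, _, _, h1 a ha, h1 b hb, h1 c hc, h1 d hd,
    fun h0 => h ?_⟩
  · obtain ⟨y, rfl⟩ := (Algebra.TensorProduct.piScalarRight k E E (Fin m)).surjective y
    obtain ⟨x, rfl⟩ := LinearMap.lTensor_surjective E (g := π.toLinearMap) hs y
    exact ⟨x, e x⟩
  · have : IsArtinianRing Λ := IsArtinianRing.of_finite k Λ
    obtain ⟨n, hN⟩ : IsNilpotent (Ring.jacobson Λ) := IsSemiprimaryRing.isNilpotent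
    rw [jac_eq π hs hn] at hN
    rw [e, map_eq_zero_iff _ (AlgEquiv.injective _)] at hx
    obtain ⟨x, rfl⟩ := (Module.Flat.lTensor_exact E (LinearMap.exact_subtype_ker_map π.toLinearMap)
      x).1 hx
    clear hx
    let I : ℕ → AddSubgroup (E ⊗[k] Λ) := fun j =>
      AddSubgroup.closure {t | ∃ (e : E) (y : Λ), y ∈ RingHom.ker π ^ j ∧ t = e ⊗ₜ y}
    have key : ∀ j, ∀ t ∈ I j, t * (LinearMap.ker π.toLinearMap).subtype.lTensor E x ∈ I (j + 1) := by
      intro j t ht
      induction x using TensorProduct.induction_on with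
      | zero => simp
      | add x y h h' => rw [map_add, mul_add]; exact add_mem h h'
      | tmul e' y' =>
        induction ht using AddSubgroup.closure_induction with
        | mem t ht =>
          obtain ⟨e, y, hy, rfl⟩ := ht
          exact AddSubgroup.subset_closure ⟨e * e', y * y', Ideal.mul_mem_mul hy y'.2,
            Algebra.TensorProduct.tmul_mul_tmul ..⟩
        | zero => simp
        | add s t _ _ h h' => rw [add_mul]; exact add_mem h h'
        | neg s _ h => rw [neg_mul]; exact neg_mem h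
    have key2 : ∀ j, ((LinearMap.ker π.toLinearMap).subtype.lTensor E x) ^ j ∈ I j := by
      intro j
      induction j with
      | zero => exact AddSubgroup.subset_closure ⟨1, 1, by rw [Submodule.pow_zero, Ideal.one_eq_top]; trivial, rfl⟩
      | succ j ih => rw [pow_succ]; exact key j _ ih
    refine ⟨n, ?_⟩
    have : I n ≤ ⊥ := (AddSubgroup.closure_le _).2 (by
      rintro _ ⟨e, y, hy, rfl⟩
      rw [hN] at hy
      rw [Ideal.mem_bot.1 hy]
      simp)
    exact this (key2 n)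
  · obtain ⟨τ, hτ⟩ := exists_τ k E
    simp only [Algebra.TensorProduct.tmul_mul_tmul, one_mul] at h0
    have := congrArg (ctr τ Λ) h0
    rwa [ctr_tmul, hτ, one_smul, map_zero] at this

variable (Λ E) in
/-- the module structure on the base change -/
noncomputable abbrev bcMod (Z : Type) [AddCommGroup Z] [Module Λ Z] [Module k Z]
    [IsScalarTower k Λ Z] : Module (E ⊗[k] Λ) (E ⊗[k] Z) :=
  Module.compHom (E ⊗[k] Z) ((Module.endTensorEndAlgHom (R := k) (S := k) (A := k) (M := E)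
    (N := Z)).comp (Algebra.TensorProduct.map (Algebra.lsmul k k E : E →ₐ[k] Module.End k E)
      (Algebra.lsmul k k Z : Λ →ₐ[k] Module.End k Z))).toRingHom

end bc

end D

open D in
theorem dStmt : DStmt.{v} := by
  intro k _ Λ _ _ _ Z _ _ _ _ C hp hr
  refine ⟨core C hp hr, fun E _ _ => ?_⟩
  letI := bcMod (k := k) Λ E Z
  have h : IsBC Λ (AddEquiv.refl (E ⊗[k] Z)) := fun _ _ _ _ => rfl
  exact ⟨this, h, core (cres h C) (fun _ => hp (proj_desc (isBC_self.pi _) h C.π_surj)) (rad_bc hr)⟩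

end Crest.Agent.R186
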