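import Mathlib
import Crest.Prelude.Def_GorProjVanishing
import Crest.Prelude.Def_SymmetricAlgebra
import Crest.Prelude.Def_Tilting

/-! Row 186: interfaces of the "outer" sub-tasks B, C, D. -/

set_option autoImplicit false
open CategoryTheory Crest.AlgebraR
open scoped TensorProduct

namespace Crest.Agent.R186

universe u v

/-- A complete resolution of `Z` by finite free modules, totally acyclic, such that
`Hom(P_•, Z)` is exact at every place `m ∉ {0, -1}` (Tate cohomology of `Z` lives in degrees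
`0, -1` only). -/
structure CRes (Λ : Type u) [Ring Λ] (Z : Type u) [AddCommGroup Z] [Module Λ Z] where
  r : ℤ → ℕ
  d : ∀ n : ℤ, (Fin (r (n + 1)) → Λ) →ₗ[Λ] (Fin (r n) → Λ)
  ex : ∀ n : ℤ, Function.Exact (d (n + 1)) (d n)
  exΛ : ∀ n : ℤ, Function.Exact (fun f : (Fin (r n) → Λ) →ₗ[Λ] Λ => f ∘ₗ d n)
    (fun g : (Fin (r (n + 1)) → Λ) →ₗ[Λ] Λ => g ∘ₗ d (n + 1))
  π : (Fin (r 0) → Λ) →ₗ[Λ] Z
  π_surj : Function.Surjective π
  ex0 : Function.Exact (d 0) π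
  exZ : ∀ n : ℤ, n + 1 ≠ 0 → n + 1 ≠ -1 →
    Function.Exact (fun f : (Fin (r n) → Λ) →ₗ[Λ] Z => f ∘ₗ d n)
      (fun g : (Fin (r (n + 1)) → Λ) →ₗ[Λ] Z => g ∘ₗ d (n + 1))

/-- conclusion of S0280 over a field `k` -/
def Sym (k : Type u) [Field k] : Prop :=
  ∃ (A : Type u) (_ : Ring A) (_ : Algebra k A), FiniteDimensional k A ∧ IsSymmetricAlgebra k A ∧
    ∃ M : ModuleCat.{u} A, Module.Finite A M ∧ ¬ Module.Projective A M ∧
      ∀ i : ℕ, 0 < i → Subsingleton (Abelian.Ext M M i)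

/-- 186-B: pass to the trivial extension `Λ ⋉ DΛ`. -/
def BStmt : Prop :=
  ∀ (k : Type u) [Field k] (Λ : Type u) [Ring Λ] [Algebra k Λ] [FiniteDimensional k Λ]
    (Z : Type u) [AddCommGroup Z] [Module Λ Z], CRes Λ Z → ¬ Module.Projective Λ Z → Sym k

/-- 186-C: the endomorphism algebra of `A × M`; the four conjuncts are S0282 – S0285. -/
def CStmt : Prop :=
  ∀ (K : Type u) [Field K], Sym K →
    (∃ (Γ : Type u) (_ : Ring Γ) (_ : Algebra K Γ), FiniteDimensional K Γ ∧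
      ∃ S : ModuleCat.{u} Γ, IsSimpleModule Γ S ∧
        ∀ i : ℕ, Subsingleton (Abelian.Ext S (ModuleCat.of Γ Γ) i)) ∧
    (∃ (Γ : Type u) (_ : Ring Γ) (_ : Algebra K Γ), FiniteDimensional K Γ ∧
      ∀ n : ℕ, 1 ≤ n → ∃ C : ModuleCat.{u} Γ, Module.Finite Γ C ∧
        projectiveDimension C = (n : WithBot ℕ∞)) ∧
    (∃ (Γ : Type u) (_ : Ring Γ) (_ : Algebra K Γ), FiniteDimensional K Γ ∧
      (∃ (I : ℕ → ModuleCat.{u} Γ) (ε : Γ →ₗ[Γ] I 0) (d : ∀ j : ℕ, I j →ₗ[Γ] I (j + 1)),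
        Function.Injective ε ∧ Function.Exact ε (d 0) ∧ (∀ j, Function.Exact (d j) (d (j + 1))) ∧
        ∀ j, Module.Projective Γ (I j) ∧ Module.Injective Γ (I j)) ∧
      ∀ n : ℕ, ¬ HasInjectiveDimensionLT (ModuleCat.of Γ Γ) n) ∧
    (∃ (Γ : Type u) (_ : Ring Γ) (_ : Algebra K Γ), FiniteDimensional K Γ ∧
      ∃ (W : Type u) (_ : AddCommGroup W) (_ : Module Γ W), Module.Finite Γ W ∧
        Module.Projective Γ W ∧ Module.Injective Γ W ∧
        IsWakamatsuTilting Γ W ∧ ¬ IsTilting Γ W)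

/-- `R` is a split basic algebra with `m` simples and a nonzero product of four radical elements -/
def Rad (k : Type u) [Field k] (R : Type u) [Ring R] [Algebra k R] (m : ℕ) : Prop :=
  ∃ π : R →ₐ[k] (Fin m → k), Function.Surjective π ∧ (∀ x, π x = 0 → IsNilpotent x) ∧
    ∃ a b c d : R, π a = 0 ∧ π b = 0 ∧ π c = 0 ∧ π d = 0 ∧ a * b * c * d ≠ 0

/-- 186-D: S0281 from a complete resolution, with base change. -/
def DStmt : Prop :=
  ∀ (k : Type) [Field k] (Λ : Type) [Ring Λ] [Algebra k Λ] [FiniteDimensional k Λ]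
    (Z : Type) [AddCommGroup Z] [Module Λ Z] [Module k Z] [IsScalarTower k Λ Z],
    CRes Λ Z → ¬ Module.Projective Λ Z → Rad k Λ 8 →
      GorProjVanishingData k Λ Z ∧
      ∀ (E : Type v) [Field E] [Algebra k E],
        ∃ (_ : Module (E ⊗[k] Λ) (E ⊗[k] Z)),
          (∀ (a b : E) (r : Λ) (z : Z), (a ⊗ₜ[k] r) • (b ⊗ₜ[k] z) = (a * b) ⊗ₜ[k] (r • z)) ∧
          GorProjVanishingData E (E ⊗[k] Λ) (E ⊗[k] Z)

end Crest.Agent.R186
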