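import Crest.Agent.R186.Tate2

/-! Coinduced modules `I U = Hom_k(Γ, U)`, the cosyzygy functor `Σ` and `ν⁻ = Hom_Γ(DΓ, -)`. -/

set_option autoImplicit false
open CategoryTheory Abelian
open scoped TensorProduct ModuleCat

namespace Crest.Agent.R186

open Crest.Agent.R178

universe u

section
variable (k : Type u) [Field k] (Γ : Type u) [Ring Γ] [Algebra k Γ]

/-- `Hom_k(Γ, V)` with `(γ • h) x = h (x * γ)` -/
def CoI (V : Type u) [AddCommGroup V] [Module k V] : Type u := Γ →ₗ[k] V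

namespace CoI
variable (V : Type u) [AddCommGroup V] [Module k V]

instance : AddCommGroup (CoI k Γ V) := inferInstanceAs (AddCommGroup (Γ →ₗ[k] V))

variable {k Γ V}
/-- the underlying linear map -/
def lin (h : CoI k Γ V) : Γ →ₗ[k] V := h
/-- build an element -/
def mk (h : Γ →ₗ[k] V) : CoI k Γ V := h

@[simp] lemma lin_mk (h : Γ →ₗ[k] V) : (mk h).lin = h := rfl
@[simp] lemma lin_add (a b : CoI k Γ V) : (a + b).lin = a.lin + b.lin := rfl
@[simp] lemma lin_sub (a b : CoI k Γ V) : (a - b).lin = a.lin - b.lin := rfl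
@[simp] lemma lin_neg (a : CoI k Γ V) : (-a).lin = -a.lin := rfl
@[simp] lemma lin_zero : (0 : CoI k Γ V).lin = 0 := rfl
@[ext] lemma ext {a b : CoI k Γ V} (h : ∀ x, a.lin x = b.lin x) : a = b := LinearMap.ext h

instance : Module Γ (CoI k Γ V) where
  smul γ h := mk (h.lin ∘ₗ LinearMap.mulRight k γ)
  one_smul h := ext fun x => congrArg h.lin (mul_one x)
  mul_smul a b h := ext fun x => congrArg h.lin (mul_assoc x a b).symm
  smul_zero _ := rfl
  smul_add _ _ _ := rfl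
  add_smul a b h := ext fun x => (congrArg h.lin (mul_add x a b)).trans (map_add _ _ _)
  zero_smul h := ext fun x => (congrArg h.lin (mul_zero x)).trans (map_zero _)

@[simp] lemma smul_apply (γ : Γ) (h : CoI k Γ V) (x : Γ) : (γ • h).lin x = h.lin (x * γ) := rfl

instance : Module k (CoI k Γ V) := Module.restrictScalars k Γ _
instance : IsScalarTower k Γ (CoI k Γ V) := IsScalarTower.restrictScalars k Γ _

@[simp] lemma lin_smul (c : k) (h : CoI k Γ V) : (c • h).lin = c • h.lin := LinearMap.ext fun x => by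
  change h.lin (x * algebraMap k Γ c) = c • h.lin x
  rw [← Algebra.commutes, ← Algebra.smul_def, map_smul]

lemma lin_sum {ι : Type*} (s : Finset ι) (f : ι → CoI k Γ V) :
    (∑ i ∈ s, f i).lin = ∑ i ∈ s, (f i).lin := rfl

/-- postcomposition -/
def post {W : Type u} [AddCommGroup W] [Module k W] (f : V →ₗ[k] W) : CoI k Γ V →ₗ[Γ] CoI k Γ W where
  toFun h := mk (f ∘ₗ h.lin)
  map_add' a b := ext fun x => by simp
  map_smul' _ _ := rfl

@[simp] lemma post_apply {W : Type u} [AddCommGroup W] [Module k W] (f : V →ₗ[k] W)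
    (h : CoI k Γ V) (x : Γ) : (post f h).lin x = f (h.lin x) := rfl

/-- the adjunction: a `k`-linear map `M → V` gives a `Γ`-linear map `M → CoI V` -/
def adj {M : Type u} [AddCommGroup M] [Module Γ M] [Module k M] [IsScalarTower k Γ M]
    (f : M →ₗ[k] V) : M →ₗ[Γ] CoI k Γ V where
  toFun m := mk (f ∘ₗ (LinearMap.toSpanSingleton Γ M m).restrictScalars k)
  map_add' a b := ext fun x => by simp
  map_smul' γ m := ext fun x => by simp [mul_smul]

@[simp] lemma adj_apply {M : Type u} [AddCommGroup M] [Module Γ M] [Module k M]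
    [IsScalarTower k Γ M] (f : M →ₗ[k] V) (m : M) (x : Γ) : (adj f m).lin x = f (x • m) := rfl

lemma injective : Module.Injective Γ (CoI k Γ V) where
  out X Y _ _ _ _ f hf g := by
    let := Module.restrictScalars k Γ X
    let := Module.restrictScalars k Γ Y
    have := IsScalarTower.restrictScalars k Γ X
    have := IsScalarTower.restrictScalars k Γ Y
    let g' : X →ₗ[k] V :=
      { toFun := fun x => (g x).lin 1
        map_add' := fun a b => by simp
        map_smul' := fun c x => by simp }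
    obtain ⟨r, hr⟩ := (f.restrictScalars k).exists_leftInverse_of_injective
      (LinearMap.ker_eq_bot.2 hf)
    refine ⟨adj (M := Y) (g' ∘ₗ r), fun x => ext fun y => ?_⟩
    have h1 : r (y • f x) = y • x := by
      rw [← map_smul]; exact congr($hr (y • x))
    change (g (r (y • f x))).lin 1 = _
    rw [h1, map_smul, smul_apply, one_mul]

end CoI

/-- the left module `DΓ` -/
abbrev DG : ModuleCat.{u} Γ := ModuleCat.of Γ (CoI k Γ k)

/-- right multiplication on `DΓ`: `(ψ · γ) x = ψ (γ * x)` -/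
def rD (γ : Γ) : CoI k Γ k →ₗ[Γ] CoI k Γ k where
  toFun ψ := CoI.mk (ψ.lin ∘ₗ LinearMap.mulLeft k γ)
  map_add' _ _ := rfl
  map_smul' a ψ := CoI.ext fun x => congrArg ψ.lin (mul_assoc γ x a)

@[simp] lemma rD_apply (γ : Γ) (ψ : CoI k Γ k) (x : Γ) : (rD k Γ γ ψ).lin x = ψ.lin (γ * x) := rfl

/-- `U ↦ Hom_k(Γ, U)` -/
noncomputable def IF : ModuleCat.{u} Γ ⥤ ModuleCat.{u} Γ where
  obj U := ModuleCat.of Γ (CoI k Γ U)
  map f := ModuleCat.ofHom (CoI.post (f.hom.restrictScalars k))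

instance : (IF k Γ).Additive where
  map_add := rfl

instance : (IF k Γ).Linear k where
  map_smul {M N} f c := by
    ext1; ext1 h; refine CoI.ext fun x => ?_
    change c • f.hom (CoI.lin h x) = f.hom (CoI.lin h (x * algebraMap k Γ c))
    rw [← Algebra.commutes, ← Algebra.smul_def, map_smul]
    exact (f.hom.map_smul (algebraMap k Γ c) _).symm

/-- `U → I U` -/
noncomputable def ιI : 𝟭 (ModuleCat.{u} Γ) ⟶ IF k Γ where
  app U := ModuleCat.ofHom (X := U) (CoI.adj (M := U) LinearMap.id)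
  naturality U V f := by
    ext1; ext1 m; refine CoI.ext fun x => ?_
    exact (f.hom.map_smul x m).symm

lemma ιI_apply (U : ModuleCat.{u} Γ) (m : U) (x : Γ) :
    CoI.lin (((ιI k Γ).app U).hom m) x = x • m := rfl

lemma ιI_inj (U : ModuleCat.{u} Γ) : Function.Injective ((ιI k Γ).app U).hom := fun a b h => by
  have := congr(CoI.lin $h 1)
  rwa [ιI_apply, ιI_apply, one_smul, one_smul] at this

/-- the cosyzygy functor `Σ U = I U / U` -/
noncomputable def Sg : ModuleCat.{u} Γ ⥤ ModuleCat.{u} Γ where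
  obj U := ModuleCat.of Γ ((IF k Γ).obj U ⧸ LinearMap.range ((ιI k Γ).app U).hom)
  map {U V} f := ModuleCat.ofHom (Submodule.mapQ _ _ ((IF k Γ).map f).hom (by
    rintro _ ⟨m, rfl⟩
    exact ⟨f.hom m, congr(($((ιI k Γ).naturality f)).hom m)⟩))
  map_id U := by
    ext1; refine Submodule.linearMap_qext _ ?_; rfl
  map_comp f g := by
    ext1; refine Submodule.linearMap_qext _ ?_; rfl

/-- `I U → Σ U` -/
noncomputable def ρI : IF k Γ ⟶ Sg k Γ where
  app U := ModuleCat.ofHom (X := (IF k Γ).obj U) (Submodule.mkQ _)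

lemma ρI_surj (U : ModuleCat.{u} Γ) : Function.Surjective ((ρI k Γ).app U).hom :=
  Submodule.mkQ_surjective _

lemma ιρ_exact (U : ModuleCat.{u} Γ) :
    Function.Exact ((ιI k Γ).app U).hom ((ρI k Γ).app U).hom :=
  LinearMap.exact_map_mkQ_range _

lemma ses_I (U : ModuleCat.{u} Γ) : SES U ((IF k Γ).obj U) ((Sg k Γ).obj U) :=
  ⟨_, _, ιI_inj k Γ U, ιρ_exact k Γ U, ρI_surj k Γ U⟩

instance : (Sg k Γ).Additive where
  map_add {U V f g} := by
    ext1; refine Submodule.linearMap_qext _ ?_; rfl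

instance : (Sg k Γ).Linear k where
  map_smul {U V} f c := by
    ext1; refine Submodule.linearMap_qext _ ?_; ext1 h
    exact congrArg ((ρI k Γ).app V).hom congr(($((IF k Γ).map_smul c f)).hom h)

lemma inj_I (U : ModuleCat.{u} Γ) : Module.Injective Γ ((IF k Γ).obj U) := CoI.injective

lemma exF_I : ExF (IF k Γ) := fun A B C f g hf hfg hg => by
  refine ⟨fun a b h => CoI.ext fun x => hf congr(CoI.lin $h x), fun h => ⟨fun hh => ?_, ?_⟩,
    fun h => ?_⟩
  · obtain ⟨r, hr⟩ := (f.hom.restrictScalars k).exists_leftInverse_of_injective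
      (LinearMap.ker_eq_bot.2 hf)
    refine ⟨CoI.post r h, CoI.ext fun x => ?_⟩
    obtain ⟨a, ha⟩ := (hfg (CoI.lin h x)).1 congr(CoI.lin $hh x)
    change f.hom (r (CoI.lin h x)) = _
    rw [← ha]
    exact congrArg f.hom congr($hr a)
  · rintro ⟨a, rfl⟩
    exact CoI.ext fun x => hfg.apply_apply_eq_zero _
  · obtain ⟨r, hr⟩ := (g.hom.restrictScalars k).exists_rightInverse_of_surjective
      (LinearMap.range_eq_top.2 hg)
    exact ⟨CoI.post r h, CoI.ext fun x => congr($hr (CoI.lin h x))⟩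

/-- if `0 → F₁ → F₂ → F₃ → 0` is exact and `F₁, F₂` are exact then so is `F₃` -/
lemma ExF.of_quot {R R' : Type u} [Ring R] [Ring R'] {F₁ F₂ F₃ : ModuleCat.{u} R ⥤ ModuleCat.{u} R'}
    (a : F₁ ⟶ F₂) (b : F₂ ⟶ F₃) (ha : ∀ U, Function.Injective (a.app U).hom)
    (hab : ∀ U, Function.Exact (a.app U).hom (b.app U).hom)
    (hb : ∀ U, Function.Surjective (b.app U).hom) (h₁ : ExF F₁) (h₂ : ExF F₂) : ExF F₃ := by
  intro A B C f g hf hfg hg
  obtain ⟨p1, p2, p3⟩ := h₁ f g hf hfg hg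
  obtain ⟨q1, q2, q3⟩ := h₂ f g hf hfg hg
  have na : ∀ {U V} (φ : U ⟶ V) x, (a.app V).hom ((F₁.map φ).hom x) =
    (F₂.map φ).hom ((a.app U).hom x) := fun φ x => congr(($(a.naturality φ)).hom x)
  have nb : ∀ {U V} (φ : U ⟶ V) x, (b.app V).hom ((F₂.map φ).hom x) =
    (F₃.map φ).hom ((b.app U).hom x) := fun φ x => congr(($(b.naturality φ)).hom x)
  refine ⟨(injective_iff_map_eq_zero _).2 fun z hz => ?_, fun z => ⟨fun hz => ?_, ?_⟩, fun z => ?_⟩
  · obtain ⟨y, rfl⟩ := hb A z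
    rw [← nb] at hz
    obtain ⟨x, hx⟩ := (hab B _).1 hz
    have : (F₁.map g).hom x = 0 := ha C (by rw [na, hx, q2.apply_apply_eq_zero, map_zero])
    obtain ⟨w, rfl⟩ := (p2 _).1 this
    rw [na] at hx
    rw [← q1 hx, (hab A).apply_apply_eq_zero]
  · obtain ⟨y, rfl⟩ := hb B z
    rw [← nb] at hz
    obtain ⟨x, hx⟩ := (hab C _).1 hz
    obtain ⟨w, rfl⟩ := p3 x
    obtain ⟨v, hv⟩ := (q2 (y - (a.app B).hom w)).1 (by rw [map_sub, ← hx, na, sub_self])
    exact ⟨(b.app A).hom v, by rw [← nb, hv, map_sub, (hab B).apply_apply_eq_zero, sub_zero]⟩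
  · rintro ⟨x, rfl⟩
    obtain ⟨y, rfl⟩ := hb A x
    rw [← nb, ← nb, q2.apply_apply_eq_zero, map_zero]
  · obtain ⟨y, rfl⟩ := hb C z
    obtain ⟨x, rfl⟩ := q3 y
    exact ⟨_, (nb g x).symm⟩

/-- if `0 → F₁ → F₂ → F₃ → 0` is exact and `F₁, F₃` are exact then so is `F₂` -/
lemma ExF.of_ext {R R' : Type u} [Ring R] [Ring R'] {F₁ F₂ F₃ : ModuleCat.{u} R ⥤ ModuleCat.{u} R'}
    [F₂.Additive] (a : F₁ ⟶ F₂) (b : F₂ ⟶ F₃) (ha : ∀ U, Function.Injective (a.app U).hom)
    (hab : ∀ U, Function.Exact (a.app U).hom (b.app U).hom)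
    (hb : ∀ U, Function.Surjective (b.app U).hom) (h₁ : ExF F₁) (h₃ : ExF F₃) : ExF F₂ := by
  intro A B C f g hf hfg hg
  obtain ⟨p1, p2, p3⟩ := h₁ f g hf hfg hg
  obtain ⟨q1, q2, q3⟩ := h₃ f g hf hfg hg
  have na : ∀ {U V} (φ : U ⟶ V) x, (a.app V).hom ((F₁.map φ).hom x) =
    (F₂.map φ).hom ((a.app U).hom x) := fun φ x => congr(($(a.naturality φ)).hom x)
  have nb : ∀ {U V} (φ : U ⟶ V) x, (b.app V).hom ((F₂.map φ).hom x) =
    (F₃.map φ).hom ((b.app U).hom x) := fun φ x => congr(($(b.naturality φ)).hom x)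
  have z0 : ∀ x, (F₂.map g).hom ((F₂.map f).hom x) = 0 := fun x => by
    have e : f ≫ g = 0 := by ext y; exact hfg.apply_apply_eq_zero y
    have := congr((F₂.map $e).hom x)
    rwa [F₂.map_comp, F₂.map_zero] at this
  refine ⟨(injective_iff_map_eq_zero _).2 fun z hz => ?_, fun z => ⟨fun hz => ?_, ?_⟩, fun z => ?_⟩
  · have : (b.app A).hom z = 0 := q1 (by rw [← nb, hz, map_zero, map_zero])
    obtain ⟨x, rfl⟩ := (hab A _).1 this
    rw [← na] at hz
    rw [p1 (ha B (hz.trans (by simp)) : (F₁.map f).hom x = (F₁.map f).hom 0), map_zero]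
  · obtain ⟨y, hy⟩ := (q2 ((b.app B).hom z)).1 (by rw [← nb, hz, map_zero])
    obtain ⟨x, rfl⟩ := hb A y
    obtain ⟨w, hw⟩ := (hab B (z - (F₂.map f).hom x)).1 (by rw [map_sub, nb, hy, sub_self])
    obtain ⟨v, rfl⟩ := (p2 w).1 (ha C (by rw [na, hw, map_sub, hz, z0, sub_zero, map_zero]))
    exact ⟨x + (a.app A).hom v, by rw [map_add, ← na, hw, add_sub_cancel]⟩
  · rintro ⟨x, rfl⟩; exact z0 x
  · obtain ⟨y, hy⟩ := q3 ((b.app C).hom z)
    obtain ⟨x, rfl⟩ := hb B y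
    obtain ⟨w, hw⟩ := (hab C (z - (F₂.map g).hom x)).1 (by rw [map_sub, nb, hy, sub_self])
    obtain ⟨v, rfl⟩ := p3 w
    exact ⟨x + (a.app B).hom v, by rw [map_add, ← na, hw, add_sub_cancel]⟩

lemma exF_id {R : Type u} [Ring R] : ExF (𝟭 (ModuleCat.{u} R)) := fun _ _ _ _ _ hf hfg hg =>
  ⟨hf, hfg, hg⟩

lemma exF_Sg : ExF (Sg k Γ) :=
  ExF.of_quot (ιI k Γ) (ρI k Γ) (ιI_inj k Γ) (ιρ_exact k Γ) (ρI_surj k Γ) exF_id (exF_I k Γ)

/-- `Hom_Γ(DΓ, V)` with `γ • φ = φ ∘ (· γ)` -/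
def Nu (V : ModuleCat.{u} Γ) : Type u := CoI k Γ k →ₗ[Γ] V

namespace Nu
variable (V : ModuleCat.{u} Γ)
instance : AddCommGroup (Nu k Γ V) := inferInstanceAs (AddCommGroup (CoI k Γ k →ₗ[Γ] V))
variable {k Γ V}
/-- the underlying linear map -/
def lin (h : Nu k Γ V) : CoI k Γ k →ₗ[Γ] V := h
/-- build an element -/
def mk (h : CoI k Γ k →ₗ[Γ] V) : Nu k Γ V := h
@[simp] lemma lin_mk (h : CoI k Γ k →ₗ[Γ] V) : (mk h).lin = h := rfl
@[simp] lemma lin_add (a b : Nu k Γ V) : (a + b).lin = a.lin + b.lin := rfl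
@[simp] lemma lin_sub (a b : Nu k Γ V) : (a - b).lin = a.lin - b.lin := rfl
@[simp] lemma lin_zero : (0 : Nu k Γ V).lin = 0 := rfl
@[ext] lemma ext {a b : Nu k Γ V} (h : ∀ x, a.lin x = b.lin x) : a = b := LinearMap.ext h

instance : Module Γ (Nu k Γ V) where
  smul γ h := mk (h.lin ∘ₗ rD k Γ γ)
  one_smul h := ext fun ψ => congrArg h.lin (CoI.ext fun x => congrArg ψ.lin (one_mul x))
  mul_smul a b h := ext fun ψ => congrArg h.lin (CoI.ext fun x => congrArg ψ.lin (mul_assoc a b x))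
  smul_zero _ := rfl
  smul_add _ _ _ := rfl
  add_smul a b h := ext fun ψ => (congrArg h.lin (CoI.ext fun x =>
    (congrArg ψ.lin (add_mul a b x)).trans (map_add _ _ _))).trans (map_add _ _ _)
  zero_smul h := ext fun ψ => (congrArg h.lin (CoI.ext fun x =>
    (congrArg ψ.lin (zero_mul x)).trans (map_zero _))).trans (map_zero _)

@[simp] lemma smul_apply (γ : Γ) (h : Nu k Γ V) (ψ : CoI k Γ k) :
    (γ • h).lin ψ = h.lin (rD k Γ γ ψ) := rfl

instance : Module k (Nu k Γ V) := Module.restrictScalars k Γ _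
instance : IsScalarTower k Γ (Nu k Γ V) := IsScalarTower.restrictScalars k Γ _

lemma algebraMap_smul_apply (c : k) (h : Nu k Γ V) (ψ : CoI k Γ k) :
    (algebraMap k Γ c • h).lin ψ = c • h.lin ψ := by
  change _ = algebraMap k Γ c • h.lin ψ
  rw [smul_apply, ← map_smul]
  exact congrArg h.lin (CoI.ext fun x => congrArg ψ.lin (Algebra.commutes c x))

end Nu

/-- the functor `ν⁻ = Hom_Γ(DΓ, -)` -/
noncomputable def NF : ModuleCat.{u} Γ ⥤ ModuleCat.{u} Γ where
  obj V := ModuleCat.of Γ (Nu k Γ V)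
  map f := ModuleCat.ofHom
    { toFun := fun h => Nu.mk (f.hom ∘ₗ h.lin)
      map_add' := fun a b => Nu.ext fun x => by simp
      map_smul' := fun _ _ => rfl }

lemma NF_map_apply {U V : ModuleCat.{u} Γ} (f : U ⟶ V) (h : Nu k Γ U) (ψ : CoI k Γ k) :
    Nu.lin (((NF k Γ).map f).hom h) ψ = f.hom (h.lin ψ) := rfl

instance : (NF k Γ).Additive where
  map_add := rfl

instance : (NF k Γ).Linear k where
  map_smul {M N} f c := by
    ext1; ext1 h; refine Nu.ext fun x => ?_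
    exact (Nu.algebraMap_smul_apply c (((NF k Γ).map f).hom h) x).symm

lemma NF_inj {A B : ModuleCat.{u} Γ} (f : A ⟶ B) (hf : Function.Injective f.hom) :
    Function.Injective ((NF k Γ).map f).hom :=
  fun _ _ h => Nu.ext fun x => hf congr(Nu.lin $h x)

lemma NF_exact {A B C : ModuleCat.{u} Γ} (f : A ⟶ B) (g : B ⟶ C) (hf : Function.Injective f.hom)
    (hfg : Function.Exact f.hom g.hom) :
    Function.Exact ((NF k Γ).map f).hom ((NF k Γ).map g).hom := fun h => by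
  constructor
  · intro hh
    have : ∀ x, Nu.lin h x ∈ LinearMap.range f.hom := fun x => (hfg _).1 congr(Nu.lin $hh x)
    refine ⟨Nu.mk ((LinearEquiv.ofInjective f.hom hf).symm.toLinearMap ∘ₗ
      (Nu.lin h).codRestrict _ this), Nu.ext fun x => ?_⟩
    exact congrArg Subtype.val ((LinearEquiv.ofInjective f.hom hf).apply_symm_apply ⟨_, this x⟩)
  · rintro ⟨a, rfl⟩
    exact Nu.ext fun x => hfg.apply_apply_eq_zero _

lemma NF_surj {A B C : ModuleCat.{u} Γ} (f : A ⟶ B) (g : B ⟶ C) (hf : Function.Injective f.hom)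
    (hfg : Function.Exact f.hom g.hom) (hg : Function.Surjective g.hom) (h : XV (DG k Γ) A 1) :
    Function.Surjective ((NF k Γ).map g).hom := fun φ => by
  obtain ⟨ψ, hψ⟩ := XV.lift f.hom g.hom hf hfg hg h (Nu.lin φ)
  exact ⟨Nu.mk ψ, Nu.ext hψ⟩

/-- `ψ ↦ (x ↦ ψ x • g)`, a `Γ`-linear map `DΓ → I U` -/
noncomputable def hmap (U : ModuleCat.{u} Γ) (g : U) : CoI k Γ k →ₗ[Γ] (IF k Γ).obj U :=
  CoI.post (LinearMap.toSpanSingleton k U g)

variable [Module.Finite k Γ]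

/-- for a finite module `U`, `I U` is a retract of `(DΓ)^r` -/
lemma retr_I (U : ModuleCat.{u} Γ) (hU : Module.Finite Γ U) :
    ∃ r : ℕ, Retr ((IF k Γ).obj U) (ModuleCat.of Γ (Fin r → DG k Γ)) := by
  have := fin_k k U hU
  let b := Module.finBasis k U
  refine ⟨_, LinearMap.pi fun i => CoI.post (b.coord i),
    ∑ i, hmap k Γ U (b i) ∘ₗ LinearMap.proj i, fun h => ?_⟩
  rw [LinearMap.sum_apply]
  refine CoI.ext fun x => ?_
  erw [CoI.lin_sum, LinearMap.sum_apply]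
  exact b.sum_repr (CoI.lin h x)

lemma fin_DG : Module.Finite Γ (DG k Γ) := by
  let e : (DG k Γ) →ₗ[k] (Γ →ₗ[k] k) :=
    { toFun := CoI.lin
      map_add' := fun _ _ => rfl
      map_smul' := CoI.lin_smul }
  have : Module.Finite k (DG k Γ) := Module.Finite.of_injective e fun _ _ h => h
  exact Module.Finite.of_restrictScalars_finite k Γ (DG k Γ)

lemma finF_I : FinF (IF k Γ) := fun U hU => by
  obtain ⟨r, hr⟩ := retr_I k Γ U hU
  have := fin_DG k Γ
  exact hr.fin inferInstance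

lemma finF_Sg : FinF (Sg k Γ) := fun U hU => (ses_I k Γ U).fin₃ (finF_I k Γ U hU)

lemma pd_pi {R : Type u} [Ring R] {M : ModuleCat.{u} R} {d : ℕ} (h : PD R M d) (r : ℕ) :
    PD R (Fin r → M) d :=
  pd_of_xv (S := ModuleCat.of R (Fin r → M)) fun _ _ hn => XV.pi_src (XV.of_pd h hn) r

lemma pd_I {d : ℕ} (h : PD Γ (DG k Γ) d) (U : ModuleCat.{u} Γ) (hU : Module.Finite Γ U) :
    PD Γ ((IF k Γ).obj U) d := by
  obtain ⟨r, hr⟩ := retr_I k Γ U hU
  exact hr.pd (pd_pi h r)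

/-- `Γ → End(DΓ)` is onto -/
lemma rD_surj (φ : CoI k Γ k →ₗ[Γ] CoI k Γ k) : ∃ γ, rD k Γ γ = φ := by
  let l : Module.Dual k (Module.Dual k Γ) :=
    { toFun := fun ψ => (φ (CoI.mk ψ)).lin 1
      map_add' := fun a b => congr(CoI.lin $(φ.map_add (CoI.mk a) (CoI.mk b)) 1)
      map_smul' := fun c a => by
        have : CoI.mk (c • a) = algebraMap k Γ c • CoI.mk a := CoI.ext fun x => by
          rw [CoI.smul_apply, ← Algebra.commutes, ← Algebra.smul_def]; simp
        rw [this, map_smul, CoI.smul_apply, one_mul, Algebra.algebraMap_eq_smul_one, map_smul]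
        rfl }
  obtain ⟨γ, hγ⟩ := (Module.evalEquiv k Γ).surjective l
  refine ⟨γ, LinearMap.ext fun ψ => CoI.ext fun x => ?_⟩
  have := congr($hγ (CoI.lin (x • ψ)))
  change CoI.lin (x • ψ) γ = (φ (x • ψ)).lin 1 at this
  rw [map_smul, CoI.smul_apply, CoI.smul_apply, one_mul] at this
  exact this

lemma retr_nu_DG : Retr ((NF k Γ).obj (DG k Γ)) (ModuleCat.of Γ Γ) := by
  refine Retr.of_bij' (A := ModuleCat.of Γ Γ)
    (LinearMap.toSpanSingleton Γ (Nu k Γ (DG k Γ)) (Nu.mk LinearMap.id)) ⟨?_, fun φ => ?_⟩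
  · rw [injective_iff_map_eq_zero]
    intro γ hγ
    refine (Module.forall_dual_apply_eq_zero_iff k γ).1 fun ψ => ?_
    have := congr(CoI.lin (Nu.lin $hγ (CoI.mk ψ)) 1)
    change ψ (γ * 1) = 0 at this
    rwa [mul_one] at this
  · obtain ⟨γ, hγ⟩ := rD_surj k Γ (Nu.lin φ)
    exact ⟨γ, hγ⟩

lemma retr_pi' {R : Type u} [Ring R] {A B : ModuleCat.{u} R} (h : Retr A B) (r : ℕ) :
    Retr (ModuleCat.of R (Fin r → A)) (ModuleCat.of R (Fin r → B)) := by
  obtain ⟨i, p, hip⟩ := h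
  exact ⟨i.compLeft _, p.compLeft _, fun x => funext fun j => hip (x j)⟩

/-- `ν⁻ (I U)` is a retract of a finite free module -/
lemma retr_nu_I (U : ModuleCat.{u} Γ) (hU : Module.Finite Γ U) :
    ∃ r : ℕ, Retr ((NF k Γ).obj ((IF k Γ).obj U)) (ModuleCat.of Γ (Fin r → Γ)) := by
  obtain ⟨r, hr⟩ := retr_I k Γ U hU
  exact ⟨r, ((hr.map (NF k Γ)).trans (retr_pi (NF k Γ) (DG k Γ) r)).trans
    (retr_pi' (retr_nu_DG k Γ) r)⟩

lemma proj_nu_I (U : ModuleCat.{u} Γ) (hU : Module.Finite Γ U) :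
    Module.Projective Γ ((NF k Γ).obj ((IF k Γ).obj U)) := by
  obtain ⟨r, hr⟩ := retr_nu_I k Γ U hU
  exact hr.proj inferInstance

lemma finF_N : FinF (NF k Γ) := fun U hU => by
  obtain ⟨r, hr⟩ := retr_nu_I k Γ U hU
  have := noeth k Γ
  have := hr.fin inferInstance
  exact Module.Finite.of_injective _ (NF_inj k Γ ((ιI k Γ).app U) (ιI_inj k Γ U))

end

end Crest.Agent.R186
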