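import Crest.Agent.R186.Tate2

/-! Chains, transfer of vanishing along functors. -/

set_option autoImplicit false
open CategoryTheory Abelian
open scoped TensorProduct ModuleCat

namespace Crest.Agent.R186

open Crest.Agent.R178

universe u

section
variable {R R' : Type u} [Ring R] [Ring R']

/-- a module with an infinite resolution by `V`-acyclic modules is `V`-acyclic -/
lemma xv_all_src {ι : Type*} (W : ι → ModuleCat.{u} R) (V : ModuleCat.{u} R)
    (h : ∀ i, ∃ j P, SES (W j) P (W i) ∧ ∀ n, XV P V n) (n : ℤ) (i : ι) : XV (W i) V n := by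
  rcases lt_or_ge n 0 with hn | hn
  · exact XV.neg hn
  obtain ⟨m, rfl⟩ := Int.eq_ofNat_of_zero_le hn
  induction m generalizing i with
  | zero =>
    obtain ⟨j, P, h1, h2⟩ := h i
    exact XV.src₃ h1 (XV.neg (by simp)) (h2 _)
  | succ m ih =>
    obtain ⟨j, P, h1, h2⟩ := h i
    exact XV.src₃ h1 (by convert ih j (by omega) using 1; push_cast; ring) (h2 _)

/-- dual version -/
lemma xv_all_tgt {ι : Type*} (W : ι → ModuleCat.{u} R) (S : ModuleCat.{u} R)
    (h : ∀ i, ∃ j P, SES (W i) P (W j) ∧ ∀ n, XV S P n) (n : ℤ) (i : ι) : XV S (W i) n := by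
  rcases lt_or_ge n 0 with hn | hn
  · exact XV.neg hn
  obtain ⟨m, rfl⟩ := Int.eq_ofNat_of_zero_le hn
  induction m generalizing i with
  | zero =>
    obtain ⟨j, P, h1, h2⟩ := h i
    exact XV.tgt₁ h1 (h2 _) (XV.neg (by simp))
  | succ m ih =>
    obtain ⟨j, P, h1, h2⟩ := h i
    exact XV.tgt₁ h1 (h2 _) (by convert ih j (by omega) using 1; push_cast; ring)

/-- transfer of vanishing along an exact functor `J` that behaves like a left adjoint -/
lemma sim [IsNoetherianRing R] (J : ModuleCat.{u} R ⥤ ModuleCat.{u} R') (hJ : ExF J)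
    (hP : ∀ r : ℕ, Module.Projective R' (J.obj (ModuleCat.of R (Fin r → R))))
    (M : ModuleCat.{u} R') (W : ModuleCat.{u} R)
    (h0 : ∀ U : ModuleCat.{u} R, Module.Finite R U → (∀ ψ : U →ₗ[R] W, ψ = 0) →
      ∀ φ : J.obj U →ₗ[R'] M, φ = 0)
    (h1 : ∀ (r : ℕ) (K : ModuleCat.{u} R) (f : K ⟶ ModuleCat.of R (Fin r → R)), Module.Finite R K →
      (∀ ψ : K →ₗ[R] W, ∃ ψ' : (Fin r → R) →ₗ[R] W, ∀ x, ψ' (f.hom x) = ψ x) →
      ∀ φ : J.obj K →ₗ[R'] M, ∃ φ' : J.obj (ModuleCat.of R (Fin r → R)) →ₗ[R'] M,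
        ∀ x, φ' ((J.map f).hom x) = φ x)
    (n : ℤ) (U : ModuleCat.{u} R) (hU : Module.Finite R U) (h : XV U W n) : XV (J.obj U) M n := by
  rcases lt_or_ge n 0 with hn | hn
  · exact XV.neg hn
  obtain ⟨m, rfl⟩ := Int.eq_ofNat_of_zero_le hn
  clear hn
  induction m generalizing U with
  | zero => exact xv_zero_iff.2 (h0 U hU (xv_zero_iff.1 h))
  | succ m ih =>
    obtain ⟨r, K, hK⟩ := exists_cover U hU
    have hKf : Module.Finite R K := hK.fin₁ inferInstance
    rcases m with _ | m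
    · obtain ⟨f, g, hf, hfg, hg⟩ := hK
      obtain ⟨a1, a2, a3⟩ := hJ (ModuleCat.ofHom f) (ModuleCat.ofHom g) hf hfg hg
      exact XV.of_extend _ _ a1 a2 a3 (XV.of_proj (hP r) le_rfl)
        (h1 r K (ModuleCat.ofHom f) hKf (XV.extend f g hf hfg hg h))
    · refine XV.src₃ (hJ.ses hK) ?_ (XV.of_proj (hP r) (by omega))
      have := ih K hKf (XV.src₁ hK (XV.of_proj inferInstance (by omega))
        (by convert h using 1; push_cast; ring))
      convert this using 1; push_cast; ring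

/-- `t` acts exactly on `M` -/
def TEx (t : R) (M : ModuleCat.{u} R) : Prop := ∀ x : M, t • x = 0 → ∃ y : M, t • y = x

lemma TEx.retr {t : R} {A B : ModuleCat.{u} R} (h : Retr A B) (hB : TEx t B) : TEx t A := by
  obtain ⟨i, r, hir⟩ := h
  intro x hx
  obtain ⟨y, hy⟩ := hB (i x) (by rw [← map_smul, hx, map_zero])
  exact ⟨r y, by rw [← map_smul, hy, hir]⟩

lemma TEx.X₃ {t : R} (ht : t * t = 0) {A B C : ModuleCat.{u} R} (h : SES A B C) (hA : TEx t A)
    (hB : TEx t B) : TEx t C := by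
  obtain ⟨f, g, hf, hfg, hg⟩ := h
  intro z hz
  obtain ⟨y, rfl⟩ := hg z
  obtain ⟨x, hx⟩ := (hfg (t • y)).1 (by rw [map_smul, hz])
  obtain ⟨w, rfl⟩ := hA x (hf (by rw [map_smul, hx, smul_smul, ht, zero_smul, map_zero]))
  obtain ⟨v, hv⟩ := hB (y - f w) (by rw [smul_sub, ← map_smul, hx, sub_self])
  exact ⟨g v, by rw [← map_smul, hv, map_sub, hfg.apply_apply_eq_zero, sub_zero]⟩

lemma TEx.of_fp [IsNoetherianRing R] {t : R} (ht : t * t = 0) (hR : TEx t (ModuleCat.of R R))
    (M : ModuleCat.{u} R) (hM : Module.Finite R M) (hp : FP R M) : TEx t M := by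
  obtain ⟨d, hd⟩ := hp
  have free : ∀ r : ℕ, TEx t (ModuleCat.of R (Fin r → R)) := fun r x hx => by
    choose y hy using fun i => hR (x i) (congrFun hx i)
    exact ⟨y, funext hy⟩
  induction d generalizing M with
  | zero =>
    obtain ⟨r, hr⟩ := retr_free M hM (hd.mono (by omega : 0 ≤ 1)).proj
    exact TEx.retr hr (free r)
  | succ d ih =>
    rcases d with _ | d
    · obtain ⟨r, hr⟩ := retr_free M hM hd.proj
      exact TEx.retr hr (free r)
    · obtain ⟨r, K, hK⟩ := exists_cover M hM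
      exact TEx.X₃ ht hK (ih K (hK.fin₁ inferInstance)
        (hK.pd₁ ((PD.of_proj (A := Fin r → R)).mono (by omega)) hd)) (free r)

end

section
variable {k : Type u} [Field k] {R R' : Type u} [Ring R] [Algebra k R] [Ring R'] [Algebra k R']
  [Module.Finite k R] [Module.Finite k R']

/-- transfer of Tate vanishing along an adjunction-like pair -/
lemma tv_transfer (F : ModuleCat.{u} R' ⥤ ModuleCat.{u} R) [F.Additive] (hF : ExF F)
    (hfin : FinF F) (hR : FP R (F.obj (ModuleCat.of R' R'))) {S : ModuleCat.{u} R}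
    {S' : ModuleCat.{u} R'} {D : ℤ} (hS : GD S D)
    (h : ∀ (M : ModuleCat.{u} R') (n : ℤ), Module.Finite R' M → XV S (F.obj M) n → XV S' M n)
    (M : ModuleCat.{u} R') (hM : Module.Finite R' M) (n : ℤ) (hT : TV k S (F.obj M) n) :
    TV k S' M n := by
  have := noeth k R'
  have key := fun b => (tv_chain_tgt (k := k) (S := S) (n := n) (fun b => F.obj ((Om k)^[b] M))
    (fun b => F.obj ((Bar k R').obj ((Om k)^[b] M))) (fun b => hF.ses (ses_om_iter k M b))
    (fun b n => TV.of_fp_tgt hS (hfin _ (finF_bar k _ (fin_om_iter k hM b)))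
      (hF.fp hR _ (finF_bar k _ (fin_om_iter k hM b)) (@FP.of_proj _ _ _ _ _ (bar_proj k _))))
    b).2 hT
  filter_upwards [Filter.eventually_ge_atTop (D + 1 - n).toNat] with b hb
  exact h _ _ (fin_om_iter k hM b)
    ((tv_iff hS (hfin _ (fin_om_iter k hM b)) (by omega)).1 (key b))

omit [Module.Finite k R] in
lemma fp_of_om_iter {M : ModuleCat.{u} R} (b : ℕ) (h : FP R ((Om k)^[b] M : ModuleCat.{u} R)) :
    FP R M := by
  induction b with
  | zero => exact h
  | succ b ih => exact ih ((ses_om_iter k M b).fp₃ h (@FP.of_proj _ _ _ _ _ (bar_proj k _)))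

end

end Crest.Agent.R186
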