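import Crest.Agent.R186.Defs0
import Crest.Agent.R186.Tate3
import Crest.Agent.R186.Inj

/-! Row 186: interfaces of the sub-tasks A, K1, K2, L1, L2. -/

set_option autoImplicit false
open CategoryTheory Abelian
open scoped TensorProduct ModuleCat

namespace Crest.Agent.R186

open Crest.Agent.R178

universe u

/-! ### A: Gorenstein projective modules -/

/-- `M` is Gorenstein projective: it lies in a class of finite modules with `Ext^{>0}(-, R) = 0`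
each of which embeds in a finite projective module with cokernel in the class. -/
def GP {R : Type u} [Ring R] (M : ModuleCat.{u} R) : Prop :=
  ∃ 𝒞 : Set (ModuleCat.{u} R), M ∈ 𝒞 ∧ ∀ N ∈ 𝒞, Module.Finite R N ∧ GD N 0 ∧
    ∃ P N' : ModuleCat.{u} R, Module.Finite R P ∧ Module.Projective R P ∧ SES N P N' ∧ N' ∈ 𝒞

/-- the `D`-th bar syzygy is Gorenstein projective -/
def GPd (k : Type u) [Field k] {R : Type u} [Ring R] [Algebra k R] (D : ℕ)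
    (M : ModuleCat.{u} R) : Prop := GP ((Om k)^[D] M)

/-- 186-A -/
def AStmt : Prop :=
  ∀ (k : Type u) [Field k] (R : Type u) [Ring R] [Algebra k R] [Module.Finite k R],
    (∀ (D : ℕ) (F : ModuleCat.{u} R), Module.Finite R F → FP R F → GD F D → GPd k D F) ∧
    (∀ (D : ℕ) (ι : Type (u + 1)) (M : ι → ModuleCat.{u} R), (∀ i, Module.Finite R (M i) ∧ GD (M i) D ∧
      ∃ (j : ι) (F : ModuleCat.{u} R), SES (M i) F (M j) ∧ GPd k D F) → ∀ i, GPd k D (M i)) ∧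
    (∀ (D : ℕ) (A B C : ModuleCat.{u} R), SES A B C → Module.Finite R B → GPd k D A → GPd k D B →
      GPd k (D + 1) C) ∧
    (∀ (D : ℕ) (A : ModuleCat.{u} R), GPd k D A → GPd k (D + 1) A) ∧
    (∀ (D : ℕ) (Z : ModuleCat.{u} R), Module.Finite R Z → GPd k D Z →
      (∀ n : ℤ, n ≠ 0 → n ≠ -1 → TV k Z Z n) →
      Nonempty (CRes R ((Om k)^[D] Z : ModuleCat.{u} R)))

/-! ### K: the algebra `Γ = C ⊗ C` -/

/-- the one-dimensional module given by a character -/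
def Chi {k : Type u} [Field k] {Γ : Type u} [Ring Γ] [Algebra k Γ] (_χ : Γ →ₐ[k] k) : Type u := k

namespace Chi
variable {k : Type u} [Field k] {Γ : Type u} [Ring Γ] [Algebra k Γ] (χ : Γ →ₐ[k] k)
instance : AddCommGroup (Chi χ) := inferInstanceAs (AddCommGroup k)
instance : Module Γ (Chi χ) := Module.compHom k χ.toRingHom
/-- the underlying scalar -/
def val (x : Chi χ) : k := x
/-- build an element -/
def mk (x : k) : Chi χ := x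
lemma val_smul (γ : Γ) (x : Chi χ) : val χ (γ • x) = χ γ * val χ x := rfl
end Chi

/-- the simple module `s` -/
abbrev sM {k : Type u} [Field k] {Γ : Type u} [Ring Γ] [Algebra k Γ] (χ : Γ →ₐ[k] k) :
    ModuleCat.{u} Γ := ModuleCat.of Γ (Chi χ)

/-- what is needed of the ten-dimensional algebra `C` (`Q = Ce`, `P = Cf`, `W = rad (Cf)`) -/
structure GoodC (k : Type u) [Field k] (C : Type u) [Ring C] [Algebra k C] (χ : C →ₐ[k] k) where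
  Q : ModuleCat.{u} C
  P : ModuleCat.{u} C
  W : ModuleCat.{u} C
  K : ModuleCat.{u} C
  finQ : Module.Finite C Q
  finP : Module.Finite C P
  projQ : Module.Projective C Q
  injQ : Module.Injective C Q
  projP : Module.Projective C P
  sQ : ∀ f : sM χ →ₗ[C] Q, f = 0
  Qs : ∀ f : Q →ₗ[C] sM χ, f = 0
  sesW : SES W P (sM χ)
  Ws : ∀ n, XV W (sM χ) n
  ses1 : SES P Q K
  ses0 : SES K (ModuleCat.of C (Q × Q)) (DG k C)
  retr : Retr (ModuleCat.of C C) (ModuleCat.of C (Q × P))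
  iq : Q →ₗ[C] C
  gen : ∀ x, χ x = 0 → x ∈ Submodule.span k {y : C | ∃ (a : Q) (b : C), y = iq a * b}
  tr : ∀ x : C, LinearMap.trace k C (LinearMap.mulRight k x) = 0
  rad : ∃ π : C →ₐ[k] (Fin 2 → k), Function.Surjective π ∧ (∀ x, π x = 0 → IsNilpotent x) ∧
    ∃ a b : C, π a = 0 ∧ π b = 0 ∧ a * b ≠ 0

/-- what is needed of `Γ = C ⊗ C` -/
structure Good (k : Type u) [Field k] (Γ : Type u) [Ring Γ] [Algebra k Γ] (χ : Γ →ₐ[k] k) where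
  gd : ∀ U : ModuleCat.{u} Γ, Module.Finite Γ U → GD U 4
  pdD : PD Γ (DG k Γ) 5
  ss : ∀ n, 1 ≤ n → XV (sM χ) (sM χ) n
  P₀ : ModuleCat.{u} Γ
  W : ℕ → ModuleCat.{u} Γ
  P : ℕ → ModuleCat.{u} Γ
  finP₀ : Module.Finite Γ P₀
  fpP₀ : FP Γ P₀
  finP : ∀ b, Module.Finite Γ (P b)
  fpP : ∀ b, FP Γ (P b)
  ses₀ : SES (W 0) P₀ (sM χ)
  ses : ∀ b, SES (W (b + 1)) (P b) (W b)
  sP : ∀ b n, XV (sM χ) (P b) n
  Ws : XV (W 0) (sM χ) 0
  K₁ : ModuleCat.{u} Γ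
  K₂ : ModuleCat.{u} Γ
  K₃ : ModuleCat.{u} Γ
  Q : Fin 4 → ModuleCat.{u} Γ
  sesK₀ : SES K₁ (Q 0) (DG k Γ)
  sesK₁ : SES K₂ (Q 1) K₁
  sesK₂ : SES K₃ (Q 2) K₂
  sesK₃ : SES P₀ (Q 3) K₃
  Qs : ∀ i n, XV (Q i) (sM χ) n
  sQ : ∀ i n, XV (sM χ) (Q i) n
  tr : ∀ x : Γ, LinearMap.trace k Γ (LinearMap.mulRight k x) = 0

/-- 186-K1: the ten-dimensional algebra -/
def K1Stmt : Prop :=
  ∀ (k : Type u) [Field k] [CharP k 2] (q : k), q ≠ 0 → (∀ n : ℕ, 0 < n → q ^ n ≠ 1) →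
    ∃ (C : Type u) (_ : Ring C) (_ : Algebra k C) (_ : Module.Finite k C) (χ : C →ₐ[k] k),
      Nonempty (GoodC k C χ)

/-- 186-K2: the tensor square -/
def K2Stmt : Prop :=
  ∀ (k : Type u) [Field k] (C : Type u) [Ring C] [Algebra k C] [Module.Finite k C]
    (χ : C →ₐ[k] k), GoodC k C χ →
    ∃ (Γ : Type u) (_ : Ring Γ) (_ : Algebra k Γ) (_ : Module.Finite k Γ) (χ' : Γ →ₐ[k] k),
      Nonempty (Good k Γ χ') ∧ Rad k Γ 4

/-! ### L: the natural extension `0 → U → L̃ U → L' U → 0` -/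

section
variable (k : Type u) [Field k] (Γ : Type u) [Ring Γ] [Algebra k Γ]

/-- `Σ³` -/
noncomputable abbrev Sg3 : ModuleCat.{u} Γ ⥤ ModuleCat.{u} Γ := Sg k Γ ⋙ Sg k Γ ⋙ Sg k Γ

/-- `Σ G = Σ ν⁻ Σ⁴` -/
noncomputable abbrev SG : ModuleCat.{u} Γ ⥤ ModuleCat.{u} Γ := Sg3 k Γ ⋙ Sg k Γ ⋙ NF k Γ ⋙ Sg k Γ

/-- a natural extension of exact functors -/
structure NatExt where
  L' : ModuleCat.{u} Γ ⥤ ModuleCat.{u} Γ
  Lt : ModuleCat.{u} Γ ⥤ ModuleCat.{u} Γ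
  [addL' : L'.Additive]
  [addLt : Lt.Additive]
  [linL' : L'.Linear k]
  [linLt : Lt.Linear k]
  j : 𝟭 (ModuleCat.{u} Γ) ⟶ Lt
  p : Lt ⟶ L'
  j_inj : ∀ U, Function.Injective (j.app U).hom
  jp : ∀ U, Function.Exact (j.app U).hom (p.app U).hom
  p_surj : ∀ U, Function.Surjective (p.app U).hom
  exL' : ExF L'
  finL' : FinF L'
  fpL' : FP Γ (L'.obj (ModuleCat.of Γ Γ))

/-- output of L1 -/
structure Pre extends NatExt k Γ where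
  eb : NF k Γ ⋙ Sg k Γ ⟶ 𝟭 (ModuleCat.{u} Γ)
  eb_spec : ∀ (V : ModuleCat.{u} Γ) (g : Nu k Γ V) (ψ : CoI k Γ k),
    (eb.app V).hom (((ρI k Γ).app _).hom (hmap k Γ ((NF k Γ).obj V) g ψ)) = g.lin ψ
  linkL' : ∀ U : ModuleCat.{u} Γ, ∃ X₁ X₂ B₀ B₁ B₂ : ModuleCat.{u} Γ,
    SES (L'.obj U) B₂ X₂ ∧ SES X₂ B₁ X₁ ∧ SES X₁ B₀ ((SG k Γ).obj U) ∧
      FP Γ B₀ ∧ FP Γ B₁ ∧ FP Γ B₂
  linkLt : ∀ U : ModuleCat.{u} Γ, Module.Finite Γ U → ∃ X₁ X₂ X₃ B₀ B₁ B₂ : ModuleCat.{u} Γ,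
    SES (Lt.obj U) B₀ X₁ ∧ SES X₁ B₁ X₂ ∧ SES X₂ B₂ X₃ ∧ FP Γ B₀ ∧ FP Γ B₁ ∧ FP Γ B₂ ∧
    ∃ (a : (Sg3 k Γ).obj U →ₗ[Γ] X₃) (c : X₃ →ₗ[Γ] (SG k Γ).obj U)
      (m : X₃ →ₗ[Γ] (IF k Γ).obj ((Sg3 k Γ).obj U)),
      Function.Injective a ∧ Function.Exact a c ∧ Function.Surjective c ∧
      (∀ x, m (a x) = ((ιI k Γ).app _).hom x) ∧
      ∀ x, ((ρI k Γ).app _).hom (m x) = (eb.app ((Sg k Γ).obj ((Sg3 k Γ).obj U))).hom (c x)

end

/-- 186-L1: construction of the functors -/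
def L1Stmt : Prop :=
  ∀ (k : Type u) [Field k] (Γ : Type u) [Ring Γ] [Algebra k Γ] [Module.Finite k Γ],
    (∀ U : ModuleCat.{u} Γ, Module.Finite Γ U → GD U 4) → PD Γ (DG k Γ) 5 →
    (∀ x : Γ, LinearMap.trace k Γ (LinearMap.mulRight k x) = 0) → Nonempty (Pre k Γ)

/-- 186-L2: the Tate cohomology computation -/
def L2Stmt : Prop :=
  ∀ (k : Type u) [Field k] (Γ : Type u) [Ring Γ] [Algebra k Γ] [Module.Finite k Γ]
    (χ : Γ →ₐ[k] k) (G : Good k Γ χ) (E : Pre k Γ),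
    (∀ n, n ≠ 4 → XV (sM χ) G.P₀ n) ∧
    (∀ n, n ≠ 0 → n ≠ 3 → TV k (sM χ) (sM χ) n) ∧
    (∀ n, n ≠ -2 → n ≠ 1 → TV k (E.L'.obj (sM χ)) (sM χ) n) ∧
    TV k (E.Lt.obj (sM χ)) (sM χ) 0 ∧ TV k (E.Lt.obj (sM χ)) (sM χ) 1

end Crest.Agent.R186
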