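import Crest.Agent.R186.DiscB

/-! 186-L2: the Tate cohomology computation. -/

set_option autoImplicit false
set_option linter.unusedSectionVars false
open CategoryTheory Abelian
open scoped TensorProduct ModuleCat

namespace Crest.Agent.R186

open Crest.Agent.R178

universe u

namespace L2

variable {k : Type u} [Field k] {Γ : Type u} [Ring Γ] [Algebra k Γ] [Module.Finite k Γ]
  {χ : Γ →ₐ[k] k} (G : Good k Γ χ)
include G

lemma seZ (j : ℕ) (hj : j < 3) :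
    SE ((NF k Γ).map (ιj k (sM χ) j)) ((NF k Γ).map (ρj k (sM χ) j)) :=
  have h := seJ k (sM χ) j
  ⟨NF_inj k Γ _ h.inj, NF_exact k Γ _ _ h.inj h.ex,
    NF_surj k Γ _ _ h.inj h.ex h.surj (xv_Sj j le_rfl (Ds_lt G _ (by omega)))⟩

lemma Z0 : Subsingleton ((NF k Γ).obj (Sj k (sM χ) 0)) :=
  ⟨fun a b => (xv_zero_iff.1 (Ds_lt G 0 (by norm_num)) (Nu.lin a)).trans
    (xv_zero_iff.1 (Ds_lt G 0 (by norm_num)) (Nu.lin b)).symm⟩

omit G in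
lemma pdI (j d : ℕ) : PD Γ ((NF k Γ).obj ((IF k Γ).obj (Sj k (sM χ) j))) (d + 1) :=
  have := proj_nu_I k Γ _ (fin_Sj (k := k) (fin_s χ) j)
  PD.of_proj.mono (by omega)

lemma pdZ (j : ℕ) (hj : j ≤ 3) : PD Γ ((NF k Γ).obj (Sj k (sM χ) j)) j := by
  induction j with
  | zero => have := Z0 G; exact PD.of_subsingleton
  | succ j ih => exact (seZ G j (by omega)).ses.pd₃ (ih (by omega)) (pdI j j)

lemma exists_pi : ∃ (F : ModuleCat.{u} Γ) (u : F ⟶ (NF k Γ).obj (Sj k (sM χ) 4))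
    (π : (NF k Γ).obj (Sj k (sM χ) 4) ⟶ sM χ)
    (r : (NF k Γ).obj ((IF k Γ).obj (Sj k (sM χ) 3)) ⟶ F),
    SE u π ∧ SE ((NF k Γ).map (ιj k (sM χ) 3)) r ∧ r ≫ u = (NF k Γ).map (ρj k (sM χ) 3) := by
  obtain ⟨e, he⟩ : ∃ e : Ext (DG k Γ) (sM χ) 4, e ≠ 0 := by
    by_contra h
    push Not at h
    exact not_Ds G (XV.nat (m := 4) h)
  let hm : Nu k Γ (Sj k (sM χ) 4) → (DG k Γ ⟶ Sj k (sM χ) 4) := fun g => ModuleCat.ofHom g.lin
  let Φ : Nu k Γ (Sj k (sM χ) 4) → Ext (DG k Γ) (sM χ) 4 := fun g =>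
    (Ext.mk₀ (hm g)).comp (kap k (sM χ) 4) (zero_add 4)
  have Φadd : ∀ a b, Φ (a + b) = Φ a + Φ b := fun a b => by
    have : hm (a + b) = hm a + hm b := rfl
    simp only [Φ, this, Ext.mk₀_add, Ext.add_comp]
  have Φsmul : ∀ (γ : Γ) a, Φ (γ • a) = χ γ • Φ a := fun γ a => by
    have : hm (γ • a) = ModuleCat.ofHom (rD k Γ γ) ≫ hm a := rfl
    rw [← rD_act G]
    simp only [Φ, this, Ext.mk₀_comp_mk₀_assoc]
  choose c hc using fun g => ex_smul (rk_Ds G) he (Φ g)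
  have inj := smul_left_injective k he
  let π : Nu k Γ (Sj k (sM χ) 4) →ₗ[Γ] Chi χ :=
    { toFun := fun g => Chi.mk χ (c g)
      map_add' := fun a b => inj (by
        change c (a + b) • e = (c a + c b) • e
        rw [add_smul, hc, hc, hc, Φadd])
      map_smul' := fun γ a => inj (by
        change c (γ • a) • e = (χ γ * c a) • e
        rw [mul_smul, hc, hc, Φsmul]) }
  have h3 := seJ k (sM χ) 3
  refine ⟨ModuleCat.of Γ (LinearMap.range ((NF k Γ).map (ρj k (sM χ) 3)).hom),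
    ModuleCat.ofHom (Submodule.subtype _), ModuleCat.ofHom π,
    ModuleCat.ofHom (X := (NF k Γ).obj ((IF k Γ).obj (Sj k (sM χ) 3)))
      (LinearMap.rangeRestrict ((NF k Γ).map (ρj k (sM χ) 3)).hom), ⟨Submodule.injective_subtype _, fun g => ?_,
      fun x => ?_⟩, ⟨NF_inj k Γ _ h3.inj, fun g => ?_, LinearMap.surjective_rangeRestrict _⟩, rfl⟩
  · have h1 : ∀ g, π g = 0 ↔ Φ g = 0 := fun g => by
      rw [← hc]
      exact ⟨fun h => by rw [show c g = 0 from h, zero_smul], fun h =>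
        (smul_eq_zero.1 h).resolve_right he⟩
    refine (h1 g).trans ((kap_zero_iff 3 (hm g)).trans ?_)
    constructor
    · rintro ⟨b, hb⟩
      exact ⟨⟨g, Nu.mk b.hom, congrArg ModuleCat.Hom.hom hb⟩, rfl⟩
    · rintro ⟨⟨_, b, rfl⟩, rfl⟩
      exact ⟨ModuleCat.ofHom (Nu.lin b), rfl⟩
  · obtain ⟨y, hy⟩ := kap_surj (k := k) 4 (zero_add 4) (Chi.val χ x • e)
    obtain ⟨g, rfl⟩ := (Ext.mk₀_bijective _ _).2 y
    exact ⟨Nu.mk g.hom, inj ((hc _).trans hy)⟩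
  · rw [← NF_exact k Γ _ _ h3.inj h3.ex g]
    exact Subtype.ext_iff

variable (E : Pre k Γ)

omit G in
/-- the counit, with convenient types -/
noncomputable def ebj (V : ModuleCat.{u} Γ) : (Sg k Γ).obj ((NF k Γ).obj V) ⟶ V := E.eb.app V

omit G in
lemma ebj_nat {U V : ModuleCat.{u} Γ} (f : U ⟶ V) :
    (Sg k Γ).map ((NF k Γ).map f) ≫ ebj E V = ebj E U ≫ f := E.eb.naturality f

omit G in
lemma ecl_step (j : ℕ) {F : ModuleCat.{u} Γ} (u : F ⟶ (NF k Γ).obj (Sj k (sM χ) (j + 1)))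
    (r : (NF k Γ).obj ((IF k Γ).obj (Sj k (sM χ) j)) ⟶ F)
    (h : SE ((NF k Γ).map (ιj k (sM χ) j)) r) (hr : r ≫ u = (NF k Γ).map (ρj k (sM χ) j))
    (h0 : (Ext.mk₀ (ebj E (Sj k (sM χ) j))).comp (kap k (sM χ) j) (zero_add j) = 0) :
    (Ext.mk₀ ((Sg k Γ).map u ≫ ebj E (Sj k (sM χ) (j + 1)))).comp (kap k (sM χ) (j + 1))
      (zero_add _) = 0 := by
  have := (h.map (exF_Sg k Γ)).nat (seJ k (sM χ) j) (ebj E _) (ebj E _)
    ((Sg k Γ).map u ≫ ebj E _) (ebj_nat E _).symm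
    (by rw [← Category.assoc, ← Functor.map_comp, hr, ebj_nat])
  rw [kap, ← Ext.comp_assoc _ _ _ (zero_add 1) (add_comm 1 j) (by omega), ← this,
    Ext.comp_assoc_of_second_deg_zero, h0, Ext.comp_zero]

lemma ecl_zero (j : ℕ) (hj : j ≤ 3) :
    (Ext.mk₀ (ebj E (Sj k (sM χ) j))).comp (kap k (sM χ) j) (zero_add j) = 0 := by
  induction j with
  | zero =>
    have := Z0 G
    have h1 : 𝟙 ((NF k Γ).obj (Sj k (sM χ) 0)) = 0 := by ext x; exact Subsingleton.elim _ _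
    have h2 : ebj E (Sj k (sM χ) 0) = 0 := by
      rw [← Category.id_comp (ebj E _), ← (Sg k Γ).map_id, h1, Functor.map_zero, Limits.zero_comp]
    rw [h2, Ext.mk₀_zero, Ext.zero_comp]
  | succ j ih =>
    have := ecl_step E j (𝟙 _) _ (seZ G j (by omega)) (Category.comp_id _) (ih (by omega))
    rwa [(Sg k Γ).map_id, Category.id_comp] at this

lemma exists_tau : ∃ θ : ∀ b, Ext (G.W 0) (G.W b) b, ∀ (X : ModuleCat.{u} Γ), Module.Finite Γ X →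
    ∀ (b m p : ℕ) (_ : 4 < m) (h : m + b = p) (x : Ext X (G.W 0) m), x.comp (θ b) h = 0 → x = 0 := by
  have := noeth k Γ
  choose f g h using fun b => of_ses (G.ses b)
  refine ⟨fun b => Nat.rec (Ext.mk₀ (𝟙 _)) (fun b t => t.comp (h b).δ rfl) b, fun X hX b => ?_⟩
  induction b with
  | zero =>
    intro m p _ hp x hx
    subst hp
    exact (Ext.comp_mk₀_id x).symm.trans hx
  | succ b ih =>
    intro m p hm hp x hx
    simp only at hx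
    rw [← Ext.comp_assoc x _ _ rfl rfl (by omega)] at hx
    obtain ⟨y, hy⟩ := (h b).co3 _ _ hx
    rw [(G.gd X hX).xv _ (G.finP b) (G.fpP b) (n := (m + b : ℕ)) (by omega) _ rfl y,
      Ext.zero_comp] at hy
    exact ih m _ hm rfl x hy.symm

lemma key : ∃ τ : Ext (sM χ) (G.W 4) 5,
    ((Ext.mk₀ (ebj E (Sj k (sM χ) 4))).comp (kap k (sM χ) 4) (zero_add 4)).comp τ
      (show 4 + 5 = 9 from rfl) ≠ 0 := by
  have := noeth k Γ
  obtain ⟨F, u, π, r, h1, h2, h3⟩ := exists_pi G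
  obtain ⟨j, π₀, h0⟩ := of_ses G.ses₀
  obtain ⟨θ, hθ⟩ := exists_tau G
  refine ⟨h0.δ.comp (θ 4) rfl, fun h => ?_⟩
  have fG := finF_N k Γ _ (fin_Sj (k := k) (fin_s χ) 4)
  have fF : Module.Finite Γ F := h1.ses.fin₁ fG
  have pF : PD Γ F 4 := h2.ses.pd₃ (pdZ G 3 le_rfl) (pdI 3 3)
  have pS : PD Γ ((Sg k Γ).obj F) 5 := (ses_I k Γ F).pd₃ pF (pd_I k Γ G.pdD F fF)
  have e0 := ecl_step E 3 u r h2 h3 (ecl_zero G E 3 le_rfl)
  rw [← Ext.mk₀_comp_mk₀_assoc] at e0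
  have h1' := h1.map (exF_Sg k Γ)
  obtain ⟨ε, hε⟩ := h1'.con2 _ e0
  rw [← hε, Ext.comp_assoc _ _ _ (zero_add 4) (show 4 + 5 = 9 from rfl) (by omega)] at h
  obtain ⟨w, hw⟩ := h1'.con3 (n := 8) rfl _ h
  rw [XV.of_pd pS (n := 8) (by norm_num) 8 rfl w, Ext.comp_zero,
    ← Ext.comp_assoc ε _ _ (show 4 + 1 = 5 from rfl) rfl (by omega)] at hw
  obtain ⟨y, rfl⟩ := h0.co3 _ ε (hθ _ (finF_Sg k Γ _ (fin_s χ)) 4 5 9 (by norm_num) rfl _ hw.symm)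
  have hs := seI k (sM χ)
  have l1 := lam G ((ιI k Γ).app (sM χ)) hs.inj (finF_I k Γ _ (fin_s χ))
    (pd_I k Γ G.pdD _ (fin_s χ)) (RK.retr_src retr_Is (rk_Ds G)) h0
    ((Ext.mk₀ ((ρI k Γ).app (sM χ))).comp y (zero_add 4))
    ((Ext.mk₀_comp_mk₀_assoc _ _ _).trans (by rw [hs.zero, Ext.mk₀_zero, Ext.zero_comp]))
  have l2 : (Ext.mk₀ ((ρI k Γ).app _ ≫ ebj E (Sj k (sM χ) 4))).comp (kap k (sM χ) 4)
      (zero_add 4) = 0 := by
    rw [← Ext.mk₀_comp_mk₀_assoc, ← hε, Ext.mk₀_comp_mk₀_assoc, ← (ρI k Γ).naturality π,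
      ← Ext.mk₀_comp_mk₀_assoc, ← Ext.comp_assoc_of_third_deg_zero, l1, Ext.comp_zero]
  obtain ⟨b', hb⟩ := (kap_zero_iff 3 _).1 l2
  obtain ⟨g, hg⟩ := h1.surj (Chi.mk χ 1)
  have hg' : g = u.hom (r.hom (Nu.mk (b'.hom ∘ₗ hmap k Γ _ g))) := by
    refine Eq.trans ?_ (congr(($h3).hom (Nu.mk (b'.hom ∘ₗ hmap k Γ _ g)))).symm
    exact Nu.ext fun ψ => (E.eb_spec _ g ψ).symm.trans (congr(($hb).hom (hmap k Γ _ g ψ))).symm
  rw [hg', h1.ex.apply_apply_eq_zero] at hg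
  exact one_ne χ hg.symm

lemma xv_Sj_src {V : ModuleCat.{u} Γ} (j : ℕ) {m : ℤ} (hm : 4 ≤ m) (h : XV (sM χ) V m) :
    XV (Sj k (sM χ) j) V (m + j) := by
  induction j with
  | zero => rw [Nat.cast_zero, add_zero]; exact h
  | succ j ih =>
    exact XV.src₃ (seJ k (sM χ) j).ses (by convert ih using 1; push_cast; ring)
      (XV.of_pd (pd_I k Γ G.pdD _ (fin_Sj (fin_s χ) j)) (by omega))

lemma rk_Sj_src {V : ModuleCat.{u} Γ} (j : ℕ) {m : ℕ} (hm : 4 ≤ m) (h : RK k (sM χ) V m) :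
    RK k (Sj k (sM χ) j) V (m + j) := by
  induction j with
  | zero => exact h
  | succ j ih =>
    exact RK.src₃ (seJ k (sM χ) j).ses (by omega) ih
      (XV.of_pd (pd_I k Γ G.pdD _ (fin_Sj (fin_s χ) j)) (by omega))

lemma sesF : ∃ F : ModuleCat.{u} Γ, SES F ((NF k Γ).obj (Sj k (sM χ) 4)) (sM χ) ∧ PD Γ F 4 := by
  obtain ⟨F, u, π, r, h1, h2, -⟩ := exists_pi G
  exact ⟨F, h1.ses, h2.ses.pd₃ (pdZ G 3 le_rfl) (pdI 3 3)⟩

lemma xv_X3 {X : ModuleCat.{u} Γ} {a : Sj k (sM χ) 3 ⟶ X}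
    {c : X ⟶ (Sg k Γ).obj ((NF k Γ).obj (Sj k (sM χ) 4))} (h : SE a c)
    (m : X ⟶ (IF k Γ).obj (Sj k (sM χ) 3)) (h1 : a ≫ m = ιj k (sM χ) 3)
    (h2 : m ≫ ρj k (sM χ) 3 = c ≫ ebj E (Sj k (sM χ) 4)) : XV X (G.W 4) 8 ∧ XV X (G.W 4) 9 := by
  obtain ⟨F, hF, pF⟩ := sesF G
  have fG := finF_N k Γ _ (fin_Sj (k := k) (fin_s χ) 4)
  have pI := pd_I k Γ G.pdD _ fG
  have x1 : XV ((Sg k Γ).obj ((NF k Γ).obj (Sj k (sM χ) 4))) (G.W 4) 8 :=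
    XV.src₃ (ses_I k Γ _) (XV.src₂ hF (XV.of_pd pF (by norm_num))
      (xv_W G 4 3 (xv_W0 G 2 (by norm_num) (by norm_num)))) (XV.of_pd pI (by norm_num))
  have x2 : XV (Sj k (sM χ) 3) (G.W 4) 9 :=
    xv_Sj_src G 3 (m := 6) (by norm_num) (xv_W G 4 2 (xv_W0 G 1 (by norm_num) (by norm_num)))
  have r1 : RK k (Sj k (sM χ) 3) (G.W 4) 8 :=
    rk_Sj_src G 3 (m := 5) (by norm_num)
      (rk_W G 4 (m := 1) (RK.tgt₁ G.ses₀ rfl (sP0 G _ (by norm_num)) rk_ss))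
  have r2 : RK k ((Sg k Γ).obj ((NF k Γ).obj (Sj k (sM χ) 4))) (G.W 4) 9 :=
    RK.src₃ (n := 8) (ses_I k Γ _) rfl (RK.src₂ hF (XV.of_pd pF (by norm_num))
      (rk_W G 4 (m := 4) (RK.tgt₁' (n := 3) G.ses₀ rfl (rk_sP0 G) (G.ss _ (by norm_num)))))
      (XV.of_pd pI (by norm_num))
  obtain ⟨τ, hτ⟩ := key G E
  have nat := h.nat (seJ k (sM χ) 3) (𝟙 _) m (ebj E _) (by rw [h1, Category.id_comp]) h2
  rw [Ext.comp_mk₀_id] at nat
  set z : Ext (Sj k (sM χ) 3) (G.W 4) 8 := (kap k (sM χ) 3).comp τ rfl with hz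
  have hne : h.δ.comp z (show 1 + 8 = 9 from rfl) ≠ 0 := by
    rw [hz, ← Ext.comp_assoc _ _ _ (show 1 + 3 = 4 from rfl) _ (by omega), nat,
      Ext.comp_assoc _ _ _ (zero_add 1) (show 1 + 3 = 4 from rfl) (by omega)]
    exact hτ
  have hz0 : z ≠ 0 := fun e => hne (by rw [e, Ext.comp_zero])
  constructor
  · refine XV.nat (m := 8) fun x => ?_
    obtain ⟨t, ht⟩ := ex_smul r1 hz0 ((Ext.mk₀ a).comp x (zero_add 8))
    have e1 : h.δ.comp ((Ext.mk₀ a).comp x (zero_add 8)) (show 1 + 8 = 9 from rfl) = 0 :=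
      h.se.extClass_comp_assoc x
    rw [← ht, Ext.comp_smul, smul_eq_zero] at e1
    rw [e1.resolve_right hne, zero_smul] at ht
    obtain ⟨y, rfl⟩ := h.con2 x ht.symm
    rw [x1 8 rfl y, Ext.comp_zero]
  · refine XV.nat (m := 9) fun x => ?_
    obtain ⟨y, rfl⟩ := h.con2 x (x2 9 rfl _)
    obtain ⟨t, rfl⟩ := ex_smul r2 hne y
    rw [Ext.comp_smul]
    have e1 : (Ext.mk₀ c).comp (h.δ.comp z (show 1 + 8 = 9 from rfl)) (zero_add 9) = 0 :=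
      h.se.comp_extClass_assoc z _
    rw [e1, smul_zero]

end L2

open L2 in
theorem l2Stmt : L2Stmt.{u} := by
  intro k _ Γ _ _ _ χ G E
  have := noeth k Γ
  have fG := finF_N k Γ _ (fin_Sj (k := k) (fin_s χ) 4)
  refine ⟨sP0 G, tv_ss G, fun n h1 h2 => ?_, ?_⟩
  · obtain ⟨X₁, X₂, B₀, B₁, B₂, s2, s1, s0, p0, p1, p2⟩ := E.linkL' (sM χ)
    obtain ⟨F, hF, pF⟩ := sesF G
    refine TV.src₁ s2 (TV.of_fp_src p2) (TV.src₁ s1 (TV.of_fp_src p1)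
      (TV.src₁ s0 (TV.of_fp_src p0) ?_))
    exact TV.src₃ (ses_I k Γ ((NF k Γ).obj (Sj k (sM χ) 4))) (TV.src₂ hF (TV.of_fp_src ⟨_, pF⟩)
      (tv_ss G _ (by omega) (by omega))) (TV.of_fp_src ⟨_, pd_I k Γ G.pdD _ fG⟩)
  · obtain ⟨X₁, X₂, X₃, B₀, B₁, B₂, s0, s1, s2, p0, p1, p2, a, c, m, b1, b2, b3, b4, b5⟩ :=
      E.linkLt (sM χ) (fin_s χ)
    have h : SE (A := Sj k (sM χ) 3) (C := (Sg k Γ).obj ((NF k Γ).obj (Sj k (sM χ) 4)))
      (ModuleCat.ofHom a) (ModuleCat.ofHom c) := ⟨b1, b2, b3⟩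
    obtain ⟨x8, x9⟩ := xv_X3 G E h (ModuleCat.ofHom m) (by ext x; exact b4 x) (by ext x; exact b5 x)
    have fX : Module.Finite Γ X₃ := h.ses.fin₂ (fin_Sj (fin_s χ) 3) (finF_Sg k Γ _ fG)
    have main : ∀ n : ℤ, TV k X₃ (sM χ) (n + 1 + 1 + 1) → TV k (E.Lt.obj (sM χ)) (sM χ) n :=
      fun n hn => TV.src₁ s0 (TV.of_fp_src p0) (TV.src₁ s1 (TV.of_fp_src p1)
        (TV.src₁ s2 (TV.of_fp_src p2) hn))
    exact ⟨main 0 (tv_of_W G fX _ 4 (by norm_num) x8), main 1 (tv_of_W G fX _ 4 (by norm_num) x9)⟩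

end Crest.Agent.R186
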