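import Crest.Agent.R186.Defs1

/-! 186-L2, part A: explicit short exact sequences, rank bounds for Ext groups. -/

set_option autoImplicit false
open CategoryTheory Abelian
open scoped TensorProduct ModuleCat

namespace Crest.Agent.R186.L2

open Crest.Agent.R178

universe u

section
variable {R : Type u} [Ring R] {A B C A' B' C' S V X : ModuleCat.{u} R}

/-- a short exact sequence with named maps -/
structure SE (f : A ⟶ B) (g : B ⟶ C) : Prop where
  inj : Function.Injective f.hom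
  ex : Function.Exact f.hom g.hom
  surj : Function.Surjective g.hom

variable {f : A ⟶ B} {g : B ⟶ C}

lemma SE.zero (h : SE f g) : f ≫ g = 0 := by ext y; exact h.ex.apply_apply_eq_zero y

lemma SE.se (h : SE f g) : (ShortComplex.mk f g h.zero).ShortExact :=
  ModuleCat.shortComplex_shortExact _ h.ex h.inj h.surj

lemma SE.ses (h : SE f g) : SES A B C := ⟨_, _, h.inj, h.ex, h.surj⟩

lemma of_ses (h : SES A B C) : ∃ (f : A ⟶ B) (g : B ⟶ C), SE f g := by
  obtain ⟨f, g, h1, h2, h3⟩ := h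
  exact ⟨ModuleCat.ofHom f, ModuleCat.ofHom g, h1, h2, h3⟩

lemma SE.map {R' : Type u} [Ring R'] {F : ModuleCat.{u} R ⥤ ModuleCat.{u} R'} (hF : ExF F)
    (h : SE f g) : SE (F.map f) (F.map g) := by
  obtain ⟨a, b, c⟩ := hF f g h.inj h.ex h.surj
  exact ⟨a, b, c⟩

/-- the class of the extension -/
noncomputable def SE.δ (h : SE f g) : Ext C A 1 := h.se.extClass

lemma SE.co1 (h : SE f g) {n m : ℕ} (hn : n + 1 = m) (x : Ext X A m)
    (hx : x.comp (Ext.mk₀ f) (add_zero m) = 0) : ∃ y : Ext X C n, y.comp h.δ hn = x :=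
  Ext.covariant_sequence_exact₁ X h.se x hx hn

lemma SE.co2 (h : SE f g) {n : ℕ} (x : Ext X B n)
    (hx : x.comp (Ext.mk₀ g) (add_zero n) = 0) :
    ∃ y : Ext X A n, y.comp (Ext.mk₀ f) (add_zero n) = x :=
  Ext.covariant_sequence_exact₂ X h.se x hx

lemma SE.co3 (h : SE f g) {n m : ℕ} (hn : n + 1 = m) (x : Ext X C n) (hx : x.comp h.δ hn = 0) :
    ∃ y : Ext X B n, y.comp (Ext.mk₀ g) (add_zero n) = x :=
  Ext.covariant_sequence_exact₃ X h.se x hn hx

lemma SE.con1 (h : SE f g) {n m : ℕ} (hn : 1 + n = m) (x : Ext A X n) (hx : h.δ.comp x hn = 0) :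
    ∃ y : Ext B X n, (Ext.mk₀ f).comp y (zero_add n) = x :=
  Ext.contravariant_sequence_exact₁ h.se X x hn hx

lemma SE.con2 (h : SE f g) {n : ℕ} (x : Ext B X n) (hx : (Ext.mk₀ f).comp x (zero_add n) = 0) :
    ∃ y : Ext C X n, (Ext.mk₀ g).comp y (zero_add n) = x :=
  Ext.contravariant_sequence_exact₂ h.se X x hx

lemma SE.con3 (h : SE f g) {n m : ℕ} (hn : 1 + n = m) (x : Ext C X m)
    (hx : (Ext.mk₀ g).comp x (zero_add m) = 0) : ∃ y : Ext A X n, h.δ.comp y hn = x :=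
  Ext.contravariant_sequence_exact₃ h.se X x hx hn

lemma SE.g_δ (h : SE f g) : (Ext.mk₀ g).comp h.δ (zero_add 1) = 0 := h.se.comp_extClass

lemma SE.nat {f' : A' ⟶ B'} {g' : B' ⟶ C'} (h : SE f g) (h' : SE f' g') (a : A ⟶ A')
    (b : B ⟶ B') (c : C ⟶ C') (h1 : a ≫ f' = f ≫ b) (h2 : b ≫ g' = g ≫ c) :
    h.δ.comp (Ext.mk₀ a) (add_zero 1) = (Ext.mk₀ c).comp h'.δ (zero_add 1) :=
  ShortComplex.ShortExact.extClass_naturality h.se h'.se ⟨a, b, c, h1, h2⟩

variable (k : Type u) [Field k] [Algebra k R]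

/-- `Ext^n(S, V)` has dimension at most one -/
def RK (S V : ModuleCat.{u} R) (n : ℕ) : Prop := Module.rank k (Ext S V n) ≤ 1

variable {k} {n m : ℕ}

lemma RK.src₃ (h : SES A B C) (hn : 1 + n = m) (hA : RK k A V n) (hB : XV B V m) :
    RK k C V m := by
  obtain ⟨f, g, h⟩ := of_ses h
  exact (LinearMap.rank_le_of_surjective (Ext.precompOfLinear h.δ k V hn)
    (fun x => h.con3 hn x (hB m rfl _))).trans hA

lemma RK.src₂ (h : SES A B C) (hA : XV A V n) (hC : RK k C V n) : RK k B V n := by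
  obtain ⟨f, g, h⟩ := of_ses h
  exact (LinearMap.rank_le_of_surjective (Ext.precompOfLinear (Ext.mk₀ g) k V (zero_add n))
    (fun x => h.con2 x (hA n rfl _))).trans hC

lemma RK.tgt₁ (h : SES A B C) (hn : n + 1 = m) (hB : XV S B m) (hC : RK k S C n) :
    RK k S A m := by
  obtain ⟨f, g, h⟩ := of_ses h
  exact (LinearMap.rank_le_of_surjective (Ext.postcompOfLinear h.δ k S hn)
    (fun x => h.co1 hn x (hB m rfl _))).trans hC

lemma RK.tgt₁' (h : SES A B C) (hn : n + 1 = m) (hB : RK k S B m) (hC : XV S C n) :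
    RK k S A m := by
  obtain ⟨f, g, h⟩ := of_ses h
  refine (LinearMap.rank_le_of_injective (Ext.postcompOfLinear (Ext.mk₀ f) k S (add_zero m))
    ((injective_iff_map_eq_zero _).2 fun x hx => ?_)).trans hB
  obtain ⟨y, rfl⟩ := h.co1 hn x hx
  rw [hC n rfl y, Ext.zero_comp]

lemma RK.retr_src (h : Retr A B) (hB : RK k B V n) : RK k A V n := by
  obtain ⟨i, r, hir⟩ := h
  have e : ModuleCat.ofHom i ≫ ModuleCat.ofHom r = 𝟙 A := by ext y; exact hir y
  refine (LinearMap.rank_le_of_surjective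
    (Ext.precompOfLinear (Ext.mk₀ (ModuleCat.ofHom i)) k V (zero_add n)) fun x =>
    ⟨(Ext.mk₀ (ModuleCat.ofHom r)).comp x (zero_add n), ?_⟩).trans hB
  change (Ext.mk₀ (ModuleCat.ofHom i)).comp ((Ext.mk₀ (ModuleCat.ofHom r)).comp x (zero_add n))
    (zero_add n) = x
  rw [Ext.mk₀_comp_mk₀_assoc, e]; exact Ext.mk₀_id_comp x

lemma RK.zero (φ : S ⟶ V) (h : ∀ ψ : S ⟶ V, ∃ c : k, c • φ = ψ) : RK k S V 0 := by
  refine rank_le_one_iff.2 ⟨Ext.mk₀ φ, fun x => ?_⟩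
  obtain ⟨ψ, rfl⟩ := (Ext.mk₀_bijective _ _).2 x
  obtain ⟨c, rfl⟩ := h ψ
  exact ⟨c, (Ext.mk₀_smul c φ).symm⟩

end

lemma ex_smul {k M : Type u} [Field k] [AddCommGroup M] [Module k M] (h : Module.rank k M ≤ 1)
    {e : M} (he : e ≠ 0) (x : M) : ∃ c : k, c • e = x := by
  obtain ⟨v, hv⟩ := rank_le_one_iff.1 h
  obtain ⟨a, rfl⟩ := hv e
  obtain ⟨b, rfl⟩ := hv x
  have ha : a ≠ 0 := by rintro rfl; simp at he
  exact ⟨b / a, by rw [smul_smul, div_mul_cancel₀ _ ha]⟩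

section
variable (k : Type u) [Field k] {Γ : Type u} [Ring Γ] [Algebra k Γ]

lemma seI (U : ModuleCat.{u} Γ) : SE ((ιI k Γ).app U) ((ρI k Γ).app U) :=
  ⟨ιI_inj k Γ U, ιρ_exact k Γ U, ρI_surj k Γ U⟩

/-- iterated cosyzygies -/
noncomputable def Sj (U : ModuleCat.{u} Γ) : ℕ → ModuleCat.{u} Γ
  | 0 => U
  | j + 1 => (Sg k Γ).obj (Sj U j)

/-- the embedding in the coinduced module -/
noncomputable def ιj (U : ModuleCat.{u} Γ) (j : ℕ) : Sj k U j ⟶ (IF k Γ).obj (Sj k U j) :=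
  (ιI k Γ).app _

/-- the projection on the cosyzygy -/
noncomputable def ρj (U : ModuleCat.{u} Γ) (j : ℕ) : (IF k Γ).obj (Sj k U j) ⟶ Sj k U (j + 1) :=
  (ρI k Γ).app _

lemma seJ (U : ModuleCat.{u} Γ) (j : ℕ) : SE (ιj k U j) (ρj k U j) := seI k _

/-- the composite of the classes -/
noncomputable def kap (U : ModuleCat.{u} Γ) : ∀ j : ℕ, Ext (Sj k U j) U j
  | 0 => Ext.mk₀ (𝟙 U)
  | j + 1 => (seJ k U j).δ.comp (kap U j) (add_comm 1 j)

variable {k}

lemma kap_inj {U X : ModuleCat.{u} Γ} (j : ℕ) : ∀ {m p : ℕ} (_ : 1 ≤ m) (h : m + j = p)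
    (x : Ext X (Sj k U j) m), x.comp (kap k U j) h = 0 → x = 0 := by
  induction j with
  | zero =>
    intro m p _ h x hx
    subst h
    exact (Ext.comp_mk₀_id x).symm.trans hx
  | succ j ih =>
    intro m p hm h x hx
    rw [kap, ← Ext.comp_assoc x _ _ rfl (add_comm 1 j) (by omega)] at hx
    obtain ⟨y, rfl⟩ := (seJ k U j).co3 rfl x (ih (by omega) _ _ hx)
    rw [XV.of_inj (inj_I k Γ _) (n := m) (by omega) m rfl y, Ext.zero_comp]

lemma kap_surj {U X : ModuleCat.{u} Γ} (j : ℕ) : ∀ {m p : ℕ} (h : m + j = p) (z : Ext X U p),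
    ∃ x : Ext X (Sj k U j) m, x.comp (kap k U j) h = z := by
  induction j with
  | zero =>
    intro m p h z
    subst h
    exact ⟨z, Ext.comp_mk₀_id z⟩
  | succ j ih =>
    intro m p h z
    obtain ⟨x, rfl⟩ := ih (m := m + 1) (by omega) z
    obtain ⟨y, rfl⟩ := (seJ k U j).co1 rfl x
      (XV.of_inj (inj_I k Γ _) (n := (m + 1 : ℕ)) (by omega) _ rfl _)
    exact ⟨y, by rw [kap, ← Ext.comp_assoc y _ _ rfl (add_comm 1 j) (by omega)]⟩

/-- a map into `Σ^(j+1) U` is killed by `κ` iff it lifts to the injective module -/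
lemma kap_zero_iff {U X : ModuleCat.{u} Γ} (j : ℕ) (b : X ⟶ Sj k U (j + 1)) :
    (Ext.mk₀ b).comp (kap k U (j + 1)) (zero_add _) = 0 ↔
      ∃ b' : X ⟶ (IF k Γ).obj (Sj k U j), b' ≫ ρj k U j = b := by
  rw [kap, ← Ext.comp_assoc _ _ _ (zero_add 1) (add_comm 1 j) (by omega)]
  constructor
  · intro h
    obtain ⟨y, hy⟩ := (seJ k U j).co3 rfl _ (kap_inj j le_rfl _ _ h)
    obtain ⟨b', rfl⟩ := (Ext.mk₀_bijective _ _).2 y
    rw [Ext.mk₀_comp_mk₀] at hy
    exact ⟨b', (Ext.mk₀_bijective _ _).1 hy⟩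
  · rintro ⟨b', rfl⟩
    rw [← Ext.mk₀_comp_mk₀_assoc, (seJ k U j).g_δ, Ext.comp_zero, Ext.zero_comp]

lemma fin_Sj [Module.Finite k Γ] {U : ModuleCat.{u} Γ} (h : Module.Finite Γ U) (j : ℕ) :
    Module.Finite Γ (Sj k U j) := by
  induction j with
  | zero => exact h
  | succ j ih => exact finF_Sg k Γ _ ih

lemma xv_Sj {U X : ModuleCat.{u} Γ} (j : ℕ) : ∀ {m : ℤ}, 1 ≤ m → XV X U (m + j) →
    XV X (Sj k U j) m := by
  induction j with
  | zero => intro m _ h; rw [Nat.cast_zero, add_zero] at h; exact h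
  | succ j ih =>
    intro m hm h
    exact XV.tgt₃ (seJ k U j).ses (ih (by omega) (by convert h using 1; push_cast; ring))
      (XV.of_inj (inj_I k Γ _) hm)

end

end Crest.Agent.R186.L2
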