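import Crest.Agent.R186.DiscA

/-! 186-L2, part B: the simple module and the key lemma on `Ext⁴(DΓ, s)`. -/

set_option autoImplicit false
set_option linter.unusedSectionVars false
open CategoryTheory Abelian
open scoped TensorProduct ModuleCat

namespace Crest.Agent.R186.L2

open Crest.Agent.R178

universe u

variable {k : Type u} [Field k] {Γ : Type u} [Ring Γ] [Algebra k Γ] [Module.Finite k Γ]
  {χ : Γ →ₐ[k] k}

variable (χ) in
lemma val_inj {x y : Chi χ} (h : Chi.val χ x = Chi.val χ y) : x = y := h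

variable (χ) in
lemma eq_smul_one (x : Chi χ) : x = algebraMap k Γ (Chi.val χ x) • Chi.mk χ 1 :=
  val_inj χ (by rw [Chi.val_smul, AlgHom.commutes]; exact (mul_one _).symm)

variable (χ) in
lemma one_ne : Chi.mk χ 1 ≠ 0 := fun h => one_ne_zero (α := k) h

variable (χ) in
lemma fin_s : Module.Finite Γ (sM χ) :=
  Module.Finite.of_surjective (LinearMap.toSpanSingleton Γ (Chi χ) (Chi.mk χ 1))
    fun x => ⟨_, (eq_smul_one χ x).symm⟩

variable (χ) in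
/-- the embedding `s → DΓ` -/
noncomputable def iDG : sM χ ⟶ DG k Γ := ModuleCat.ofHom
  { toFun := fun x => CoI.mk (Chi.val χ x • χ.toLinearMap)
    map_add' := fun a b => CoI.ext fun x => add_mul (Chi.val χ a) (Chi.val χ b) (χ x)
    map_smul' := fun γ a => CoI.ext fun x => by
      change (χ γ * Chi.val χ a) * χ x = Chi.val χ a * χ (x * γ)
      rw [map_mul]; ring }

lemma iDG_apply (a : Chi χ) (x : Γ) : CoI.lin ((iDG χ).hom a) x = Chi.val χ a * χ x := rfl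

lemma iDG_inj : Function.Injective (iDG χ).hom := fun a b h => val_inj χ (by
  have := congr(CoI.lin $h 1)
  rwa [iDG_apply, iDG_apply, map_one, mul_one, mul_one] at this)

lemma iDG_rD (γ : Γ) : iDG χ ≫ ModuleCat.ofHom (rD k Γ γ) = χ γ • iDG χ := by
  ext1; ext1 a; refine CoI.ext fun x => ?_
  change Chi.val χ a * χ (γ * x) = Chi.val χ a * χ (x * algebraMap k Γ (χ γ))
  rw [map_mul, map_mul, AlgHom.commutes, mul_comm (χ γ)]; rfl

lemma rk_ss : RK k (sM χ) (sM χ) 0 := RK.zero (𝟙 _) fun ψ => ⟨Chi.val χ (ψ.hom (Chi.mk χ 1)), by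
  ext1; ext1 a
  change algebraMap k Γ _ • a = ψ.hom a
  conv_rhs => rw [eq_smul_one χ a, map_smul]
  apply val_inj χ
  rw [Chi.val_smul, Chi.val_smul, AlgHom.commutes, AlgHom.commutes, mul_comm]; rfl⟩

lemma rk_sD : RK k (sM χ) (DG k Γ) 0 :=
  RK.zero (iDG χ) fun ψ => ⟨CoI.lin (ψ.hom (Chi.mk χ 1)) 1, by
    ext1; ext1 a; refine CoI.ext fun x => ?_
    change Chi.val χ a * χ (x * algebraMap k Γ _) = CoI.lin (ψ.hom a) x
    have h1 : CoI.lin (ψ.hom a) x = CoI.lin (ψ.hom (x • a)) 1 := by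
      rw [map_smul, CoI.smul_apply, one_mul]
    rw [h1, eq_smul_one χ (x • a), map_smul, CoI.smul_apply, one_mul, Chi.val_smul,
      Algebra.algebraMap_eq_smul_one (χ x * _), map_smul, map_mul, AlgHom.commutes]
    simp only [Algebra.algebraMap_self, RingHom.id_apply, smul_eq_mul]
    ring⟩

lemma retr_Is : Retr ((IF k Γ).obj (sM χ)) (DG k Γ) := by
  let : Module k (Chi χ) := ModuleCat.moduleOfAlgebraModule (k := k) (sM χ)
  let e : Chi χ →ₗ[k] k :=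
    { toFun := Chi.val χ
      map_add' := fun _ _ => rfl
      map_smul' := fun c a => by
        change Chi.val χ (algebraMap k Γ c • a) = _
        rw [Chi.val_smul, AlgHom.commutes]; rfl }
  let e' : k →ₗ[k] Chi χ :=
    { toFun := Chi.mk χ
      map_add' := fun _ _ => rfl
      map_smul' := fun c a => val_inj χ (by
        change _ = Chi.val χ (algebraMap k Γ c • Chi.mk χ a)
        rw [Chi.val_smul, AlgHom.commutes]; rfl) }
  exact ⟨CoI.post e, CoI.post e', fun h => CoI.ext fun x => rfl⟩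

variable (G : Good k Γ χ)
include G

lemma sP0 (n : ℤ) (hn : n ≠ 4) : XV (sM χ) G.P₀ n := by
  refine XV.tgt₁ G.sesK₃ (G.sQ _ _) (XV.tgt₁ G.sesK₂ (G.sQ _ _) (XV.tgt₁ G.sesK₁ (G.sQ _ _)
    (XV.tgt₁ G.sesK₀ (G.sQ _ _) ?_)))
  rcases lt_or_gt_of_ne hn with h | h
  · exact XV.neg (by omega)
  · exact XV.of_inj CoI.injective (by omega)

lemma not_sP0 : ¬ XV (sM χ) G.P₀ 4 := fun h => by
  have h0 : XV (sM χ) (DG k Γ) 0 :=
    XV.tgt₃ G.sesK₀ (XV.tgt₃ G.sesK₁ (XV.tgt₃ G.sesK₂ (XV.tgt₃ G.sesK₃ h (G.sQ _ _)) (G.sQ _ _))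
      (G.sQ _ _)) (G.sQ _ _)
  exact one_ne χ (iDG_inj (χ := χ) (by rw [xv_zero_iff.1 h0 (iDG χ).hom]; rfl))

lemma Ds_lt (n : ℤ) (hn : n < 4) : XV (DG k Γ) (sM χ) n :=
  XV.src₃ G.sesK₀ (XV.src₃ G.sesK₁ (XV.src₃ G.sesK₂ (XV.src₃ G.sesK₃ (XV.neg (by omega))
    (G.Qs _ _)) (G.Qs _ _)) (G.Qs _ _)) (G.Qs _ _)

lemma rk_Ds : RK k (DG k Γ) (sM χ) 4 :=
  RK.src₃ (n := 3) G.sesK₀ rfl (RK.src₃ (n := 2) G.sesK₁ rfl (RK.src₃ (n := 1) G.sesK₂ rfl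
    (RK.src₃ (n := 0) G.sesK₃ rfl (RK.src₂ G.ses₀ G.Ws rk_ss) (G.Qs _ _)) (G.Qs _ _)) (G.Qs _ _))
    (G.Qs _ _)

lemma not_Ds : ¬ XV (DG k Γ) (sM χ) 4 := fun h => by
  have h0 : XV G.P₀ (sM χ) 0 :=
    XV.src₁ G.sesK₃ (G.Qs _ _) (XV.src₁ G.sesK₂ (G.Qs _ _) (XV.src₁ G.sesK₁ (G.Qs _ _)
      (XV.src₁ G.sesK₀ (G.Qs _ _) h)))
  obtain ⟨f, g, -, -, hg⟩ := G.ses₀
  obtain ⟨x, hx⟩ := hg (Chi.mk χ 1)
  rw [xv_zero_iff.1 h0 g] at hx
  exact one_ne χ hx.symm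

lemma rk_sP0 : RK k (sM χ) G.P₀ 4 :=
  RK.tgt₁ (n := 3) G.sesK₃ rfl (G.sQ _ _) (RK.tgt₁ (n := 2) G.sesK₂ rfl (G.sQ _ _)
    (RK.tgt₁ (n := 1) G.sesK₁ rfl (G.sQ _ _) (RK.tgt₁ (n := 0) G.sesK₀ rfl (G.sQ _ _) rk_sD)))

lemma finW (b : ℕ) : Module.Finite Γ (G.W b) := by
  have := noeth k Γ
  cases b with
  | zero => exact G.ses₀.fin₁ G.finP₀
  | succ b => exact (G.ses b).fin₁ (G.finP b)

lemma xv_W (b : ℕ) : ∀ m : ℤ, XV (sM χ) (G.W 0) m → XV (sM χ) (G.W b) (m + b) := by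
  induction b with
  | zero => intro m h; simpa using h
  | succ b ih =>
    intro m h
    exact XV.tgt₁ (G.ses b) (G.sP _ _) (by convert ih m h using 1; push_cast; ring)

lemma rk_W (b : ℕ) {m : ℕ} (h : RK k (sM χ) (G.W 0) m) : RK k (sM χ) (G.W b) (m + b) := by
  induction b with
  | zero => exact h
  | succ b ih => exact RK.tgt₁ (G.ses b) rfl (G.sP _ _) ih

lemma xv_W0 (n : ℤ) (h0 : n ≠ 0) (h3 : n ≠ 3) : XV (sM χ) (G.W 0) (n + 1) := by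
  refine XV.tgt₁ G.ses₀ (sP0 G _ (by omega)) ?_
  rcases lt_or_gt_of_ne h0 with h | h
  · exact XV.neg (by omega)
  · exact G.ss _ (by omega)

/-- Tate cohomology with values in `s` through the modules `W b` -/
lemma tv_of_W {X : ModuleCat.{u} Γ} (hX : Module.Finite Γ X) (n : ℤ) (b : ℕ) (hb : 4 < n + 1 + b)
    (h : XV X (G.W b) (n + 1 + b)) : TV k X (sM χ) n :=
  TV.tgt₃ G.ses₀ ((tv_chain_tgt G.W G.P G.ses
    (fun b _ => TV.of_fp_tgt (G.gd X hX) (G.finP b) (G.fpP b)) b).1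
      ((tv_iff (G.gd X hX) (finW G b) hb).2 h)) (TV.of_fp_tgt (G.gd X hX) G.finP₀ G.fpP₀)

lemma tv_ss (n : ℤ) (h0 : n ≠ 0) (h3 : n ≠ 3) : TV k (sM χ) (sM χ) n :=
  tv_of_W G (fin_s χ) n (4 - n).toNat (by omega) (xv_W G _ _ (xv_W0 G n h0 h3))

lemma lam {D : ModuleCat.{u} Γ} (i : sM χ ⟶ D) (hi : Function.Injective i.hom)
    (hD : Module.Finite Γ D) (hp : PD Γ D 5) (hr : RK k D (sM χ) 4)
    {j : G.W 0 ⟶ G.P₀} {π : G.P₀ ⟶ sM χ} (h0 : SE j π) (y : Ext D G.P₀ 4)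
    (hy : (Ext.mk₀ i).comp y (zero_add 4) = 0) : y.comp (Ext.mk₀ π) (add_zero 4) = 0 := by
  have := noeth k Γ
  have ker : ∀ y : Ext D G.P₀ 4, y.comp (Ext.mk₀ π) (add_zero 4) = 0 →
      (Ext.mk₀ i).comp y (zero_add 4) = 0 := by
    intro y hy
    obtain ⟨w, rfl⟩ := h0.co2 y hy
    obtain ⟨a, p, h1⟩ := of_ses (G.ses 0)
    obtain ⟨z, rfl⟩ := h1.co3 rfl w (XV.of_pd hp le_rfl 5 rfl _)
    rw [← Ext.comp_assoc_of_third_deg_zero, ← Ext.comp_assoc_of_third_deg_zero,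
      G.sP 0 4 4 rfl ((Ext.mk₀ i).comp z (zero_add 4)), Ext.zero_comp, Ext.zero_comp]
  have hse : SE i (ModuleCat.ofHom (LinearMap.range i.hom).mkQ) :=
    ⟨hi, LinearMap.exact_map_mkQ_range _, Submodule.mkQ_surjective _⟩
  obtain ⟨x0, hx0⟩ : ∃ x0 : Ext (sM χ) G.P₀ 4, x0 ≠ 0 := by
    by_contra h
    push Not at h
    exact not_sP0 G (XV.nat (m := 4) h)
  obtain ⟨y0, rfl⟩ := hse.con1 rfl x0
    ((G.gd _ (hse.ses.fin₃ hD)).xv _ G.finP₀ G.fpP₀ (n := 5) (by norm_num) 5 rfl _)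
  obtain ⟨c, hc⟩ := ex_smul hr (fun h => hx0 (ker y0 h)) (y.comp (Ext.mk₀ π) (add_zero 4))
  have h2 := ker (c • y0 + -y) (by rw [Ext.add_comp, Ext.neg_comp, Ext.smul_comp, hc]; simp)
  rw [Ext.comp_add, Ext.comp_neg, hy, Ext.comp_smul, neg_zero, add_zero, smul_eq_zero] at h2
  rw [← hc, h2.resolve_right hx0, zero_smul]

lemma rD_act (γ : Γ) (x : Ext (DG k Γ) (sM χ) 4) :
    (Ext.mk₀ (ModuleCat.ofHom (rD k Γ γ))).comp x (zero_add 4) = χ γ • x := by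
  obtain ⟨j, π, h0⟩ := of_ses G.ses₀
  obtain ⟨y, rfl⟩ := h0.co3 rfl x (XV.of_pd G.pdD le_rfl 5 rfl _)
  have := lam G (iDG χ) iDG_inj (fin_DG k Γ) G.pdD (rk_Ds G) h0
    ((Ext.mk₀ (ModuleCat.ofHom (rD k Γ γ))).comp y (zero_add 4) + -(χ γ • y)) (by
      rw [Ext.comp_add, Ext.comp_neg, Ext.mk₀_comp_mk₀_assoc, iDG_rD, Ext.mk₀_smul,
        Ext.smul_comp, Ext.comp_smul, add_neg_cancel])
  rwa [Ext.add_comp, Ext.neg_comp, Ext.smul_comp, Ext.comp_assoc_of_third_deg_zero,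
    add_neg_eq_zero] at this

end Crest.Agent.R186.L2
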