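import Crest.Agent.R186.Defs0
import Crest.Agent.R178.Hom

/-! Row 186, part C: abstract consequences of a non-split projective-injective coresolution. -/

set_option autoImplicit false
open CategoryTheory Crest.AlgebraR Crest.Agent.R178

namespace Crest.Agent.R186.CA

universe u

section
variable (R : Type u) [Ring R]

/-- injective dimension `< n`, for an unbundled module -/
abbrev ID (X : Type u) [AddCommGroup X] [Module R X] (n : ℕ) : Prop :=
  HasInjectiveDimensionLT (ModuleCat.of R X) n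

variable {R}
variable {A B C : Type u} [AddCommGroup A] [Module R A] [AddCommGroup B] [Module R B]
  [AddCommGroup C] [Module R C]

lemma ID.mono {n m : ℕ} (h : ID R A n) (hnm : n ≤ m) : ID R A m :=
  @hasInjectiveDimensionLT_of_ge _ _ _ _ n m hnm h

lemma ID.of_inj [Module.Injective R A] : ID R A 1 :=
  injective_iff_hasInjectiveDimensionLT_one.1 ((Module.injective_iff_injective_object R A).1 ‹_›)

lemma ID.inj (h : ID R A 1) : Module.Injective R A :=
  (Module.injective_iff_injective_object R A).2 (injective_iff_hasInjectiveDimensionLT_one.2 h)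

lemma ID.of_subsingleton [Subsingleton A] : ID R A 0 :=
  (ModuleCat.isZero_of_subsingleton (ModuleCat.of R A)).hasInjectiveDimensionLT_zero

lemma ID.X₁ (f : A →ₗ[R] B) (g : B →ₗ[R] C) (hf : Function.Injective f) (hfg : Function.Exact f g)
    (hg : Function.Surjective g) {n : ℕ} (h₃ : ID R C n) (h₂ : ID R B (n + 1)) : ID R A (n + 1) :=
  (ses f g hf hfg hg).hasInjectiveDimensionLT_X₁ n h₃ h₂

lemma ID.X₃ (f : A →ₗ[R] B) (g : B →ₗ[R] C) (hf : Function.Injective f) (hfg : Function.Exact f g)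
    (hg : Function.Surjective g) {n : ℕ} (h₂ : ID R B n) (h₁ : ID R A (n + 1)) : ID R C n :=
  (ses f g hf hfg hg).hasInjectiveDimensionLT_X₃ n h₂ h₁

lemma ID.retract (i : A →ₗ[R] B) (r : B →ₗ[R] A) (h : ∀ x, r (i x) = x) {n : ℕ} (hB : ID R B n) :
    ID R A n :=
  @Retract.hasInjectiveDimensionLT _ _ _ (ModuleCat.of R A) (ModuleCat.of R B)
    ⟨ModuleCat.ofHom i, ModuleCat.ofHom r, by ext x; simpa using h x⟩ n hB

lemma inj_retract (i : A →ₗ[R] B) (r : B →ₗ[R] A) (h : ∀ x, r (i x) = x) [Module.Injective R B] :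
    Module.Injective R A :=
  (ID.retract i r h ID.of_inj).inj

lemma inj_of_inAdd {W : Type u} [AddCommGroup W] [Module R W] [Module.Injective R W]
    (h : InAdd R W A) : Module.Injective R A := by
  obtain ⟨n, Y, _, _, ⟨e⟩⟩ := h
  exact inj_retract (e.toLinearMap ∘ₗ LinearMap.inl R A Y)
    (LinearMap.fst R A Y ∘ₗ e.symm.toLinearMap) (fun x => by simp)

/-- a finite coresolution by injectives gives finite injective dimension -/
lemma id_of_finite_cores (D : ℕ → Type u) [∀ j, AddCommGroup (D j)] [∀ j, Module R (D j)]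
    (ε : A →ₗ[R] D 0) (d : ∀ j : ℕ, D j →ₗ[R] D (j + 1)) (r : ℕ)
    (hD : ∀ j, Module.Injective R (D j)) (h0 : Function.Injective ε)
    (h1 : Function.Exact ε (d 0)) (h2 : ∀ j, Function.Exact (d j) (d (j + 1)))
    (h3 : ∀ j, r < j → Subsingleton (D j)) : ∃ n, ID R A n := by
  have key : ∀ m j, j + m = r + 1 → ID R (LinearMap.ker (d j)) (m + 1) := by
    intro m
    induction m with
    | zero =>
      intro j hj
      have := h3 j (by omega)
      exact (ID.of_subsingleton (A := LinearMap.ker (d j))).mono (by omega)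
    | succ m ih =>
      intro j hj
      have := hD j
      refine ID.X₁ (LinearMap.ker (d j)).subtype
        ((d j).codRestrict (LinearMap.ker (d (j + 1))) fun x => (h2 j).apply_apply_eq_zero x)
        (Submodule.injective_subtype _) ?_ ?_ (ih (j + 1) (by omega))
        (ID.of_inj.mono (by omega))
      · intro y
        rw [Subtype.ext_iff]
        constructor
        · intro hy
          exact ⟨⟨y, hy⟩, rfl⟩
        · rintro ⟨x, rfl⟩
          exact x.2
      · rintro ⟨y, hy⟩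
        obtain ⟨x, rfl⟩ := (h2 j y).1 hy
        exact ⟨x, rfl⟩
  have hb : Function.Bijective
      (ε.codRestrict (LinearMap.ker (d 0)) fun x => h1.apply_apply_eq_zero x) := by
    constructor
    · intro x y hxy
      exact h0 (congrArg Subtype.val hxy)
    · rintro ⟨y, hy⟩
      obtain ⟨x, rfl⟩ := (h1 y).1 hy
      exact ⟨x, rfl⟩
  let e := LinearEquiv.ofBijective _ hb
  exact ⟨r + 1 + 1, ID.retract e.toLinearMap e.symm.toLinearMap (fun x => by simp)
    (key (r + 1) 0 (by omega))⟩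

/-- `Hom(-, W)` is exact for injective `W` -/
lemma hom_exact {W : Type u} [AddCommGroup W] [Module R W] [Module.Injective R W]
    (f : A →ₗ[R] B) (g : B →ₗ[R] C) (h : Function.Exact f g) :
    Function.Exact (fun x : C →ₗ[R] W => x ∘ₗ g) (fun x : B →ₗ[R] W => x ∘ₗ f) := by
  intro y
  constructor
  · intro hy
    have hk : LinearMap.ker g ≤ LinearMap.ker y := by
      intro b hb
      obtain ⟨a, rfl⟩ := (h b).1 hb
      exact congr($hy a)
    obtain ⟨z, hz⟩ := Module.Injective.out (R := R) (Q := W) ((LinearMap.ker g).liftQ g le_rfl)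
      (by rw [← LinearMap.ker_eq_bot]; exact Submodule.ker_liftQ_eq_bot _ _ _ le_rfl)
      ((LinearMap.ker g).liftQ y hk)
    refine ⟨z, ?_⟩
    ext b
    exact hz (Submodule.Quotient.mk b)
  · rintro ⟨x, rfl⟩
    ext a
    simp [h.apply_apply_eq_zero a]

end

/-- A coresolution of `Γ` by projective-injective modules, cut into non-split short exact
sequences. -/
structure Tower (Γ : Type u) [Ring Γ] (C I : ℕ → Type u) [∀ n, AddCommGroup (C n)]
    [∀ n, Module Γ (C n)] [∀ n, AddCommGroup (I n)] [∀ n, Module Γ (I n)] where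
  ι : ∀ n, C n →ₗ[Γ] I n
  p : ∀ n, I n →ₗ[Γ] C (n + 1)
  inj : ∀ n, Function.Injective (ι n)
  ex : ∀ n, Function.Exact (ι n) (p n)
  surj : ∀ n, Function.Surjective (p n)
  e : Γ ≃ₗ[Γ] C 0
  proj : ∀ n, Module.Projective Γ (I n)
  injv : ∀ n, Module.Injective Γ (I n)
  fin : ∀ n, Module.Finite Γ (I n)
  nsplit : ∀ n (ρ : I n →ₗ[Γ] C n), ¬ ∀ x, ρ (ι n x) = x

namespace Tower

variable {Γ : Type u} [Ring Γ] {C I : ℕ → Type u} [∀ n, AddCommGroup (C n)]
  [∀ n, Module Γ (C n)] [∀ n, AddCommGroup (I n)] [∀ n, Module Γ (I n)] (t : Tower Γ C I)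

include t

lemma pd_lt (n : ℕ) : PD Γ (C n) (n + 1) := by
  induction n with
  | zero =>
    have := Module.Projective.of_equiv t.e
    exact PD.of_proj
  | succ n ih =>
    have := t.proj n
    exact PD.X₃ (t.ι n) (t.p n) (t.inj n) (t.ex n) (t.surj n) ih (PD.of_proj.mono (by omega))

lemma not_pd (n : ℕ) : ¬ PD Γ (C (n + 1)) (n + 1) := by
  induction n with
  | zero =>
    intro h
    have := h.proj
    obtain ⟨r, hr⟩ := exists_retraction (t.ι 0) (t.p 0) (t.inj 0) (t.ex 0) (t.surj 0)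
    exact t.nsplit 0 r hr
  | succ n ih =>
    intro h
    have := t.proj (n + 1)
    exact ih (PD.X₁ (t.ι _) (t.p _) (t.inj _) (t.ex _) (t.surj _) (PD.of_proj.mono (by omega)) h)

lemma pd_eq (n : ℕ) (hn : 1 ≤ n) : ∃ X : ModuleCat.{u} Γ, Module.Finite Γ X ∧
    projectiveDimension X = (n : WithBot ℕ∞) := by
  obtain ⟨n, rfl⟩ : ∃ m, n = m + 1 := ⟨n - 1, by omega⟩
  have := t.fin n
  refine ⟨ModuleCat.of Γ (C (n + 1)), Module.Finite.of_surjective (t.p n) (t.surj n),
    le_antisymm ?_ ?_⟩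
  · exact (projectiveDimension_le_iff _ _).2 (t.pd_lt _)
  · exact (projectiveDimension_ge_iff _ _).2 (t.not_pd _)

lemma not_id (m n : ℕ) : ¬ ID Γ (C n) (m + 1) := by
  induction m generalizing n with
  | zero =>
    intro h
    have := h.inj
    obtain ⟨r, hr⟩ := Module.Injective.out (R := Γ) (Q := C n) (t.ι n) (t.inj n) LinearMap.id
    exact t.nsplit n r hr
  | succ m ih =>
    intro h
    have := t.injv n
    exact ih (n + 1) (ID.X₃ (t.ι _) (t.p _) (t.inj _) (t.ex _) (t.surj _)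
      (ID.of_inj.mono (by omega)) h)

lemma not_id_self (n : ℕ) : ¬ ID Γ Γ n := fun h =>
  t.not_id n 0 (ID.retract t.e.symm.toLinearMap t.e.toLinearMap (fun x => by simp)
    (h.mono (by omega)))

/-- augmentation -/
def ε : Γ →ₗ[Γ] I 0 := t.ι 0 ∘ₗ t.e.toLinearMap

/-- differentials -/
def d (j : ℕ) : I j →ₗ[Γ] I (j + 1) := t.ι (j + 1) ∘ₗ t.p j

lemma ε_inj : Function.Injective t.ε := (t.inj 0).comp t.e.injective

lemma d_eq_zero (j : ℕ) (y : I j) : t.d j y = 0 ↔ y ∈ Set.range (t.ι j) := by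
  rw [← t.ex j y]
  exact map_eq_zero_iff _ (t.inj _)

lemma ex_ε : Function.Exact t.ε (t.d 0) := by
  intro y
  rw [d_eq_zero]
  constructor
  · rintro ⟨x, rfl⟩
    exact ⟨t.e.symm x, by simp [ε]⟩
  · rintro ⟨x, rfl⟩
    exact ⟨_, rfl⟩

lemma ex_d (j : ℕ) : Function.Exact (t.d j) (t.d (j + 1)) := by
  intro y
  rw [d_eq_zero]
  constructor
  · rintro ⟨x, rfl⟩
    obtain ⟨z, rfl⟩ := t.surj j x
    exact ⟨z, rfl⟩
  · rintro ⟨x, rfl⟩
    exact ⟨_, rfl⟩

lemma cores : ∃ (J : ℕ → ModuleCat.{u} Γ) (ε : Γ →ₗ[Γ] J 0) (d : ∀ j : ℕ, J j →ₗ[Γ] J (j + 1)),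
    Function.Injective ε ∧ Function.Exact ε (d 0) ∧ (∀ j, Function.Exact (d j) (d (j + 1))) ∧
      ∀ j, Module.Projective Γ (J j) ∧ Module.Injective Γ (J j) :=
  ⟨fun j => ModuleCat.of Γ (I j), t.ε, t.d, t.ε_inj, t.ex_ε, t.ex_d, fun j => ⟨t.proj j, t.injv j⟩⟩

lemma wak (W : Type u) [AddCommGroup W] [Module Γ W] [Module.Projective Γ W]
    [Module.Injective Γ W] (h : ∀ j, InAdd Γ W (I j)) :
    IsWakamatsuTilting Γ W ∧ ¬ IsTilting Γ W := by
  refine ⟨⟨?_, I, inferInstance, inferInstance, t.ε, t.d, ⟨h, t.ε_inj, t.ex_ε, t.ex_d⟩, ?_,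
    hom_exact _ _ t.ex_ε, fun j => hom_exact _ _ (t.ex_d j)⟩, ?_⟩
  · intro i hi
    exact HasProjectiveDimensionLT.subsingleton (hX := PD.of_proj) _ 1 i hi _
  · intro y
    obtain ⟨z, hz⟩ := Module.Injective.out (R := Γ) (Q := W) t.ε t.ε_inj y
    exact ⟨z, LinearMap.ext hz⟩
  · rintro ⟨-, -, D, _, _, ε, d, r, ⟨h0, h1, h2, h3⟩, h4⟩
    obtain ⟨n, hn⟩ := id_of_finite_cores D ε d r (fun j => inj_of_inAdd (h0 j)) h1 h2 h3 h4
    exact t.not_id_self n hn

lemma ext_zero (S : Type u) [AddCommGroup S] [Module Γ S] (hS : ∀ n (f : S →ₗ[Γ] I n), f = 0)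
    (i n : ℕ) (x : Abelian.Ext (ModuleCat.of Γ S) (ModuleCat.of Γ (C n)) i) : x = 0 := by
  induction i generalizing n with
  | zero =>
    obtain ⟨f, rfl⟩ := (Abelian.Ext.mk₀_bijective _ _).2 x
    rw [Abelian.Ext.mk₀_eq_zero_iff]
    ext s
    apply t.inj n
    have := congr($(hS n (t.ι n ∘ₗ f.hom)) s)
    simpa using this
  | succ i ih =>
    have hI : Injective (ModuleCat.of Γ (I n)) :=
      (Module.injective_iff_injective_object Γ _).1 (t.injv n)
    obtain ⟨y, rfl⟩ := Abelian.Ext.covariant_sequence_exact₁ (ModuleCat.of Γ S)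
      (ses (t.ι n) (t.p n) (t.inj n) (t.ex n) (t.surj n)) x
      (@Abelian.Ext.eq_zero_of_injective _ _ _ _ _ _ _ hI _) rfl
    rw [ih (n + 1) y, Abelian.Ext.zero_comp]

lemma ext_self (S : Type u) [AddCommGroup S] [Module Γ S] (hS : ∀ n (f : S →ₗ[Γ] I n), f = 0)
    (i : ℕ) : Subsingleton (Abelian.Ext (ModuleCat.of Γ S) (ModuleCat.of Γ Γ) i) := by
  refine subsingleton_of_forall_eq 0 fun x => ?_
  have h : (ModuleCat.ofHom t.e.toLinearMap ≫ ModuleCat.ofHom t.e.symm.toLinearMap) =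
      𝟙 (ModuleCat.of Γ Γ) := by
    ext; simp
  rw [← x.comp_mk₀_id, ← h, ← Abelian.Ext.mk₀_comp_mk₀,
    ← Abelian.Ext.comp_assoc_of_second_deg_zero,
    t.ext_zero S hS i 0 (x.comp (Abelian.Ext.mk₀ _) _), Abelian.Ext.zero_comp]

end Tower

end Crest.Agent.R186.CA
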