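import Crest.Agent.R186.EndB

/-! Row 186, part C: the endomorphism algebra of `A × M`. -/

set_option autoImplicit false
open CategoryTheory Crest.AlgebraR Crest.Agent.R178

namespace Crest.Agent.R186

universe u

namespace CA

variable {K A : Type u} [Field K] [Ring A] [Algebra K A] (F : Frob K A)
  {Ω : ℕ → Type u} [∀ n, AddCommGroup (Ω n)] [∀ n, Module A (Ω n)] (R : Res A Ω)

include F R in
lemma proj_down (n : ℕ) (h : Module.Projective A (Ω n)) : Module.Projective A (Ω 0) := by
  induction n with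
  | zero => exact h
  | succ n ih =>
    apply ih
    have := F.selfinj
    obtain ⟨s, hs⟩ := Module.projective_lifting_property (R.π (n + 1)) LinearMap.id (R.surj _)
    obtain ⟨s', hs'⟩ := Module.Injective.extension_property A (Fin (R.r (n + 1)) → A) _ _
      (R.j n) (R.inj n) s
    have h1 : (R.π (n + 1) ∘ₗ s') ∘ₗ R.j n = LinearMap.id := by
      rw [LinearMap.comp_assoc, hs', hs]
    have h2 := (Function.Exact.split_tfae (R.ex n) (R.inj n) (R.surj n)).out 1 0
    obtain ⟨l, hl⟩ := h2.1 ⟨_, h1⟩
    exact Module.Projective.of_split l (R.π n) hl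

variable {T : Type u} [AddCommGroup T] [Module A T]
  (i : A →ₗ[A] T) (q : T →ₗ[A] A) (hq : ∀ a, q (i a) = a)

/-- precomposition, as a map of `End T`-modules -/
def pre {X Y : Type u} [AddCommGroup X] [Module A X] [AddCommGroup Y] [Module A Y]
    (f : X →ₗ[A] Y) : (Y →ₗ[A] T) →ₗ[Module.End A T] (X →ₗ[A] T) where
  toFun h := h ∘ₗ f
  map_add' _ _ := rfl
  map_smul' _ _ := rfl

include F hq in
lemma split_of_split {X : Type u} [AddCommGroup X] [Module A X] {r : ℕ}
    (π : (Fin r → A) →ₗ[A] X)
    (ρ : ((Fin r → A) →ₗ[A] T) →ₗ[Module.End A T] (X →ₗ[A] T)) (hρ : ∀ h, ρ (pre π h) = h) :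
    Module.Projective A X := by
  let s : X →ₗ[A] (Fin r → A) := LinearMap.pi fun k => q ∘ₗ ρ (i ∘ₗ LinearMap.proj k)
  have h1 : ∀ (u : (Fin r → A) →ₗ[A] T) (y : X), ρ u y = u (s y) := by
    intro u y
    have e : u = ∑ k, θ q (u fun j => if k = j then 1 else 0) • (i ∘ₗ LinearMap.proj k) := by
      refine LinearMap.ext fun x => ?_
      rw [LinearMap.pi_apply_eq_sum_univ u x, LinearMap.sum_apply]
      refine Finset.sum_congr rfl fun k _ => ?_
      simp [hq]
    rw [LinearMap.pi_apply_eq_sum_univ u (s y)]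
    conv_lhs => rw [e]
    rw [map_sum, LinearMap.sum_apply]
    refine Finset.sum_congr rfl fun k _ => ?_
    rw [map_smul]
    rfl
  refine Module.Projective.of_split s π (LinearMap.ext fun y => ?_)
  rw [← sub_eq_zero]
  apply F.cogen
  intro h
  have := congrArg q ((h1 (pre π (i ∘ₗ h)) y).symm.trans congr($(hρ (i ∘ₗ h)) y))
  simp only [pre, LinearMap.coe_mk, AddHom.coe_mk, LinearMap.comp_apply, hq] at this
  simp [this]

/-- `Hom(A^r, T) = T^r` -/
noncomputable def homFree (r : ℕ) : (Fin r → T) ≃ₗ[Module.End A T] ((Fin r → A) →ₗ[A] T) :=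
  (Pi.basisFun A (Fin r)).constr (Module.End A T)

/-- the coresolution of `End T` -/
noncomputable def tower [Module K T] [IsScalarTower K A T] [FiniteDimensional K T]
    (e : T ≃ₗ[A] Ω 0) (hT : EV A T T) (hn : ¬ Module.Projective A T) :
    Tower (Module.End A T) (fun n => Ω n →ₗ[A] T) (fun n => (Fin (R.r n) → A) →ₗ[A] T) where
  ι n := pre (R.π n)
  p n := pre (R.j n)
  inj n := fun _ _ h => LinearMap.ext fun x => by
    obtain ⟨y, rfl⟩ := R.surj n x
    exact congr($h y)
  ex n := by
    intro u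
    constructor
    · intro hu
      have hk : LinearMap.ker (R.π n) ≤ LinearMap.ker u := by
        intro x hx
        obtain ⟨y, rfl⟩ := (R.ex n x).1 hx
        exact congr($hu y)
      refine ⟨(LinearMap.ker (R.π n)).liftQ u hk ∘ₗ
        ((R.π n).quotKerEquivOfSurjective (R.surj n)).symm.toLinearMap, LinearMap.ext fun x => ?_⟩
      simp [pre]
    · rintro ⟨h, rfl⟩
      refine LinearMap.ext fun x => ?_
      simp [pre, (R.ex n).apply_apply_eq_zero x]
  surj n := by
    have H : ∀ n, EV A (Ω n) T := by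
      intro n
      induction n with
      | zero =>
        exact EV.con₂ (0 : PUnit.{u + 1} →ₗ[A] Ω 0) e.symm.toLinearMap
          (fun _ _ _ => Subsingleton.elim _ _)
          (fun y => ⟨fun hy => ⟨0, by simpa using (e.symm.map_eq_zero_iff.1 hy).symm⟩,
            by rintro ⟨x, rfl⟩; simp⟩) e.symm.surjective EV.of_proj hT
      | succ n ih => exact EV.con₁ _ _ (R.inj n) (R.ex n) (R.surj n) EV.of_proj ih
    exact fun h => EV.extend _ _ (R.inj n) (R.ex n) (R.surj n) (H n) h
  e :=
    { toFun := fun γ => γ ∘ₗ e.symm.toLinearMap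
      map_add' := fun _ _ => rfl
      map_smul' := fun _ _ => rfl
      invFun := fun h => h ∘ₗ e.toLinearMap
      left_inv := fun γ => by ext x; simp
      right_inv := fun γ => by ext x; simp }
  proj n := by
    have := T_proj i q hq
    exact Module.Projective.of_equiv
      ((DFinsupp.linearEquivFunOnFintype (R := Module.End A T) (M := fun _ : Fin (R.r n) => T)) ≪≫ₗ
        homFree (R.r n))
  injv n := by
    have := T_inj i q hq F
    exact inj_retract (homFree (R.r n)).symm.toLinearMap (homFree (R.r n)).toLinearMap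
      (fun x => by simp)
  fin n := by
    have := T_fin i q hq
    exact Module.Finite.equiv (homFree (R.r n))
  nsplit n ρ hρ := by
    have := proj_down F R n (split_of_split F i q hq (R.π n) ρ hρ)
    exact hn (Module.Projective.of_equiv e.symm)

include F hq in
/-- a simple module with no map to any `Hom(X, T)` -/
lemma exists_simple {r : ℕ} (π : (Fin r → A) →ₗ[A] T) (hπ : Function.Surjective π)
    (hn : ¬ Module.Projective A T) :
    ∃ m : Ideal (Module.End A T), IsSimpleModule (Module.End A T) (Module.End A T ⧸ m) ∧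
      ∀ (X : Type u) [AddCommGroup X] [Module A X]
        (f : (Module.End A T ⧸ m) →ₗ[Module.End A T] (X →ₗ[A] T)), f = 0 := by
  let J : Ideal (Module.End A T) :=
    { carrier := {γ | ∃ s : T →ₗ[A] (Fin r → A), π ∘ₗ s = γ}
      add_mem' := by
        rintro _ _ ⟨s, rfl⟩ ⟨s', rfl⟩
        exact ⟨s + s', LinearMap.comp_add _ _ _⟩
      zero_mem' := ⟨0, LinearMap.comp_zero _⟩
      smul_mem' := by
        rintro δ _ ⟨s, rfl⟩
        obtain ⟨l, hl⟩ := Module.projective_lifting_property π (δ ∘ₗ π) hπ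
        exact ⟨l ∘ₗ s, by rw [← LinearMap.comp_assoc, hl]; rfl⟩ }
  have hJ : J ≠ ⊤ := by
    intro h
    obtain ⟨s, hs⟩ : (1 : Module.End A T) ∈ J := h ▸ Submodule.mem_top
    exact hn (Module.Projective.of_split s π hs)
  obtain ⟨m, hm, hJm⟩ := Ideal.exists_le_maximal J hJ
  refine ⟨m, isSimpleModule_iff_isCoatom.2 hm.1, fun X _ _ f => ?_⟩
  refine LinearMap.ext fun s => LinearMap.ext fun x => ?_
  obtain ⟨δ, rfl⟩ := Submodule.Quotient.mk_surjective m s
  apply F.cogen
  intro h
  obtain ⟨l, hl⟩ := Module.projective_lifting_property π i hπ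
  have h1 : (show Module.End A T from i ∘ₗ h) • δ ∈ m :=
    hJm ⟨l ∘ₗ h ∘ₗ δ, by rw [← LinearMap.comp_assoc, hl]; rfl⟩
  have h2 := f.map_smul (show Module.End A T from i ∘ₗ h) (Submodule.Quotient.mk δ)
  rw [← Submodule.Quotient.mk_smul, (Submodule.Quotient.mk_eq_zero m).2 h1, map_zero] at h2
  have h3 : 0 = i (h (f (Submodule.Quotient.mk δ) x)) := congr($h2 x)
  have h4 := congrArg q h3
  rw [hq, map_zero] at h4
  exact h4.symm

end CA

open CA in
theorem cStmt : CStmt.{u} := by
  rintro K _ ⟨A, _, _, _, hs, M, _, hM, hE⟩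
  obtain ⟨F⟩ := Frob.of_sym hs
  let : Module K M := Module.compHom M (algebraMap K A)
  have : IsScalarTower K A M := IsScalarTower.of_compHom K A M
  have : FiniteDimensional K M := Module.Finite.trans A M
  have : IsNoetherianRing A := isNoetherian_of_tower K inferInstance
  have := F.selfinj
  have hMM : EV A M M := fun i x => @Subsingleton.elim _ (hE (i + 1) (by omega)) _ _
  have hT : EV A (A × M) (A × M) :=
    EV.con₂ _ _ LinearMap.inl_injective Function.Exact.inl_snd LinearMap.snd_surjective EV.of_proj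
      (EV.co₂ _ _ LinearMap.inl_injective Function.Exact.inl_snd LinearMap.snd_surjective
        EV.of_inj hMM)
  have hn : ¬ Module.Projective A (A × M) := fun h =>
    hM (Module.Projective.of_split (LinearMap.inr A A M) (LinearMap.snd A A M) rfl)
  obtain ⟨Ω, ⟨R⟩, ⟨e⟩⟩ := exists_res (A := A) (A × M)
  have hq : ∀ a, LinearMap.fst A A M (LinearMap.inl A A M a) = a := fun _ => rfl
  let t := tower F R _ _ hq e hT hn
  have hfd : FiniteDimensional K (Module.End A (A × M)) :=
    Module.Finite.of_injective (LinearMap.restrictScalarsₗ K A (A × M) (A × M) K)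
      (LinearMap.restrictScalars_injective K)
  refine ⟨⟨Module.End A (A × M), inferInstance, inferInstance, hfd, ?_⟩,
    ⟨Module.End A (A × M), inferInstance, inferInstance, hfd, t.pd_eq⟩,
    ⟨Module.End A (A × M), inferInstance, inferInstance, hfd, t.cores, t.not_id_self⟩,
    ⟨Module.End A (A × M), inferInstance, inferInstance, hfd, A × M, inferInstance, inferInstance,
      T_fin _ _ hq, T_proj _ _ hq, T_inj _ _ hq F, ?_⟩⟩
  · obtain ⟨m, hm, hf⟩ := exists_simple F _ _ hq (e.symm.toLinearMap ∘ₗ R.π 0)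
      (e.symm.surjective.comp (R.surj 0)) hn
    exact ⟨ModuleCat.of _ (Module.End A (A × M) ⧸ m), hm, t.ext_self _ fun n f => hf _ f⟩
  · have := T_proj _ _ hq
    have := T_inj _ _ hq F
    exact t.wak _ fun j => ⟨R.r j, PUnit, inferInstance, inferInstance,
      ⟨LinearEquiv.prodUnique ≪≫ₗ (homFree _).symm⟩⟩

end Crest.Agent.R186
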