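import Crest.Agent.R186.EndA

/-! Row 186, part C: Frobenius duality, the generator-cogenerator `T` over its endomorphism ring,
free resolutions. -/

set_option autoImplicit false
open CategoryTheory Crest.AlgebraR Crest.Agent.R178

namespace Crest.Agent.R186.CA

universe u

/-- a Frobenius form -/
structure Frob (K A : Type u) [Field K] [Ring A] [Algebra K A] where
  lam : A →ₗ[K] K
  sep : ∀ x, (∀ a, lam (a * x) = 0) → x = 0
  sur : ∀ ξ : A →ₗ[K] K, ∃ x, ∀ a, lam (a * x) = ξ a

variable {K A : Type u} [Field K] [Ring A] [Algebra K A]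

lemma Frob.of_sym (h : IsSymmetricAlgebra K A) : Nonempty (Frob K A) := by
  obtain ⟨φ, hφ⟩ := h
  have h1 : ∀ x y, φ x y = φ 1 (y * x) := fun x y => by simpa using hφ x 1 1 y
  refine ⟨⟨φ 1, fun x hx => ?_, fun ξ => ⟨φ.symm ξ, fun a => ?_⟩⟩⟩
  · apply φ.injective
    ext y
    simp [h1 x y, hx y]
  · rw [← h1]; simp

namespace Frob

variable (F : Frob K A)

lemma uniq {X : Type*} [AddCommGroup X] [Module A X] (h h' : X →ₗ[A] A)
    (H : ∀ x, F.lam (h x) = F.lam (h' x)) : h = h' := by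
  ext x
  rw [← sub_eq_zero]
  apply F.sep
  intro a
  have := H (a • x)
  simp only [map_smul, smul_eq_mul] at this
  rw [mul_sub, map_sub, this, sub_self]

lemma ex {X : Type*} [AddCommGroup X] [Module A X] [Module K X] [IsScalarTower K A X]
    (ξ : X →ₗ[K] K) : ∃ h : X →ₗ[A] A, ∀ x, F.lam (h x) = ξ x := by
  have H : ∀ x : X, ∃ y : A, ∀ a, F.lam (a * y) = ξ (a • x) := fun x =>
    F.sur (ξ ∘ₗ (LinearMap.toSpanSingleton A X x).restrictScalars K)
  choose h hh using H
  refine ⟨⟨⟨h, fun x y => ?_⟩, fun b x => ?_⟩, fun x => by simpa using hh x 1⟩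
  · rw [← sub_eq_zero]
    apply F.sep
    intro a
    simp [mul_sub, mul_add, hh]
  · rw [← sub_eq_zero]
    apply F.sep
    intro a
    simp [mul_sub, hh, ← mul_assoc, mul_smul]

include F in
/-- `A` is a cogenerator -/
lemma cogen {X : Type*} [AddCommGroup X] [Module A X] (x : X) (H : ∀ h : X →ₗ[A] A, h x = 0) :
    x = 0 := by
  let : Module K X := Module.compHom X (algebraMap K A)
  have : IsScalarTower K A X := IsScalarTower.of_compHom K A X
  rw [← Module.forall_dual_apply_eq_zero_iff K]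
  intro ξ
  obtain ⟨h, hh⟩ := F.ex ξ
  rw [← hh, H, map_zero]

include F in
lemma selfinj : Module.Injective A A := by
  apply Module.Baer.injective
  intro I g
  obtain ⟨ξ, hξ⟩ := LinearMap.exists_extend (p := I.restrictScalars K)
    (F.lam ∘ₗ g.restrictScalars K)
  obtain ⟨h, hh⟩ := F.ex ξ
  have : h ∘ₗ I.subtype = g := F.uniq _ _ fun x => by
    rw [LinearMap.comp_apply, hh]
    exact congr($hξ x)
  exact ⟨h, fun x hx => congr($this ⟨x, hx⟩)⟩

end Frob

section T

variable {T : Type u} [AddCommGroup T] [Module A T]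
  (i : A →ₗ[A] T) (q : T →ₗ[A] A) (hq : ∀ a, q (i a) = a)

/-- the endomorphism `x ↦ q x • t` -/
def θ : T →ₗ[Module.End A T] Module.End A T where
  toFun t := LinearMap.toSpanSingleton A T t ∘ₗ q
  map_add' s t := by ext x; simp
  map_smul' γ t := by ext x; simp

@[simp] lemma θ_apply (t x : T) : θ q t x = q x • t := rfl

/-- evaluation at a point -/
def ev (t : T) : Module.End A T →ₗ[Module.End A T] T where
  toFun γ := γ t
  map_add' _ _ := rfl
  map_smul' _ _ := rfl

include hq in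
lemma ev_θ (t : T) : ev (i 1) (θ q t) = t := by
  simp [ev, hq]

include hq in
lemma T_proj : Module.Projective (Module.End A T) T :=
  Module.Projective.of_split (θ q) (ev (i 1)) (LinearMap.ext (ev_θ i q hq))

include hq in
lemma T_fin : Module.Finite (Module.End A T) T :=
  Module.Finite.of_surjective (ev (i 1)) fun t => ⟨θ q t, ev_θ i q hq t⟩

include hq in
lemma T_inj [Module K T] [IsScalarTower K A T] [FiniteDimensional K T] (F : Frob K A) :
    Module.Injective (Module.End A T) T := by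
  apply Module.Baer.injective
  intro I g
  let g0 : I.restrictScalars K →ₗ[K] K :=
    { toFun := fun x => F.lam (q (g x))
      map_add' := fun x y => by
        rw [← map_add, ← map_add, ← map_add]; rfl
      map_smul' := fun c x => by
        have : g (c • x) = c • g x := by
          have h := g.map_smul (algebraMap K (Module.End A T) c) x
          rw [algebraMap_smul, algebraMap_smul] at h
          exact h
        rw [this, LinearMap.map_smul_of_tower, map_smul]; rfl }
  obtain ⟨ξ, hξ⟩ := LinearMap.exists_extend (p := I.restrictScalars K) g0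
  have hξ' : ∀ x : I, ξ x = F.lam (q (g x)) := fun x => congr($hξ x)
  choose h hh using fun ψ : Module.Dual K T => F.ex (A := A) ψ
  let Ξ : Module.Dual K (Module.Dual K T) :=
    { toFun := fun ψ => ξ (i ∘ₗ h ψ)
      map_add' := fun ψ ψ' => by
        have : h (ψ + ψ') = h ψ + h ψ' := F.uniq _ _ fun x => by simp [hh]
        rw [this, LinearMap.comp_add, map_add]
      map_smul' := fun c ψ => by
        have : h (c • ψ) = c • h ψ := F.uniq _ _ fun x => by simp [hh]
        rw [this, LinearMap.comp_smul, map_smul]; rfl }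
  obtain ⟨t, ht⟩ := (Module.evalEquiv K T).surjective Ξ
  have ht' : ∀ ψ : Module.Dual K T, ψ t = ξ (i ∘ₗ h ψ) := fun ψ => congr($ht ψ)
  refine ⟨ev t, fun x hx => ?_⟩
  rw [← sub_eq_zero, ← Module.forall_dual_apply_eq_zero_iff K]
  intro ψ
  have e1 : h (ψ ∘ₗ x.restrictScalars K) = h ψ ∘ₗ x := F.uniq _ _ fun y => by simp [hh]
  have e2 := ht' (ψ ∘ₗ x.restrictScalars K)
  rw [e1] at e2
  have e3 := hξ' ((show Module.End A T from i ∘ₗ h ψ) • ⟨x, hx⟩)
  rw [map_smul] at e3
  have e4 : ξ (i ∘ₗ h ψ ∘ₗ x) = F.lam (q (i (h ψ (g ⟨x, hx⟩)))) := e3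
  rw [map_sub, sub_eq_zero]
  rw [e4, hq, hh] at e2
  exact e2

end T

/-- a free resolution cut into short exact sequences -/
structure Res (A : Type u) [Ring A] (Ω : ℕ → Type u) [∀ n, AddCommGroup (Ω n)]
    [∀ n, Module A (Ω n)] where
  r : ℕ → ℕ
  π : ∀ n, (Fin (r n) → A) →ₗ[A] Ω n
  j : ∀ n, Ω (n + 1) →ₗ[A] (Fin (r n) → A)
  inj : ∀ n, Function.Injective (j n)
  ex : ∀ n, Function.Exact (j n) (π n)
  surj : ∀ n, Function.Surjective (π n)

lemma exists_res [IsNoetherianRing A] (T : Type u) [AddCommGroup T] [Module A T]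
    [Module.Finite A T] :
    ∃ Ω : ℕ → ModuleCat.{u} A, Nonempty (Res A fun n => Ω n) ∧ Nonempty (T ≃ₗ[A] Ω 0) := by
  have H : ∀ X : {X : ModuleCat.{u} A // Module.Finite A X},
      ∃ (n : ℕ) (f : (Fin n → A) →ₗ[A] X.1), Function.Surjective f := fun X =>
    @Module.Finite.exists_fin' A X.1 _ _ _ X.2
  choose r π hπ using H
  let nx : {X : ModuleCat.{u} A // Module.Finite A X} →
      {X : ModuleCat.{u} A // Module.Finite A X} := fun X =>
    ⟨ModuleCat.of A (LinearMap.ker (π X)), (inferInstance : Module.Finite A (LinearMap.ker (π X)))⟩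
  let Ω : ℕ → {X : ModuleCat.{u} A // Module.Finite A X} := fun n =>
    Nat.rec ⟨ModuleCat.of A T, (inferInstance : Module.Finite A T)⟩ (fun _ X => nx X) n
  exact ⟨fun n => (Ω n).1, ⟨⟨fun n => r (Ω n), fun n => π (Ω n),
    fun n => (LinearMap.ker (π (Ω n))).subtype, fun n => Submodule.injective_subtype _,
    fun n => LinearMap.exact_subtype_ker_map _, fun n => hπ _⟩⟩, ⟨LinearEquiv.refl A T⟩⟩

/-- vanishing of the higher Ext groups -/
def EV (A X Y : Type u) [Ring A] [AddCommGroup X] [Module A X] [AddCommGroup Y] [Module A Y] :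
    Prop :=
  ∀ (i : ℕ) (x : Abelian.Ext (ModuleCat.of A X) (ModuleCat.of A Y) (i + 1)), x = 0

section EV

variable {X Y Z W : Type u} [AddCommGroup X] [Module A X] [AddCommGroup Y] [Module A Y]
  [AddCommGroup Z] [Module A Z] [AddCommGroup W] [Module A W]

lemma EV.of_proj [Module.Projective A X] : EV A X Y := fun _ x =>
  @Abelian.Ext.eq_zero_of_projective _ _ _ _ _ _ _ ((IsProjective.iff_projective X).1 ‹_›) x

lemma EV.of_inj [Module.Injective A Y] : EV A X Y := fun _ x =>
  @Abelian.Ext.eq_zero_of_injective _ _ _ _ _ _ _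
    ((Module.injective_iff_injective_object A Y).1 ‹_›) x

variable (f : X →ₗ[A] Y) (g : Y →ₗ[A] Z) (hf : Function.Injective f) (hfg : Function.Exact f g)
  (hg : Function.Surjective g)
include hf hfg hg

lemma EV.co₂ (h1 : EV A W X) (h3 : EV A W Z) : EV A W Y := by
  intro n x
  obtain ⟨y, rfl⟩ := Abelian.Ext.covariant_sequence_exact₂ _ (ses f g hf hfg hg) x (h3 _ _)
  rw [h1 _ y, Abelian.Ext.zero_comp]

lemma EV.con₂ (h1 : EV A X W) (h3 : EV A Z W) : EV A Y W := by
  intro n x
  obtain ⟨y, rfl⟩ := Abelian.Ext.contravariant_sequence_exact₂ (ses f g hf hfg hg) _ x (h1 _ _)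
  rw [h3 _ y, Abelian.Ext.comp_zero]

lemma EV.con₁ (h2 : EV A Y W) (h3 : EV A Z W) : EV A X W := by
  intro n x
  obtain ⟨y, rfl⟩ := Abelian.Ext.contravariant_sequence_exact₁ (ses f g hf hfg hg) _ x
    (n₁ := n + 1 + 1) (by omega) (h3 _ _)
  rw [h2 _ y, Abelian.Ext.comp_zero]

lemma EV.extend (h3 : EV A Z W) (h : X →ₗ[A] W) : ∃ h' : Y →ₗ[A] W, h' ∘ₗ f = h := by
  obtain ⟨y, hy⟩ := Abelian.Ext.contravariant_sequence_exact₁ (ses f g hf hfg hg) _
    (Abelian.Ext.mk₀ (ModuleCat.ofHom h)) (n₁ := 0 + 1) (by omega) (h3 _ _)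
  obtain ⟨y, rfl⟩ := (Abelian.Ext.mk₀_bijective _ _).2 y
  rw [Abelian.Ext.mk₀_comp_mk₀] at hy
  have := (Abelian.Ext.mk₀_bijective _ _).1 hy
  exact ⟨y.hom, congr(($this).hom)⟩

end EV

end Crest.Agent.R186.CA
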