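import Crest.Agent.R186.Defs1

/-! Row 186, task L1: construction of the natural extension. -/

set_option autoImplicit false
open CategoryTheory Abelian
open scoped TensorProduct ModuleCat

namespace Crest.Agent.R186

open Crest.Agent.R178

universe u

namespace L1

variable {k : Type u} [Field k] {Γ : Type u} [Ring Γ] [Algebra k Γ]

local notation "ι" U => ModuleCat.Hom.hom (NatTrans.app (ιI k Γ) U)
local notation "ρ" U => ModuleCat.Hom.hom (NatTrans.app (ρI k Γ) U)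

lemma ι_nat {U V : ModuleCat.{u} Γ} (f : U ⟶ V) (x : U) :
    (ι V) (f.hom x) = ((IF k Γ).map f).hom ((ι U) x) := congr(($((ιI k Γ).naturality f)).hom x)

lemma ρ_nat {U V : ModuleCat.{u} Γ} (f : U ⟶ V) (x : (IF k Γ).obj U) :
    (ρ V) (((IF k Γ).map f).hom x) = ((Sg k Γ).map f).hom ((ρ U) x) := rfl

lemma ρι {U : ModuleCat.{u} Γ} (x : U) : (ρ U) ((ι U) x) = 0 :=
  (ιρ_exact k Γ U).apply_apply_eq_zero x

/-! ### the section and the lifts -/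

/-- evaluation at `1` -/
noncomputable def ev1 (V : ModuleCat.{u} Γ) : (IF k Γ).obj V →ₗ[k] V where
  toFun h := CoI.lin h 1
  map_add' _ _ := rfl
  map_smul' c h := by
    change CoI.lin h (1 * algebraMap k Γ c) = c • CoI.lin h 1
    rw [one_mul, Algebra.algebraMap_eq_smul_one, map_smul]

lemma ev1_ι {V : ModuleCat.{u} Γ} (x : V) : ev1 (k := k) V ((ι V) x) = x := one_smul Γ x

/-- the `k`-linear natural section of `ρ` -/
noncomputable def sec (V : ModuleCat.{u} Γ) : (Sg k Γ).obj V →ₗ[k] (IF k Γ).obj V :=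
  let s : (IF k Γ).obj V →ₗ[k] (IF k Γ).obj V :=
    LinearMap.id - (ι V).restrictScalars k ∘ₗ ev1 V
  { toFun := fun z => Quotient.liftOn' z s fun a b h => by
      obtain ⟨x, hx⟩ := (Submodule.quotientRel_def _).1 h
      rw [← sub_eq_zero, ← map_sub, ← hx]
      change (ι V) x - (ι V) (ev1 V ((ι V) x)) = 0
      rw [ev1_ι, sub_self]
    map_add' := fun a b => by
      obtain ⟨a, rfl⟩ := ρI_surj k Γ V a
      obtain ⟨b, rfl⟩ := ρI_surj k Γ V b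
      exact s.map_add a b
    map_smul' := fun c a => by
      obtain ⟨a, rfl⟩ := ρI_surj k Γ V a
      exact s.map_smul c a }

lemma sec_ρ {V : ModuleCat.{u} Γ} (h : (IF k Γ).obj V) :
    sec V ((ρ V) h) = h - (ι V) (ev1 V h) := rfl

lemma ρ_sec {V : ModuleCat.{u} Γ} (z : (Sg k Γ).obj V) : (ρ V) (sec V z) = z := by
  obtain ⟨h, rfl⟩ := ρI_surj k Γ V z
  rw [sec_ρ, map_sub, ρι, sub_zero]

lemma sec_nat {U V : ModuleCat.{u} Γ} (f : U ⟶ V) (z : (Sg k Γ).obj U) :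
    sec V (((Sg k Γ).map f).hom z) = ((IF k Γ).map f).hom (sec U z) := by
  obtain ⟨h, rfl⟩ := ρI_surj k Γ U z
  rw [← ρ_nat, sec_ρ, sec_ρ, map_sub, ← ι_nat]
  rfl

variable {X X' V V' : ModuleCat.{u} Γ}

/-- the lift `Γ ⊗ X → I V` -/
noncomputable def ft (φ : X ⟶ (Sg k Γ).obj V) : Γ ⊗[k] X →ₗ[Γ] (IF k Γ).obj V :=
  barMap k ((IF k Γ).obj V) ∘ₗ
    TensorProduct.AlgebraTensorModule.map LinearMap.id (sec V ∘ₗ φ.hom.restrictScalars k)

lemma ft_tmul (φ : X ⟶ (Sg k Γ).obj V) (g : Γ) (x : X) :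
    ft φ (g ⊗ₜ x) = g • sec V (φ.hom x) := rfl

lemma ρ_ft (φ : X ⟶ (Sg k Γ).obj V) (t : Γ ⊗[k] X) : (ρ V) (ft φ t) = φ.hom (barMap k X t) := by
  induction t with
  | zero => simp
  | tmul g x => rw [ft_tmul, map_smul, ρ_sec, barMap_tmul, map_smul]
  | add a b ha hb => simp only [map_add, ha, hb]

lemma ft_nat (φ : X ⟶ (Sg k Γ).obj V) (φ' : X' ⟶ (Sg k Γ).obj V') (a : X ⟶ X') (b : V ⟶ V')
    (h : a ≫ φ' = φ ≫ (Sg k Γ).map b) (t : Γ ⊗[k] X) :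
    ft φ' (barF k a t) = ((IF k Γ).map b).hom (ft φ t) := by
  induction t with
  | zero => simp
  | tmul g x =>
    have e : φ'.hom (a.hom x) = ((Sg k Γ).map b).hom (φ.hom x) := congr(($h).hom x)
    rw [barF_tmul, ft_tmul, ft_tmul, map_smul, e, sec_nat]
  | add a b ha hb => simp only [map_add, ha, hb]

lemma ι_ev1_ft (φ : X ⟶ (Sg k Γ).obj V) (t : Γ ⊗[k] X) (ht : barMap k X t = 0) :
    (ι V) (ev1 V (ft φ t)) = ft φ t := by
  obtain ⟨y, hy⟩ := (ιρ_exact k Γ V (ft φ t)).1 (by rw [ρ_ft, ht, map_zero])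
  rw [← hy, ev1_ι]

/-- the induced map `Ω X → V` -/
noncomputable def Phi0 (φ : X ⟶ (Sg k Γ).obj V) : Om k X ⟶ V :=
  ModuleCat.ofHom (X := LinearMap.ker (barMap k X))
    { toFun := fun t => ev1 V (ft φ t.1)
      map_add' := fun a b => by rw [Submodule.coe_add, map_add, map_add]
      map_smul' := fun g t => ιI_inj k Γ V (by
        rw [ι_ev1_ft φ _ (g • t).2, RingHom.id_apply]
        refine Eq.trans ?_ (map_smul (ι V) g _).symm
        rw [ι_ev1_ft φ _ t.2]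
        exact map_smul (ft φ) g t.1) }

lemma ι_Phi0 (φ : X ⟶ (Sg k Γ).obj V) (t : LinearMap.ker (barMap k X)) :
    (ι V) ((Phi0 φ).hom t) = ft φ t.1 := ι_ev1_ft φ _ t.2

lemma Phi0_nat (φ : X ⟶ (Sg k Γ).obj V) (φ' : X' ⟶ (Sg k Γ).obj V') (a : X ⟶ X') (b : V ⟶ V')
    (h : a ≫ φ' = φ ≫ (Sg k Γ).map b) : (OmF k Γ).map a ≫ Phi0 φ' = Phi0 φ ≫ b := by
  ext1; ext1 t
  apply ιI_inj k Γ V'
  refine (ι_Phi0 φ' _).trans (Eq.trans ?_ (ι_nat b _).symm)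
  exact (ft_nat φ φ' a b h t.1).trans (congrArg _ (ι_Phi0 φ t).symm)

/-- the natural version -/
noncomputable def Phi {F G : ModuleCat.{u} Γ ⥤ ModuleCat.{u} Γ} (f : F ⟶ G ⋙ Sg k Γ) :
    F ⋙ OmF k Γ ⟶ G where
  app U := Phi0 (V := G.obj U) (f.app U)
  naturality _ _ a := Phi0_nat _ _ _ _ (f.naturality a)

/-- the pullback -/
noncomputable def Pb (φ : X ⟶ (Sg k Γ).obj V) : Submodule Γ ((IF k Γ).obj V × X) :=
  LinearMap.eqLocus ((ρ V) ∘ₗ LinearMap.fst Γ _ _) (φ.hom ∘ₗ LinearMap.snd Γ _ _)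

lemma mem_Pb {φ : X ⟶ (Sg k Γ).obj V} {z : (IF k Γ).obj V × X} :
    z ∈ Pb φ ↔ (ρ V) z.1 = φ.hom z.2 := Iff.rfl

/-- `V → Pb` -/
noncomputable def pj (φ : X ⟶ (Sg k Γ).obj V) : V →ₗ[Γ] Pb φ :=
  LinearMap.codRestrict _ (LinearMap.inl Γ _ _ ∘ₗ (ι V)) fun x =>
    mem_Pb.2 ((ρι x).trans (map_zero _).symm)

/-- `Pb → X` -/
noncomputable def pp (φ : X ⟶ (Sg k Γ).obj V) : Pb φ →ₗ[Γ] X :=
  LinearMap.snd Γ _ _ ∘ₗ (Pb φ).subtype

lemma pj_inj (φ : X ⟶ (Sg k Γ).obj V) : Function.Injective (pj φ) := fun _ _ h =>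
  ιI_inj k Γ V congr(($h).1.1)

lemma pjp (φ : X ⟶ (Sg k Γ).obj V) : Function.Exact (pj φ) (pp φ) := fun z => by
  constructor
  · intro hz
    have h0 : z.1.2 = 0 := hz
    obtain ⟨y, hy⟩ := (ιρ_exact k Γ V z.1.1).1 (by rw [mem_Pb.1 z.2, h0, map_zero])
    exact ⟨y, Subtype.ext (Prod.ext hy h0.symm)⟩
  · rintro ⟨y, rfl⟩; rfl

lemma pp_surj (φ : X ⟶ (Sg k Γ).obj V) : Function.Surjective (pp φ) := fun x =>
  ⟨⟨(sec V (φ.hom x), x), mem_Pb.2 (ρ_sec _)⟩, rfl⟩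

lemma ses_Pb (φ : X ⟶ (Sg k Γ).obj ((Sg k Γ).obj V)) :
    SES (ModuleCat.of Γ (Pb (Phi0 φ))) (ModuleCat.of Γ ((IF k Γ).obj V × (Γ ⊗[k] X)))
      (ModuleCat.of Γ (Pb φ)) := by
  refine SES.mk'
    (LinearMap.prodMap LinearMap.id (LinearMap.ker (barMap k X)).subtype ∘ₗ (Pb (Phi0 φ)).subtype)
    (LinearMap.codRestrict _ (LinearMap.prod
      (ft φ ∘ₗ LinearMap.snd Γ _ _ - (ι ((Sg k Γ).obj V)) ∘ₗ (ρ V) ∘ₗ LinearMap.fst Γ _ _)
      (barMap k X ∘ₗ LinearMap.snd Γ _ _)) fun z => mem_Pb.2 ?_) ?_ ?_ ?_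
  · change (ρ ((Sg k Γ).obj V)) (ft φ z.2 - (ι ((Sg k Γ).obj V)) ((ρ V) z.1)) = φ.hom (barMap k X z.2)
    rw [map_sub, ρι, sub_zero, ρ_ft]
  · intro a b h
    exact Subtype.ext (Prod.ext congr(($h).1) (Subtype.ext congr(($h).2)))
  · intro z
    constructor
    · intro hz
      have h1 : ft φ z.2 - (ι ((Sg k Γ).obj V)) ((ρ V) z.1) = 0 := congr(($hz).1.1)
      have h2 : barMap k X z.2 = 0 := congr(($hz).1.2)
      refine ⟨⟨(z.1, ⟨z.2, h2⟩), mem_Pb.2 (ιI_inj k Γ _ ?_)⟩, rfl⟩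
      exact (sub_eq_zero.1 h1).symm.trans (ι_Phi0 φ ⟨z.2, h2⟩).symm
    · rintro ⟨y, rfl⟩
      refine Subtype.ext (Prod.ext ?_ y.1.2.2)
      change ft φ y.1.2.1 - (ι ((Sg k Γ).obj V)) ((ρ V) y.1.1) = 0
      rw [mem_Pb.1 y.2]
      exact sub_eq_zero.2 (ι_Phi0 φ y.1.2).symm
  · intro z
    obtain ⟨y, hy⟩ := (ιρ_exact k Γ _ (ft φ (1 ⊗ₜ z.1.2) - z.1.1)).1 (by
      rw [map_sub, ρ_ft, barMap_tmul, one_smul, mem_Pb.1 z.2, sub_self])
    obtain ⟨h', rfl⟩ := ρI_surj k Γ V y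
    refine ⟨(h', 1 ⊗ₜ z.1.2), Subtype.ext (Prod.ext ?_ (one_smul Γ z.1.2))⟩
    change ft φ (1 ⊗ₜ z.1.2) - (ι ((Sg k Γ).obj V)) ((ρ V) h') = z.1.1
    rw [hy, sub_sub_cancel]

/-- the pullback functor -/
noncomputable def PbF {F : ModuleCat.{u} Γ ⥤ ModuleCat.{u} Γ} (f : F ⟶ Sg k Γ) :
    ModuleCat.{u} Γ ⥤ ModuleCat.{u} Γ where
  obj U := ModuleCat.of Γ (Pb (f.app U))
  map {U V} a := ModuleCat.ofHom ((LinearMap.prodMap ((IF k Γ).map a).hom (F.map a).hom).restrict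
    (p := Pb (f.app U)) (q := Pb (f.app V)) fun z hz => mem_Pb.2 (by
      refine (ρ_nat a z.1).trans ?_
      rw [mem_Pb.1 hz]
      exact congr(($(f.naturality a)).hom z.2).symm))
  map_id U := by
    ext1; ext1 z
    exact Subtype.ext (Prod.ext congr(($((IF k Γ).map_id U)).hom z.1.1)
      congr(($(F.map_id U)).hom z.1.2))
  map_comp a b := by
    ext1; ext1 z
    exact Subtype.ext (Prod.ext congr(($((IF k Γ).map_comp a b)).hom z.1.1)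
      congr(($(F.map_comp a b)).hom z.1.2))

instance {F : ModuleCat.{u} Γ ⥤ ModuleCat.{u} Γ} [F.Additive] (f : F ⟶ Sg k Γ) :
    (PbF f).Additive where
  map_add {U V a b} := by
    ext1; ext1 z
    exact Subtype.ext (Prod.ext congr(($((IF k Γ).map_add (f := a) (g := b))).hom z.1.1)
      congr(($(F.map_add (f := a) (g := b))).hom z.1.2))

instance {F : ModuleCat.{u} Γ ⥤ ModuleCat.{u} Γ} [F.Additive] [F.Linear k] (f : F ⟶ Sg k Γ) :
    (PbF f).Linear k where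
  map_smul {U V} a c := by
    ext1; ext1 z
    exact Subtype.ext (Prod.ext congr(($((IF k Γ).map_smul c a)).hom z.1.1)
      congr(($(F.map_smul c a)).hom z.1.2))

/-! ### the evaluation map -/

/-- evaluation as a bilinear map -/
noncomputable def evB (h : (IF k Γ).obj ((NF k Γ).obj V)) : Γ →ₗ[k] (Γ →ₗ[k] k) →ₗ[k] V :=
  LinearMap.mk₂ k (fun x ψ => Nu.lin (CoI.lin h x) (CoI.mk ψ))
    (fun x y ψ => by rw [map_add]; rfl)
    (fun c x ψ => by rw [map_smul]; exact Nu.algebraMap_smul_apply c _ _)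
    (fun x ψ ψ' => map_add (Nu.lin (CoI.lin h x)) (CoI.mk ψ) (CoI.mk ψ'))
    (fun c x ψ => by
      have : CoI.mk (c • ψ) = algebraMap k Γ c • CoI.mk ψ :=
        CoI.ext fun y => congr($((CoI.lin_smul c (CoI.mk ψ)).symm) y)
      rw [this, map_smul]; rfl)

lemma evB_apply (h : (IF k Γ).obj ((NF k Γ).obj V)) (x : Γ) (ψ : Γ →ₗ[k] k) :
    evB h x ψ = Nu.lin (CoI.lin h x) (CoI.mk ψ) := rfl

variable [Module.Finite k Γ]

lemma sum_swap {W : Type u} [AddCommGroup W] [Module k W] (B : Γ →ₗ[k] (Γ →ₗ[k] k) →ₗ[k] W)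
    (T : Γ →ₗ[k] Γ) : ∑ i, B (T (Module.finBasis k Γ i)) ((Module.finBasis k Γ).coord i) =
      ∑ i, B (Module.finBasis k Γ i) ((Module.finBasis k Γ).coord i ∘ₗ T) := by
  set v := Module.finBasis k Γ
  have h1 : ∀ i, B (T (v i)) (v.coord i) = ∑ j, v.repr (T (v i)) j • B (v j) (v.coord i) := by
    intro i
    conv_lhs => rw [← v.sum_repr (T (v i)), map_sum, LinearMap.sum_apply]
    simp only [map_smul, LinearMap.smul_apply]
  have h2 : ∀ j, B (v j) (v.coord j ∘ₗ T) = ∑ i, v.repr (T (v i)) j • B (v j) (v.coord i) := by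
    intro j
    conv_lhs => rw [← v.sum_dual_apply_smul_coord (v.coord j ∘ₗ T)]
    simp [map_sum]
  simp only [h1, h2]
  exact Finset.sum_comm

/-- `I (ν⁻ V) → V` -/
noncomputable def bV (V : ModuleCat.{u} Γ) : (IF k Γ).obj ((NF k Γ).obj V) →ₗ[Γ] V where
  toFun h := ∑ i, evB h (Module.finBasis k Γ i) ((Module.finBasis k Γ).coord i)
  map_add' a b := Finset.sum_add_distrib
  map_smul' g h := by
    refine (sum_swap (evB h) (LinearMap.mulRight k g)).trans ?_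
    rw [RingHom.id_apply, Finset.smul_sum]
    exact Finset.sum_congr rfl fun i _ => map_smul (Nu.lin (CoI.lin h _)) g (CoI.mk _)

lemma bV_apply (h : (IF k Γ).obj ((NF k Γ).obj V)) :
    bV V h = ∑ i, evB h (Module.finBasis k Γ i) ((Module.finBasis k Γ).coord i) := rfl

lemma bV_ι (tr : ∀ x : Γ, LinearMap.trace k Γ (LinearMap.mulRight k x) = 0)
    (g : (NF k Γ).obj V) : bV V ((ι ((NF k Γ).obj V)) g) = 0 := by
  set v := Module.finBasis k Γ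
  have h : ∑ i, rD k Γ (v i) (CoI.mk (v.coord i)) = 0 := CoI.ext fun x => by
    rw [CoI.lin_sum, LinearMap.sum_apply, CoI.lin_zero, LinearMap.zero_apply, ← tr x,
      LinearMap.trace_eq_matrix_trace k v, Matrix.trace]
    exact Finset.sum_congr rfl fun i _ => by simp [LinearMap.toMatrix_apply]
  have := congrArg (Nu.lin g) h
  rw [map_sum, map_zero] at this
  exact this

lemma bV_hmap (g : Nu k Γ V) (ψ : CoI k Γ k) :
    bV V (hmap k Γ ((NF k Γ).obj V) g ψ) = g.lin ψ := by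
  set v := Module.finBasis k Γ
  have h : ∑ i, algebraMap k Γ (ψ.lin (v i)) • CoI.mk (v.coord i) = ψ := CoI.ext fun x => by
    rw [CoI.lin_sum]
    conv_rhs => rw [← v.sum_dual_apply_smul_coord ψ.lin]
    rw [LinearMap.sum_apply, LinearMap.sum_apply]
    exact Finset.sum_congr rfl fun i _ => congr($(CoI.lin_smul (ψ.lin (v i)) (CoI.mk _)) x)
  conv_rhs => rw [← h, map_sum]
  rw [bV_apply]
  refine Finset.sum_congr rfl fun i _ => ?_
  rw [map_smul]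
  exact Nu.algebraMap_smul_apply _ g _

/-- the evaluation `Σ ν⁻ V → V` -/
noncomputable def eb (tr : ∀ x : Γ, LinearMap.trace k Γ (LinearMap.mulRight k x) = 0) :
    NF k Γ ⋙ Sg k Γ ⟶ 𝟭 (ModuleCat.{u} Γ) where
  app V := ModuleCat.ofHom (Y := V) (Submodule.liftQ _ (bV V) (by
    rintro _ ⟨g, rfl⟩
    exact bV_ι tr g))
  naturality U V f := by
    ext1; refine Submodule.linearMap_qext _ ?_; ext1 h
    change bV V (((IF k Γ).map ((NF k Γ).map f)).hom h) = f.hom (bV U h)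
    rw [bV_apply, bV_apply, map_sum]
    rfl

omit [Module.Finite k Γ] in
lemma xv_Sg {S A : ModuleCat.{u} Γ} {n : ℤ} (hn : 1 ≤ n) (h : XV S A (n + 1)) :
    XV S ((Sg k Γ).obj A) n := XV.tgt₃ (ses_I k Γ A) h (XV.of_inj (inj_I k Γ A) hn)

omit [Module.Finite k Γ] in
lemma xv_Sg4 {S A : ModuleCat.{u} Γ} (h : XV S A 5) :
    XV S ((Sg k Γ).obj ((Sg3 k Γ).obj A)) 1 :=
  xv_Sg le_rfl (xv_Sg (n := 2) (by norm_num) (xv_Sg (n := 3) (by norm_num)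
    (xv_Sg (n := 4) (by norm_num) h)))

omit [Module.Finite k Γ] in
lemma exF_SG (hD : PD Γ (DG k Γ) 5) : ExF (SG k Γ) := by
  have h4 : ExF (Sg3 k Γ ⋙ Sg k Γ) :=
    ((exF_Sg k Γ).comp ((exF_Sg k Γ).comp (exF_Sg k Γ))).comp (exF_Sg k Γ)
  have h : ExF ((Sg3 k Γ ⋙ Sg k Γ) ⋙ NF k Γ) := fun A B C f g hf hfg hg => by
    obtain ⟨h1, h2, h3⟩ := h4 f g hf hfg hg
    exact ⟨NF_inj k Γ _ h1, NF_exact k Γ _ _ h1 h2,
      NF_surj k Γ _ _ h1 h2 h3 (xv_Sg4 (XV.of_pd hD le_rfl))⟩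
  exact h.comp (exF_Sg k Γ)

lemma finF_Sg3 : FinF (Sg3 k Γ) := (finF_Sg k Γ).comp ((finF_Sg k Γ).comp (finF_Sg k Γ))

lemma finF_SG : FinF (SG k Γ) :=
  finF_Sg3.comp ((finF_Sg k Γ).comp ((finF_N k Γ).comp (finF_Sg k Γ)))

lemma fp_SG (gd : ∀ U : ModuleCat.{u} Γ, Module.Finite Γ U → GD U 4) (hD : PD Γ (DG k Γ) 5) :
    FP Γ ((SG k Γ).obj (ModuleCat.of Γ Γ)) := by
  set S := (Sg k Γ).obj ((Sg3 k Γ).obj (ModuleCat.of Γ Γ))
  have hS : Module.Finite Γ S := finF_Sg k Γ _ (finF_Sg3 _ inferInstance)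
  obtain ⟨r, hr⟩ := XV.extend _ _ (ιI_inj k Γ S) (ιρ_exact k Γ S) (ρI_surj k Γ S)
    (xv_Sg4 (gd _ (finF_Sg k Γ _ hS) 5 (by norm_num))) LinearMap.id
  have h : Retr S ((IF k Γ).obj S) := ⟨_, r, hr⟩
  have hp := (h.map (NF k Γ)).proj (proj_nu_I k Γ S hS)
  exact (ses_I k Γ ((NF k Γ).obj S)).fp₃ FP.of_proj ⟨5, pd_I k Γ hD _ (finF_N k Γ _ hS)⟩

omit [Module.Finite k Γ] in
lemma fp_bar (X : ModuleCat.{u} Γ) : FP Γ ((Bar k Γ).obj X) := @FP.of_proj _ _ _ _ _ (bar_proj k _)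

lemma fp_prod (hD : PD Γ (DG k Γ) 5) (hV : Module.Finite Γ V) (X : ModuleCat.{u} Γ) :
    FP Γ (ModuleCat.of Γ ((IF k Γ).obj V × (Γ ⊗[k] X))) :=
  (SES.prod _ (ModuleCat.of Γ (Γ ⊗[k] X))).fp₂ ⟨5, pd_I k Γ hD V hV⟩ (fp_bar X)

end L1

open L1 in
theorem l1Stmt : L1Stmt.{u} := by
  intro k _ Γ _ _ _ gd hD tr
  let e0 : SG k Γ ⟶ Sg3 k Γ ⋙ Sg k Γ :=
    { app := fun U => (eb tr).app ((Sg k Γ).obj ((Sg3 k Γ).obj U))
      naturality := fun _ _ f => (eb tr).naturality _ }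
  let e1 : SG k Γ ⋙ OmF k Γ ⟶ (Sg k Γ ⋙ Sg k Γ) ⋙ Sg k Γ := Phi e0
  let e2 : (SG k Γ ⋙ OmF k Γ) ⋙ OmF k Γ ⟶ Sg k Γ ⋙ Sg k Γ := Phi e1
  let e3 : ((SG k Γ ⋙ OmF k Γ) ⋙ OmF k Γ) ⋙ OmF k Γ ⟶ Sg k Γ := Phi e2
  refine ⟨{
    L' := ((SG k Γ ⋙ OmF k Γ) ⋙ OmF k Γ) ⋙ OmF k Γ
    Lt := PbF e3
    j := { app := fun U => ModuleCat.ofHom (X := U) (pj (e3.app U))
           naturality := fun U V f => ?_ }
    p := { app := fun U => ModuleCat.ofHom (pp (e3.app U)) }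
    j_inj := fun U => pj_inj _
    jp := fun U => pjp _
    p_surj := fun U => pp_surj _
    exL' := (((exF_SG hD).comp (exF_om k)).comp (exF_om k)).comp (exF_om k)
    finL' := ((finF_SG.comp (finF_om k)).comp (finF_om k)).comp (finF_om k)
    fpL' := fp_om_iter k (fp_SG gd hD) 3
    eb := eb tr
    eb_spec := fun V g ψ => bV_hmap g ψ
    linkL' := fun U => ⟨_, _, _, _, _, ses_om k _, ses_om k _, ses_om k _, fp_bar _, fp_bar _,
      fp_bar _⟩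
    linkLt := fun U hU => ⟨_, _, _, _, _, _, ses_Pb (V := U) (e2.app U),
      ses_Pb (V := (Sg k Γ).obj U) (e1.app U),
      ses_Pb (V := (Sg k Γ).obj ((Sg k Γ).obj U)) (e0.app U), fp_prod hD hU _,
      fp_prod hD (finF_Sg k Γ _ hU) _, fp_prod hD (finF_Sg k Γ _ (finF_Sg k Γ _ hU)) _,
      pj (V := (Sg3 k Γ).obj U) (e0.app U), pp (V := (Sg3 k Γ).obj U) (e0.app U),
      LinearMap.fst Γ _ _ ∘ₗ (Pb (V := (Sg3 k Γ).obj U) (e0.app U)).subtype,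
      pj_inj _, pjp _, pp_surj _, fun _ => rfl, fun x => x.2⟩ }⟩
  ext1; ext1 x
  exact Subtype.ext (Prod.ext (ι_nat f x)
    (map_zero ((((SG k Γ ⋙ OmF k Γ) ⋙ OmF k Γ) ⋙ OmF k Γ).map f).hom).symm)

end Crest.Agent.R186
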