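import Crest.Agent.R186.Defs1

/-! 186-A: Gorenstein projective modules. -/

set_option autoImplicit false
set_option linter.unusedSectionVars false
open CategoryTheory Abelian
open scoped TensorProduct ModuleCat

namespace Crest.Agent.R186

open Crest.Agent.R178

universe u

namespace GA

variable {R : Type u} [Ring R] {A B C A' B' C' : ModuleCat.{u} R}

lemma ses_congr (h : SES A B C) (a : A ≃ₗ[R] A') (c : C ≃ₗ[R] C') : SES A' B C' := by
  obtain ⟨f, g, hf, hfg, hg⟩ := h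
  refine ⟨f ∘ₗ a.symm.toLinearMap, c.toLinearMap ∘ₗ g, hf.comp a.symm.injective, fun y => ?_,
    c.surjective.comp hg⟩
  simp only [LinearMap.comp_apply, LinearEquiv.coe_coe, map_eq_zero_iff _ c.injective, hfg y]
  exact ⟨fun ⟨x, hx⟩ => ⟨a x, by simpa using hx⟩, fun ⟨x, hx⟩ => ⟨_, hx⟩⟩

lemma factor {V : Type u} [AddCommGroup V] [Module R V] {f : A →ₗ[R] B} {g : B →ₗ[R] C}
    (hfg : Function.Exact f g) (hg : Function.Surjective g) (φ : B →ₗ[R] V)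
    (h : ∀ x, φ (f x) = 0) : ∃ ψ : C →ₗ[R] V, ∀ y, ψ (g y) = φ y :=
  ⟨(LinearMap.range f).liftQ φ (by rintro _ ⟨x, rfl⟩; exact h x) ∘ₗ
    (hfg.linearEquivOfSurjective hg).symm.toLinearMap, fun y => by
      have : (hfg.linearEquivOfSurjective hg).symm (g y) = Submodule.Quotient.mk y := by
        rw [LinearEquiv.symm_apply_eq]; rfl
      simp [this]⟩

lemma ses_comp {Q Q' : ModuleCat.{u} R} (h : SES A B Q) (h' : SES B C Q') :
    ∃ X, SES A C X ∧ SES Q X Q' := by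
  obtain ⟨f, g, hf, hfg, hg⟩ := h
  obtain ⟨f', g', hf', hfg', hg'⟩ := h'
  refine ⟨_, SES.coker (f' ∘ₗ f) (hf'.comp hf), ?_⟩
  obtain ⟨a, ha⟩ := factor hfg hg ((LinearMap.range (f' ∘ₗ f)).mkQ ∘ₗ f') fun x =>
    (Submodule.Quotient.mk_eq_zero _).2 ⟨x, rfl⟩
  refine ⟨a, (LinearMap.range (f' ∘ₗ f)).liftQ g' (by
    rintro _ ⟨x, rfl⟩; exact hfg'.apply_apply_eq_zero _), ?_, fun y => ?_, fun z => ?_⟩
  · rw [injective_iff_map_eq_zero]
    intro x hx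
    obtain ⟨x, rfl⟩ := hg x
    rw [ha] at hx
    obtain ⟨w, hw⟩ := (Submodule.Quotient.mk_eq_zero _).1 hx
    rw [← hf' hw]
    exact hfg.apply_apply_eq_zero w
  · obtain ⟨y, rfl⟩ := Submodule.mkQ_surjective _ y
    refine (hfg' y).trans ⟨fun ⟨x, hx⟩ => ⟨g x, by rw [ha, ← hx]; rfl⟩, fun ⟨x, hx⟩ => ?_⟩
    obtain ⟨x, rfl⟩ := hg x
    rw [ha] at hx
    obtain ⟨w, hw⟩ := (Submodule.Quotient.eq _).1 hx
    exact ⟨x - f w, by rw [map_sub, sub_eq_iff_eq_add, ← sub_eq_iff_eq_add']; exact hw.symm⟩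
  · obtain ⟨y, rfl⟩ := hg' z
    exact ⟨Submodule.Quotient.mk y, rfl⟩

lemma ses_pull (h : SES A B C) (h' : SES A' B' C) : ∃ X, SES A X B' ∧ SES A' X B := by
  obtain ⟨f, g, hf, hfg, hg⟩ := h
  obtain ⟨f', g', hf', hfg', hg'⟩ := h'
  let K := LinearMap.ker (g.coprod (-g'))
  have hK : ∀ x : B × B', x ∈ K ↔ g x.1 = g' x.2 := fun x => by
    simp [K, add_neg_eq_zero]
  refine ⟨ModuleCat.of R K, ⟨LinearMap.codRestrict K (LinearMap.inl R B B' ∘ₗ f) fun x =>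
      (hK _).2 (by simpa using hfg.apply_apply_eq_zero x), LinearMap.snd R B B' ∘ₗ K.subtype,
      fun x y e => hf (congrArg (fun t : K => t.1.1) e), fun y => ⟨fun hy => ?_, ?_⟩, fun z => ?_⟩,
    ⟨LinearMap.codRestrict K (LinearMap.inr R B B' ∘ₗ f') fun x =>
      (hK _).2 (by simpa using (hfg'.apply_apply_eq_zero x).symm), LinearMap.fst R B B' ∘ₗ K.subtype,
      fun x y e => hf' (congrArg (fun t : K => t.1.2) e), fun y => ⟨fun hy => ?_, ?_⟩,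
      fun z => ?_⟩⟩
  · have h2 : y.1.2 = 0 := hy
    obtain ⟨x, hx⟩ := (hfg y.1.1).1 (by rw [(hK _).1 y.2, h2, map_zero])
    exact ⟨x, Subtype.ext (Prod.ext hx h2.symm)⟩
  · rintro ⟨x, rfl⟩; rfl
  · obtain ⟨y, hy⟩ := hg (g' z)
    exact ⟨⟨(y, z), (hK _).2 hy⟩, rfl⟩
  · have h2 : y.1.1 = 0 := hy
    obtain ⟨x, hx⟩ := (hfg' y.1.2).1 (by rw [← (hK _).1 y.2, h2, map_zero])
    exact ⟨x, Subtype.ext (Prod.ext h2.symm hx)⟩
  · rintro ⟨x, rfl⟩; rfl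
  · obtain ⟨y, hy⟩ := hg' (g z)
    exact ⟨⟨(z, y), (hK _).2 hy.symm⟩, rfl⟩

lemma ses_push (h : SES A B C) (h' : SES A B' C') : ∃ Y, SES B Y C' ∧ SES B' Y C := by
  obtain ⟨f, g, hf, hfg, hg⟩ := h
  obtain ⟨f', g', hf', hfg', hg'⟩ := h'
  let K := LinearMap.range (f.prod (-f'))
  have hK : ∀ x : B × B', K.mkQ x = 0 ↔ ∃ a, f a = x.1 ∧ -f' a = x.2 := fun x => by
    rw [Submodule.mkQ_apply, Submodule.Quotient.mk_eq_zero]
    exact exists_congr fun a => Prod.ext_iff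
  refine ⟨ModuleCat.of R ((B × B') ⧸ K), ⟨K.mkQ ∘ₗ LinearMap.inl R B B',
      K.liftQ (g' ∘ₗ LinearMap.snd R B B') (by
        rintro _ ⟨x, rfl⟩; simpa using hfg'.apply_apply_eq_zero x), ?_, fun y => ?_, fun z => ?_⟩,
    ⟨K.mkQ ∘ₗ LinearMap.inr R B B', K.liftQ (g ∘ₗ LinearMap.fst R B B') (by
        rintro _ ⟨x, rfl⟩; simpa using hfg.apply_apply_eq_zero x), ?_, fun y => ?_, fun z => ?_⟩⟩
  · rw [injective_iff_map_eq_zero]
    intro x hx
    obtain ⟨a, h1, h2⟩ := (hK _).1 hx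
    obtain rfl : a = 0 := hf' (by simpa using h2)
    simpa using h1.symm
  · obtain ⟨y, rfl⟩ := Submodule.mkQ_surjective _ y
    refine (hfg' y.2).trans ⟨fun ⟨x, hx⟩ => ⟨y.1 + f x, ?_⟩, fun ⟨x, hx⟩ => ?_⟩
    · rw [← sub_eq_zero, LinearMap.comp_apply, ← map_sub, hK]
      exact ⟨x, by simp, by simp [hx]⟩
    · rw [← sub_eq_zero, LinearMap.comp_apply, ← map_sub, hK] at hx
      obtain ⟨a, -, h2⟩ := hx
      exact ⟨a, by simpa using h2⟩
  · obtain ⟨y, rfl⟩ := hg' z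
    exact ⟨K.mkQ (0, y), rfl⟩
  · rw [injective_iff_map_eq_zero]
    intro x hx
    obtain ⟨a, h1, h2⟩ := (hK _).1 hx
    obtain rfl : a = 0 := hf (by simpa using h1)
    simpa using h2.symm
  · obtain ⟨y, rfl⟩ := Submodule.mkQ_surjective _ y
    refine (hfg y.1).trans ⟨fun ⟨x, hx⟩ => ⟨y.2 + f' x, ?_⟩, fun ⟨x, hx⟩ => ?_⟩
    · rw [← sub_eq_zero, LinearMap.comp_apply, ← map_sub, hK]
      exact ⟨-x, by simp [hx], by simp⟩
    · rw [← sub_eq_zero, LinearMap.comp_apply, ← map_sub, hK] at hx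
      obtain ⟨a, h2, -⟩ := hx
      exact ⟨-a, by simpa [neg_eq_iff_eq_neg] using h2⟩
  · obtain ⟨y, rfl⟩ := hg z
    exact ⟨K.mkQ (y, 0), rfl⟩

lemma gp_fin (h : GP A) : Module.Finite R A := by
  obtain ⟨𝒞, h1, h2⟩ := h
  exact (h2 A h1).1

lemma gp_gd (h : GP A) : GD A 0 := by
  obtain ⟨𝒞, h1, h2⟩ := h
  exact (h2 A h1).2.1

lemma gp_step (h : GP A) :
    ∃ P N : ModuleCat.{u} R, Module.Finite R P ∧ Module.Projective R P ∧ SES A P N ∧ GP N := by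
  obtain ⟨𝒞, h1, h2⟩ := h
  obtain ⟨-, -, P, N, a, b, c, d⟩ := h2 A h1
  exact ⟨P, N, a, b, c, 𝒞, d, h2⟩

lemma gp_of_step {P : ModuleCat.{u} R} (h1 : Module.Finite R A) (h2 : GD A 0)
    (h3 : Module.Finite R P) (h4 : Module.Projective R P) (h5 : SES A P B) (h6 : GP B) : GP A := by
  refine ⟨insert A {N | GP N}, Set.mem_insert _ _, ?_⟩
  rintro N (rfl | hN)
  · exact ⟨h1, h2, P, B, h3, h4, h5, Or.inr h6⟩
  · obtain ⟨P, N', a, b, c, d⟩ := gp_step hN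
    exact ⟨gp_fin hN, gp_gd hN, P, N', a, b, c, Or.inr d⟩

lemma gp_equiv (h : GP A) (e : A ≃ₗ[R] B) : GP B := by
  obtain ⟨P, N, a, b, c, d⟩ := gp_step h
  exact gp_of_step ((Retr.of_equiv e.symm).fin (gp_fin h))
    (fun n hn => XV.retr_src (Retr.of_equiv e.symm) (gp_gd h n hn)) a b
    (ses_congr c e (LinearEquiv.refl _ _)) d

lemma gp_proj (h1 : Module.Finite R A) (h2 : Module.Projective R A) : GP A :=
  ⟨{P | Module.Finite R P ∧ Module.Projective R P}, ⟨h1, h2⟩, fun N hN =>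
    ⟨hN.1, GD.of_proj hN.2, N, ModuleCat.of R PUnit, hN.1, hN.2,
      ⟨LinearMap.id, 0, Function.injective_id, fun y => ⟨fun _ => ⟨y, rfl⟩, fun _ => rfl⟩,
        fun _ => ⟨0, rfl⟩⟩, inferInstance, inferInstance⟩⟩

variable [IsNoetherianRing R]

lemma gp_ext (h : SES A B C) (hA : GP A) (hC : GP C) : GP B := by
  refine ⟨{B | ∃ A C, SES A B C ∧ GP A ∧ GP C}, ⟨A, C, h, hA, hC⟩, ?_⟩
  rintro B ⟨A, C, h, hA, hC⟩
  refine ⟨h.fin₂ (gp_fin hA) (gp_fin hC), GD.src₂ h (gp_gd hA) (gp_gd hC), ?_⟩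
  obtain ⟨f, g, hf, hfg, hg⟩ := h
  obtain ⟨P, A', p1, p2, ⟨a, a', ha, haa, ha'⟩, hA'⟩ := gp_step hA
  obtain ⟨Q, C', q1, q2, ⟨c, c', hc, hcc, hc'⟩, hC'⟩ := gp_step hC
  obtain ⟨ψ, hψ⟩ := XV.extend f g hf hfg hg ((gp_gd hC).xv P p1 FP.of_proj one_pos) a
  have key : ∀ y, c (g y) = 0 → ∃ z, f z = y := fun y hy =>
    (hfg y).1 (hc (by rw [hy, map_zero]))
  refine ⟨ModuleCat.of R (P × Q), _, inferInstance, inferInstance,
    SES.coker (B := ModuleCat.of R (P × Q)) (ψ.prod (c ∘ₗ g)) ?_, _, _,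
    SES.coker_map (B' := ModuleCat.of R (P × Q)) f g (LinearMap.inl R P Q) (LinearMap.snd R P Q) hg
      Function.Exact.inl_snd LinearMap.snd_surjective a (ψ.prod (c ∘ₗ g)) c
      (fun x => Prod.ext (hψ x) (by simp [hfg.apply_apply_eq_zero])) (fun _ => rfl) fun x y e => ?_,
    gp_equiv hA' (haa.linearEquivOfSurjective ha').symm,
    gp_equiv hC' (hcc.linearEquivOfSurjective hc').symm⟩
  · rw [injective_iff_map_eq_zero]
    intro y hy
    obtain ⟨z, rfl⟩ := key y (congrArg Prod.snd hy)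
    obtain rfl : z = 0 := ha (by rw [← hψ, map_zero]; exact congrArg Prod.fst hy)
    exact map_zero f
  · obtain ⟨z, rfl⟩ := key y (congrArg Prod.snd e).symm
    exact ⟨z, by rw [← hψ]; exact (congrArg Prod.fst e).symm⟩

lemma gp_ker (h : SES A B C) (hB : GP B) (hC : GP C) : GP A := by
  obtain ⟨P, N, a, b, c, d⟩ := gp_step hB
  obtain ⟨X, h1, h2⟩ := ses_comp h c
  exact gp_of_step (h.fin₁ (gp_fin hB)) (GD.src₁ h (gp_gd hB) ((gp_gd hC).mono (by omega))) a b h1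
    (gp_ext h2 hC d)

lemma proj_of_gd (h1 : Module.Finite R A) (h2 : FP R A) (h3 : GD A 0) : Module.Projective R A := by
  obtain ⟨r, K, hK⟩ := exists_cover A h1
  have hx := h3.xv K (hK.fin₁ inferInstance) (hK.fp₁ FP.of_proj h2) one_pos
  obtain ⟨f, g, hf, hfg, hg⟩ := hK
  obtain ⟨ψ, hψ⟩ := XV.lift f g hf hfg hg hx LinearMap.id
  exact Retr.proj ⟨ψ, g, hψ⟩ inferInstance

lemma gp_up (h : GP A) : ∃ (K : ModuleCat.{u} R), GP K ∧
    ∃ r : ℕ, SES K (ModuleCat.of R (Fin r → R)) A := by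
  obtain ⟨r, K, hK⟩ := exists_cover A (gp_fin h)
  exact ⟨K, gp_ker hK (gp_proj inferInstance inferInstance) h, r, hK⟩

lemma gp_down (h : GP A) : ∃ (K : ModuleCat.{u} R), GP K ∧
    ∃ r : ℕ, SES A (ModuleCat.of R (Fin r → R)) K := by
  obtain ⟨P, N, a, b, c, d⟩ := gp_step h
  obtain ⟨r, i, ρ, hρ⟩ := retr_free P a b
  have hi : Function.Injective i := Function.LeftInverse.injective hρ
  obtain ⟨X, h1, h2⟩ := ses_comp c (SES.coker i hi)
  refine ⟨X, gp_ext h2 d (gp_proj inferInstance (Retr.proj (B := ModuleCat.of R (Fin r → R))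
    ⟨(LinearMap.range i).liftQ (LinearMap.id - i ∘ₗ ρ) ?_, (LinearMap.range i).mkQ, fun x => ?_⟩
    inferInstance)), r, h1⟩
  · rintro _ ⟨x, rfl⟩
    simp [hρ]
  · obtain ⟨x, rfl⟩ := Submodule.mkQ_surjective _ x
    exact (Submodule.Quotient.eq _).2 ⟨-ρ x, by simp⟩

lemma exists_chain (h : GP A) : ∃ W : ℤ → ModuleCat.{u} R, W 0 = A ∧ ∀ n, GP (W n) ∧
    ∃ r : ℕ, SES (W (n + 1)) (ModuleCat.of R (Fin r → R)) (W n) := by
  choose up hu hu' using fun M : {M : ModuleCat.{u} R // GP M} => gp_up M.2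
  choose dn hd hd' using fun M : {M : ModuleCat.{u} R // GP M} => gp_down M.2
  let U : ℕ → {M : ModuleCat.{u} R // GP M} := fun b => Nat.rec ⟨A, h⟩ (fun _ M => ⟨up M, hu M⟩) b
  let V : ℕ → {M : ModuleCat.{u} R // GP M} := fun b => Nat.rec ⟨A, h⟩ (fun _ M => ⟨dn M, hd M⟩) b
  refine ⟨fun n => Int.casesOn n (fun b => (U b).1) (fun b => (V (b + 1)).1), rfl, fun n => ?_⟩
  rcases n with b | _ | b
  · exact ⟨(U b).2, hu' (U b)⟩
  · exact ⟨(V 1).2, hd' (V 0)⟩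
  · exact ⟨(V (b + 2)).2, hd' (V (b + 1))⟩

end GA

open GA in
theorem aStmt : AStmt.{u} := by
  intro k _ R _ _ _
  have := noeth k R
  have hbar : ∀ M : ModuleCat.{u} R, Module.Finite R M → GP ((Bar k R).obj M) := fun M hM =>
    gp_proj (finF_bar k M hM) (bar_proj k M)
  refine ⟨fun D F h1 h2 h3 => ?_, fun D ι M hM i => ?_, fun D A B C h hB hA hB' => ?_,
    fun D A h => gp_ker (ses_om_iter k A D) (hbar _ (gp_fin h)) h, fun D Z hZ hG hT => ?_⟩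
  · exact gp_proj (fin_om_iter k h1 D) (proj_of_gd (fin_om_iter k h1 D) (fp_om_iter k h2 D)
      (gd_om_iter k D le_rfl (by simpa using h3)))
  · have hgd : ∀ j, GD ((Om k)^[D] (M j)) 0 := fun j =>
      gd_om_iter k D le_rfl (by simpa using (hM j).2.1)
    refine ⟨{N | Module.Finite R N ∧ GD N 0 ∧ ∃ G j, SES N G ((Om k)^[D] (M j)) ∧ GP G}, ?_, ?_⟩
    · obtain ⟨h1, -, j, F, h3, h4⟩ := hM i
      exact ⟨fin_om_iter k h1 D, hgd i, _, j, h3.om_iter k D, h4⟩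
    · rintro N ⟨h1, h2, G, j, h3, h4⟩
      obtain ⟨P, G', a, b, c, d⟩ := gp_step h4
      obtain ⟨X, x1, x2⟩ := ses_comp h3 c
      obtain ⟨-, -, l, F, f1, f2⟩ := hM j
      obtain ⟨Y, y1, y2⟩ := ses_push x2 (f1.om_iter k D)
      exact ⟨h1, h2, P, X, a, b, x1, x1.fin₃ a, GD.src₂ x2 (hgd j) (gp_gd d), Y, l, y1,
        gp_ext y2 f2 d⟩
  · obtain ⟨X, x1, x2⟩ := ses_pull (h.om_iter k D) (ses_om_iter k C D)
    exact gp_ker x2 (gp_ext x1 hA (hbar _ (fin_om_iter k (h.fin₃ hB) D))) hB'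
  · have hT' : ∀ n : ℤ, n ≠ 0 → n ≠ -1 → TV k ((Om k)^[D] Z) ((Om k)^[D] Z) n := fun n h0 h1 => by
      have e1 := (tv_chain_src (k := k) (V := Z) (n := n) (fun b => (Om k)^[b] Z)
        (fun b => (Bar k R).obj ((Om k)^[b] Z)) (ses_om_iter k Z)
        (fun b n => TV.of_fp_src (@FP.of_proj _ _ _ _ _ (bar_proj k _))) D).2 (hT n h0 h1)
      have e2 := (tv_chain_tgt (k := k) (S := (Om k)^[D] Z) (n := n - D) (fun b => (Om k)^[b] Z)
        (fun b => (Bar k R).obj ((Om k)^[b] Z)) (ses_om_iter k Z)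
        (fun b n => TV.of_fp_tgt (gp_gd hG) (finF_bar k _ (fin_om_iter k hZ b))
          (@FP.of_proj _ _ _ _ _ (bar_proj k _))) D).2 e1
      simpa using e2
    unfold GPd at hG
    generalize (Om k)^[D] Z = Z' at hG hT'
    obtain ⟨W, rfl, hW⟩ := exists_chain hG
    choose r hr using fun n => (hW n).2
    have sh : ∀ n m : ℤ, TV k (W (n + 1)) (W 0) (m - 1) ↔ TV k (W n) (W 0) m := fun n m =>
      ⟨fun h => TV.src₃ (hr n) h (TV.of_fp_src FP.of_proj),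
        fun h => TV.src₁ (hr n) (TV.of_fp_src FP.of_proj) (by simpa using h)⟩
    have sh' : ∀ n m : ℤ, TV k (W n) (W 0) (m - n) ↔ TV k (W 0) (W 0) m := fun n m => by
      induction n with
      | zero => simp
      | succ n ih => rw [← ih, ← sh n, sub_sub]
      | pred n ih =>
        rw [← ih, ← sh (-n - 1), sub_add_cancel]
        exact iff_of_eq (by congr 1; ring)
    choose f g hf hfg hg using hr
    have key : ∀ (V : ModuleCat.{u} R) (n : ℤ), XV (W n) V 1 →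
        Function.Exact (fun φ : (Fin (r n) → R) →ₗ[R] V => φ ∘ₗ (f n ∘ₗ g (n + 1)))
          (fun φ : (Fin (r (n + 1)) → R) →ₗ[R] V => φ ∘ₗ (f (n + 1) ∘ₗ g (n + 1 + 1))) := by
      intro V n hV φ
      constructor
      · intro h0
        obtain ⟨φ', h1⟩ := factor (hfg (n + 1)) (hg (n + 1)) φ fun x => by
          obtain ⟨x, rfl⟩ := hg _ x
          exact LinearMap.congr_fun h0 x
        obtain ⟨ψ, h2⟩ := XV.extend _ _ (hf n) (hfg n) (hg n) hV φ'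
        exact ⟨ψ, LinearMap.ext fun x => (h2 _).trans (h1 x)⟩
      · rintro ⟨ψ, rfl⟩
        refine LinearMap.ext fun x => ?_
        change ψ (f n (g (n + 1) (f (n + 1) (g (n + 1 + 1) x)))) = 0
        rw [(hfg (n + 1)).apply_apply_eq_zero, map_zero, map_zero]
    have ex1 : ∀ n, Function.Exact (f n ∘ₗ g (n + 1)) (g n) := fun n y =>
      (hfg n y).trans ⟨fun ⟨x, hx⟩ => by
        obtain ⟨x, rfl⟩ := hg _ x
        exact ⟨x, hx⟩, fun ⟨x, hx⟩ => ⟨_, hx⟩⟩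
    exact ⟨{
      r := r
      d := fun n => f n ∘ₗ g (n + 1)
      ex := fun n y => (map_eq_zero_iff _ (hf n)).trans (ex1 (n + 1) y)
      exΛ := fun n => key (ModuleCat.of R R) n (gp_gd (hW n).1 1 one_pos)
      π := g 0
      π_surj := hg 0
      ex0 := ex1 0
      exZ := fun n h0 h1 => key (W 0) n ((tv_iff (gp_gd (hW n).1) (gp_fin (hW 0).1) one_pos).1
        (by simpa using (sh' n (n + 1)).2 (hT' _ h0 h1))) }⟩

end Crest.Agent.R186
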