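import Crest.Agent.R186.Lam1

/-! Abstract induction functors. -/

set_option autoImplicit false
open CategoryTheory Abelian
open scoped TensorProduct ModuleCat

namespace Crest.Agent.R186

open Crest.Agent.R178

universe u

variable {Γ Λ : Type u} [Ring Γ] [Ring Λ]

/-- building a short exact sequence between quotients -/
lemma SES.of_quot {R : Type u} [Ring R] {A B A' B' C' : ModuleCat.{u} R} (f : A →ₗ[R] B)
    (qA : A →ₗ[R] A') (qB : B →ₗ[R] B') (qC : B →ₗ[R] C') (hA : Function.Surjective qA)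
    (hB : Function.Surjective qB) (hC : Function.Surjective qC)
    (h1 : ∀ x, qB (f x) = 0 ↔ qA x = 0) (h2 : ∀ y, qC y = 0 ↔ ∃ x, qB y = qB (f x)) :
    SES A' B' C' := by
  let f' : A' →ₗ[R] B' := (LinearMap.ker qA).liftQ (qB ∘ₗ f) (fun x hx => (h1 x).2 hx) ∘ₗ
    (qA.quotKerEquivOfSurjective hA).symm.toLinearMap
  let g' : B' →ₗ[R] C' := (LinearMap.ker qB).liftQ qC
    (fun y hy => (h2 y).2 ⟨0, by rw [map_zero, map_zero]; exact hy⟩) ∘ₗ
    (qB.quotKerEquivOfSurjective hB).symm.toLinearMap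
  have hf' : ∀ x, f' (qA x) = qB (f x) := fun x => by
    simp [f', LinearMap.quotKerEquivOfSurjective_symm_apply]
  have hg' : ∀ y, g' (qB y) = qC y := fun y => by
    simp [g', LinearMap.quotKerEquivOfSurjective_symm_apply]
  refine ⟨f', g', (injective_iff_map_eq_zero _).2 fun a ha => ?_, fun b => ?_, fun c => ?_⟩
  · obtain ⟨x, rfl⟩ := hA a
    rw [hf'] at ha
    exact (h1 x).1 ha
  · obtain ⟨y, rfl⟩ := hB b
    rw [hg', h2]
    constructor
    · rintro ⟨x, hx⟩; exact ⟨qA x, by rw [hf', hx]⟩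
    · rintro ⟨a, ha⟩
      obtain ⟨x, rfl⟩ := hA a
      exact ⟨x, by rw [← ha, hf']⟩
  · obtain ⟨y, rfl⟩ := hC c
    exact ⟨_, hg' y⟩

/-- cokernel as a module -/
abbrev Cok {R : Type u} [Ring R] {A B : ModuleCat.{u} R} (f : A →ₗ[R] B) : ModuleCat.{u} R :=
  ModuleCat.of R (B ⧸ LinearMap.range f)

lemma exF_res (θ : Γ →+* Λ) : ExF (ModuleCat.restrictScalars θ) := fun _ _ _ _ _ hf hfg hg =>
  ⟨hf, hfg, hg⟩

/-- element of a restricted module -/
def unres {θ : Γ →+* Λ} {M : ModuleCat.{u} Λ} (x : (ModuleCat.restrictScalars θ).obj M) : M := x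

lemma unres_smul {θ : Γ →+* Λ} {M : ModuleCat.{u} Λ} (g : Γ)
    (x : (ModuleCat.restrictScalars θ).obj M) : unres (g • x) = θ g • unres x := rfl

lemma fin_of_res (θ : Γ →+* Λ) (M : ModuleCat.{u} Λ)
    (h : Module.Finite Γ ((ModuleCat.restrictScalars θ).obj M)) : Module.Finite Λ M := by
  obtain ⟨r, g, hg⟩ := Module.Finite.exists_fin' Γ ((ModuleCat.restrictScalars θ).obj M)
  refine Module.Finite.of_surjective
    (Fintype.linearCombination Λ fun i : Fin r => unres (g (Pi.single i 1))) fun x => ?_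
  obtain ⟨y, hy⟩ := hg x
  refine ⟨fun i => θ (y i), ?_⟩
  have : g y = ∑ i, y i • g (Pi.single i 1) := by
    conv_lhs => rw [pi_eq_sum_univ' y]
    simp
  rw [Fintype.linearCombination_apply]
  exact (this.symm.trans hy : _)

lemma finF_res (θ : Γ →+* Λ)
    (h : Module.Finite Γ ((ModuleCat.restrictScalars θ).obj (ModuleCat.of Λ Λ))) :
    FinF (ModuleCat.restrictScalars θ) := fun M hM => by
  obtain ⟨r, K, hK⟩ := exists_cover M hM
  exact ((exF_res θ).ses hK).fin₃ ((retr_pi _ (ModuleCat.of Λ Λ) r).fin inferInstance)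

/-- an induction functor `U ↦ Λ e ⊗_Γ U` with the right action of `t` -/
structure Ind (θ : Γ →+* Λ) (t : Λ) where
  J : ModuleCat.{u} Γ ⥤ ModuleCat.{u} Λ
  [add : J.Additive]
  ex : ExF J
  η : ∀ U : ModuleCat.{u} Γ, U →+ J.obj U
  η_smul : ∀ (U : ModuleCat.{u} Γ) (g : Γ) (x : U), η U (g • x) = θ g • η U x
  η_nat : ∀ {U V : ModuleCat.{u} Γ} (f : U →ₗ[Γ] V) (x : U), mp J f (η U x) = η V (f x)
  inc : J.obj (ModuleCat.of Γ Γ) →ₗ[Λ] Λ
  inc_smul : ∀ x, inc x • η (ModuleCat.of Γ Γ) (1 : Γ) = x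
  e_θ : ∀ g, θ g * inc (η (ModuleCat.of Γ Γ) (1 : Γ)) = inc (η (ModuleCat.of Γ Γ) (1 : Γ)) * θ g
  e_t : t * inc (η (ModuleCat.of Γ Γ) (1 : Γ)) = inc (η (ModuleCat.of Γ Γ) (1 : Γ)) * t
  r : ∀ U : ModuleCat.{u} Γ, J.obj U →ₗ[Λ] J.obj U
  r_nat : ∀ {U V : ModuleCat.{u} Γ} (f : U →ₗ[Γ] V) (x : J.obj U), mp J f (r U x) = r V (mp J f x)
  r_η : ∀ (U : ModuleCat.{u} Γ) (x : U), r U (η U x) = t • η U x
  r_exact : ∀ U, Function.Exact (r U) (r U)

attribute [instance] Ind.add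

namespace Ind
variable {θ : Γ →+* Λ} {t : Λ} (I : Ind θ t)

/-- the idempotent -/
def e : Λ := I.inc (I.η (ModuleCat.of Γ Γ) (1 : Γ))

lemma e_η (U : ModuleCat.{u} Γ) (x : U) : I.e • I.η U x = I.η U x := by
  have := I.η_nat (U := ModuleCat.of Γ Γ) (LinearMap.toSpanSingleton Γ U x) (1 : Γ)
  rw [LinearMap.toSpanSingleton_apply, one_smul] at this
  rw [← this, ← map_smul, e, I.inc_smul]

lemma inc_η (g : Γ) : I.inc (I.η (ModuleCat.of Γ Γ) g) = I.e * θ g := by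
  have : I.η (ModuleCat.of Γ Γ) g = θ g • I.η (ModuleCat.of Γ Γ) (1 : Γ) := by
    rw [← I.η_smul, smul_eq_mul, mul_one]
  rw [this, map_smul, smul_eq_mul, I.e_θ]; rfl

lemma retr : Retr (I.J.obj (ModuleCat.of Γ Γ)) (ModuleCat.of Λ Λ) :=
  ⟨I.inc, LinearMap.toSpanSingleton Λ _ (I.η (ModuleCat.of Γ Γ) (1 : Γ)), I.inc_smul⟩

lemma retr_free (r : ℕ) :
    Retr (I.J.obj (ModuleCat.of Γ (Fin r → Γ))) (ModuleCat.of Λ (Fin r → Λ)) :=
  (retr_pi I.J (ModuleCat.of Γ Γ) r).trans (retr_pi' I.retr r)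

lemma proj (r : ℕ) : Module.Projective Λ (I.J.obj (ModuleCat.of Γ (Fin r → Γ))) :=
  (I.retr_free r).proj inferInstance

lemma finF : FinF I.J := fun M hM => by
  obtain ⟨r, K, hK⟩ := exists_cover M hM
  exact (I.ex.ses hK).fin₃ ((I.retr_free r).fin inferInstance)

lemma fp [IsNoetherianRing Γ] (U : ModuleCat.{u} Γ) (hU : Module.Finite Γ U) (h : FP Γ U) :
    FP Λ (I.J.obj U) :=
  I.ex.fp (I.retr.fp FP.of_proj) U hU h

lemma gen (U : ModuleCat.{u} Γ) (hU : Module.Finite Γ U) {M : ModuleCat.{u} Λ}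
    (φ : I.J.obj U →ₗ[Λ] M) (h : ∀ x, φ (I.η U x) = 0) : φ = 0 := by
  obtain ⟨r, g, hg⟩ := Module.Finite.exists_fin' Γ U
  ext x
  obtain ⟨y, rfl⟩ := I.ex.surj (B := ModuleCat.of Γ (Fin r → Γ)) (ModuleCat.ofHom g) hg x
  obtain ⟨a, b, hab⟩ := retr_pi I.J (ModuleCat.of Γ Γ) r
  clear hab a b
  have e : ∑ i : Fin r, ModuleCat.ofHom (X := Fin r → Γ) (Y := Γ) (LinearMap.proj i) ≫
      ModuleCat.ofHom (X := Γ) (Y := U) (LinearMap.toSpanSingleton Γ U (g (Pi.single i 1))) =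
      ModuleCat.ofHom g := by
    ext1
    rw [ModuleCat.hom_sum]
    ext1 i; ext1
    simp [Pi.single_apply]
  have := congr((I.J.map $e).hom y)
  rw [I.J.map_sum, ModuleCat.hom_sum, LinearMap.sum_apply] at this
  rw [← this, map_sum, LinearMap.zero_apply]
  refine Finset.sum_eq_zero fun i _ => ?_
  rw [I.J.map_comp, ModuleCat.hom_comp, LinearMap.comp_apply]
  generalize (I.J.map (ModuleCat.ofHom (X := Fin r → Γ) (Y := Γ) (LinearMap.proj i))).hom y = z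
  rw [← I.inc_smul z, map_smul, map_smul]
  erw [I.η_nat]
  rw [h, smul_zero]

lemma univ_free (r : ℕ) {M : ModuleCat.{u} Λ}
    (ψ : (Fin r → Γ) →ₗ[Γ] (ModuleCat.restrictScalars θ).obj M) :
    ∃ Φ : I.J.obj (ModuleCat.of Γ (Fin r → Γ)) →ₗ[Λ] M,
      ∀ x, Φ (I.η _ x) = I.e • unres (ψ x) := by
  refine ⟨∑ i, LinearMap.toSpanSingleton Λ M (unres (ψ (Pi.single i 1))) ∘ₗ I.inc ∘ₗ
    mp I.J (U := ModuleCat.of Γ (Fin r → Γ)) (V := ModuleCat.of Γ Γ) (LinearMap.proj i),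
    fun x => ?_⟩
  have : ψ x = ∑ i, x i • ψ (Pi.single i 1) := by
    conv_lhs => rw [pi_eq_sum_univ' x]
    simp
  rw [this, LinearMap.sum_apply]
  erw [Finset.smul_sum (r := I.e) (f := fun i => θ (x i) • unres (ψ (Pi.single i 1)))]
  refine Finset.sum_congr rfl fun i _ => ?_
  rw [LinearMap.comp_apply, LinearMap.comp_apply, I.η_nat, I.inc_η,
    LinearMap.toSpanSingleton_apply, mul_smul]
  rfl

lemma univ [IsNoetherianRing Γ] (U : ModuleCat.{u} Γ) (hU : Module.Finite Γ U)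
    {M : ModuleCat.{u} Λ} (ψ : U →ₗ[Γ] (ModuleCat.restrictScalars θ).obj M) :
    ∃ Φ : I.J.obj U →ₗ[Λ] M, ∀ x, Φ (I.η U x) = I.e • unres (ψ x) := by
  obtain ⟨r, K, hK⟩ := exists_cover U hU
  have hKf : Module.Finite Γ K := hK.fin₁ inferInstance
  obtain ⟨f, g, hf, hfg, hg⟩ := hK
  obtain ⟨a1, a2, a3⟩ := I.ex (ModuleCat.ofHom f) (ModuleCat.ofHom g) hf hfg hg
  obtain ⟨Φ, hΦ⟩ := I.univ_free r (ψ ∘ₗ g)
  have h0 : Φ ∘ₗ mp I.J f = 0 := I.gen K hKf _ fun x => by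
    rw [LinearMap.comp_apply, I.η_nat, hΦ, LinearMap.comp_apply, hfg.apply_apply_eq_zero, map_zero]
    exact smul_zero (A := M) I.e
  let Ψ : I.J.obj U →ₗ[Λ] M := (LinearMap.ker (mp I.J g)).liftQ Φ (fun x hx => by
      obtain ⟨y, rfl⟩ := (a2 x).1 hx
      exact congr($h0 y)) ∘ₗ ((mp I.J g).quotKerEquivOfSurjective a3).symm.toLinearMap
  have hΨ : ∀ x, Ψ (mp I.J g x) = Φ x := fun x => by
    simp [Ψ, LinearMap.quotKerEquivOfSurjective_symm_apply]
  refine ⟨Ψ, fun x => ?_⟩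
  obtain ⟨y, rfl⟩ := hg x
  rw [← I.η_nat, hΨ, hΦ]; rfl

/-- restriction of a map along the unit -/
def res {U : ModuleCat.{u} Γ} {M : ModuleCat.{u} Λ} (φ : I.J.obj U →ₗ[Λ] M) :
    U →ₗ[Γ] (ModuleCat.restrictScalars θ).obj M where
  toFun x := φ (I.η U x)
  map_add' a b := by rw [map_add, map_add]; rfl
  map_smul' g x := by rw [I.η_smul, map_smul]; rfl

lemma xv [IsNoetherianRing Γ] (M : ModuleCat.{u} Λ) (n : ℤ) (U : ModuleCat.{u} Γ)
    (hU : Module.Finite Γ U) (h : XV U ((ModuleCat.restrictScalars θ).obj M) n) :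
    XV (I.J.obj U) M n := by
  refine sim I.J I.ex I.proj M _ (fun U hU h φ => I.gen U hU φ fun x => congr($(h (I.res φ)) x))
    (fun r K f hK h φ => ?_) n U hU h
  obtain ⟨ψ, hψ⟩ := h (I.res φ)
  obtain ⟨Φ, hΦ⟩ := I.univ_free r ψ
  have : Φ ∘ₗ mp I.J f.hom - φ = 0 := I.gen K hK _ fun x => by
    rw [LinearMap.sub_apply, LinearMap.comp_apply, I.η_nat, hΦ, hψ, sub_eq_zero]
    change I.e • φ (I.η K x) = _
    rw [← map_smul, I.e_η]
  exact ⟨Φ, fun x => sub_eq_zero.1 congr($this x)⟩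

/-- the quotient by the right action of `t` -/
abbrev Q (U : ModuleCat.{u} Γ) : ModuleCat.{u} Λ := Cok (I.r U)

lemma sesQ (U : ModuleCat.{u} Γ) : SES (I.Q U) (I.J.obj U) (I.Q U) :=
  SES.of_quot (I.r U) (Submodule.mkQ _) LinearMap.id (Submodule.mkQ _) (Submodule.mkQ_surjective _)
    Function.surjective_id (Submodule.mkQ_surjective _)
    (fun x => (I.r_exact U x).trans (Submodule.Quotient.mk_eq_zero (LinearMap.range (I.r U))).symm)
    (fun y => (Submodule.Quotient.mk_eq_zero _).trans ⟨fun ⟨x, hx⟩ => ⟨x, hx.symm⟩,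
      fun ⟨x, hx⟩ => ⟨x, hx.symm⟩⟩)

lemma exQ {A B C : ModuleCat.{u} Γ} (h : SES A B C) : SES (I.Q A) (I.Q B) (I.Q C) := by
  obtain ⟨f, g, hf, hfg, hg⟩ := h
  obtain ⟨a1, a2, a3⟩ := I.ex (ModuleCat.ofHom f) (ModuleCat.ofHom g) hf hfg hg
  refine SES.coker_map (mp I.J f) (mp I.J g) (mp I.J f) (mp I.J g) a3 a2 a3 _ _ _
    (fun x => (I.r_nat f x).symm) (fun x => (I.r_nat g x).symm) fun x y hxy => ?_
  refine (I.r_exact A x).1 (a1 ?_)
  change mp I.J f _ = mp I.J f 0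
  rw [I.r_nat, hxy, (I.r_exact B).apply_apply_eq_zero, map_zero]

lemma finQ (U : ModuleCat.{u} Γ) (hU : Module.Finite Γ U) : Module.Finite Λ (I.Q U) :=
  (I.sesQ U).fin₃ (I.finF U hU)

/-- left multiplication by `t` on `Λ` as a `Γ`-linear map -/
def tL (ht : ∀ g, t * θ g = θ g * t) : (ModuleCat.restrictScalars θ).obj (ModuleCat.of Λ Λ) →ₗ[Γ]
    (ModuleCat.restrictScalars θ).obj (ModuleCat.of Λ Λ) where
  toFun x := t * unres x
  map_add' a b := mul_add t _ _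
  map_smul' g x := by
    change t * (θ g * unres x) = θ g * (t * unres x)
    rw [← mul_assoc, ht, mul_assoc]

section
variable [IsNoetherianRing Γ] (ht : ∀ g, t * θ g = θ g * t)
  (hex : Function.Exact (tL ht) (tL ht))
  (hfin : Module.Finite Γ ((ModuleCat.restrictScalars θ).obj (ModuleCat.of Λ Λ)))
  (hfp : FP Γ (LinearMap.ker (tL ht)))
include hex hfp

lemma ses_tL : ∃ (g : (ModuleCat.restrictScalars θ).obj (ModuleCat.of Λ Λ) →ₗ[Γ]
      LinearMap.ker (tL ht)), Function.Exact (LinearMap.ker (tL ht)).subtype g ∧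
      Function.Surjective g ∧ ∀ x, (g x).1 = tL ht x := by
  refine ⟨(tL ht).codRestrict _ hex.apply_apply_eq_zero, fun x => ?_, fun x => ?_, fun _ => rfl⟩
  · rw [Subtype.ext_iff]
    exact ⟨fun hx => ⟨⟨x, hx⟩, rfl⟩, fun ⟨y, hy⟩ => hy ▸ y.2⟩
  · obtain ⟨y, hy⟩ := (hex x.1).1 x.2
    exact ⟨y, Subtype.ext hy⟩

lemma fp_res : FP Γ ((ModuleCat.restrictScalars θ).obj (ModuleCat.of Λ Λ)) := by
  obtain ⟨g, h1, h2, -⟩ := ses_tL ht hex hfp
  exact FP.X₂ _ g (Submodule.injective_subtype _) h1 h2 hfp hfp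

include hfin

lemma gdJ {U : ModuleCat.{u} Γ} (hU : Module.Finite Γ U) {D : ℤ} (h : GD U D) :
    GD (I.J.obj U) D := fun n hn =>
  I.xv _ n U hU (h.xv _ hfin (fp_res ht hex hfp) hn)

lemma gdQ_zero {U : ModuleCat.{u} Γ} (hU : Module.Finite Γ U) (h : GD U 0) : GD (I.Q U) 0 := by
  have h1 : XV (I.Q U) (ModuleCat.of Λ Λ) 1 := by
    let f : I.Q U →ₗ[Λ] I.J.obj U := (LinearMap.range (I.r U)).liftQ (I.r U) (by
      rintro _ ⟨x, rfl⟩; exact (I.r_exact U).apply_apply_eq_zero x)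
    refine XV.of_extend (A := I.Q U) (B := I.J.obj U) (C := I.Q U) f (Submodule.mkQ _) ?_ ?_
      (Submodule.mkQ_surjective _) (I.gdJ ht hex hfin hfp hU h 1 one_pos) fun φ => ?_
    · rw [injective_iff_map_eq_zero]
      intro x hx
      obtain ⟨x, rfl⟩ := Submodule.mkQ_surjective _ x
      exact (Submodule.Quotient.mk_eq_zero _).2 ((I.r_exact U x).1 hx)
    · intro y
      refine (Submodule.Quotient.mk_eq_zero _).trans ⟨fun ⟨x, hx⟩ => ⟨Submodule.mkQ _ x, hx⟩, ?_⟩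
      rintro ⟨x, rfl⟩
      obtain ⟨x, rfl⟩ := Submodule.mkQ_surjective _ x
      exact ⟨x, rfl⟩
    · obtain ⟨g, g1, g2, g3⟩ := ses_tL ht hex hfp
      let φ' : I.J.obj U →ₗ[Λ] Λ := φ ∘ₗ Submodule.mkQ _
      have hφ' : ∀ x, I.res (M := ModuleCat.of Λ Λ) φ' x ∈ LinearMap.ker (tL ht) := fun x => by
        change t • φ' (I.η U x) = 0
        rw [← map_smul, ← I.r_η]
        change φ (Submodule.Quotient.mk _) = 0
        rw [(Submodule.Quotient.mk_eq_zero (LinearMap.range (I.r U))).2 ⟨_, rfl⟩, map_zero]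
      obtain ⟨ψ, hψ⟩ := XV.lift (A := ModuleCat.of Γ (LinearMap.ker (tL ht)))
        (C := ModuleCat.of Γ (LinearMap.ker (tL ht))) _ g (Submodule.injective_subtype _) g1 g2
        (h.xv _ inferInstance hfp one_pos) ((I.res (M := ModuleCat.of Λ Λ) φ').codRestrict _ hφ')
      obtain ⟨Ψ, hΨ⟩ := I.univ U hU ψ
      have : Ψ ∘ₗ I.r U - φ' = 0 := I.gen U hU (M := ModuleCat.of Λ Λ) _ fun x => by
        rw [LinearMap.sub_apply, LinearMap.comp_apply, I.r_η, map_smul, hΨ, sub_eq_zero,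
          smul_smul]
        erw [I.e_t]
        rw [mul_smul]
        have h3 : t • unres (ψ x) = φ' (I.η U x) := (g3 _).symm.trans (congrArg Subtype.val (hψ x))
        erw [h3]
        rw [← map_smul]
        exact congrArg φ' (I.e_η U x)
      refine ⟨Ψ, fun x => ?_⟩
      obtain ⟨x, rfl⟩ := Submodule.mkQ_surjective _ x
      exact sub_eq_zero.1 congr($this x)
  intro n hn
  obtain ⟨m, rfl⟩ : ∃ m : ℕ, n = m + 1 := ⟨(n - 1).toNat, by omega⟩
  clear hn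
  induction m with
  | zero => simpa using h1
  | succ m ih =>
    exact XV.src₃ (I.sesQ U) (by convert ih using 1; push_cast; ring)
      (I.gdJ ht hex hfin hfp hU h _ (by omega))

lemma gdQ (D : ℕ) {U : ModuleCat.{u} Γ} (hU : Module.Finite Γ U) (h : GD U D) : GD (I.Q U) D := by
  induction D generalizing U with
  | zero => exact I.gdQ_zero ht hex hfin hfp hU h
  | succ D ih =>
    obtain ⟨r, K, hK⟩ := exists_cover U hU
    have hP : GD (ModuleCat.of Γ (Fin r → Γ)) 0 := GD.of_proj inferInstance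
    push_cast at h ⊢
    exact GD.src₃ (I.exQ hK) (ih (hK.fin₁ inferInstance) (GD.src₁ hK (hP.mono (by omega)) h))
      ((I.gdQ_zero ht hex hfin hfp inferInstance hP).mono (by omega))

end

end Ind

end Crest.Agent.R186
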