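import Crest.Agent.R186.Defs1

/-! The category of "data" describing modules over the triangular algebra `Λ`. -/

set_option autoImplicit false
open CategoryTheory Abelian
open scoped TensorProduct ModuleCat

namespace Crest.Agent.R186

open Crest.Agent.R178

universe u

section mp
variable {k : Type u} [Field k] {Γ Γ' : Type u} [Ring Γ] [Ring Γ']

/-- action of a functor on a linear map -/
noncomputable def mp (F : ModuleCat.{u} Γ ⥤ ModuleCat.{u} Γ') {U V : ModuleCat.{u} Γ}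
    (f : U →ₗ[Γ] V) : F.obj U →ₗ[Γ'] F.obj V :=
  (F.map (X := U) (Y := V) (ModuleCat.ofHom f)).hom

variable (F : ModuleCat.{u} Γ ⥤ ModuleCat.{u} Γ') {U V W : ModuleCat.{u} Γ}

lemma mp_mp (f : U →ₗ[Γ] V) (g : V →ₗ[Γ] W) (x : F.obj U) :
    mp F g (mp F f x) = mp F (g ∘ₗ f) x :=
  (congr(($(F.map_comp (X := U) (Y := V) (Z := W) (ModuleCat.ofHom f)
    (ModuleCat.ofHom g))).hom x)).symm

lemma mp_id' {f : U →ₗ[Γ] U} (hf : ∀ x, f x = x) (x : F.obj U) : mp F f x = x := by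
  obtain rfl : f = LinearMap.id := LinearMap.ext hf
  exact congr(($(F.map_id U)).hom x)

lemma mp_congr {f g : U →ₗ[Γ] V} (hfg : ∀ x, f x = g x) (x : F.obj U) : mp F f x = mp F g x := by
  rw [LinearMap.ext hfg]

lemma mp_add' [F.Additive] {f g s : U →ₗ[Γ] V} (hs : ∀ x, s x = f x + g x) (x : F.obj U) :
    mp F s x = mp F f x + mp F g x := by
  obtain rfl : s = f + g := LinearMap.ext hs
  exact congr(($(F.map_add (X := U) (Y := V) (f := ModuleCat.ofHom f)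
    (g := ModuleCat.ofHom g))).hom x)

lemma mp_zero' [F.Additive] {f : U →ₗ[Γ] V} (hf : ∀ x, f x = 0) (x : F.obj U) : mp F f x = 0 := by
  obtain rfl : f = 0 := LinearMap.ext hf
  exact congr(($(F.map_zero U V)).hom x)

lemma mp_smul' [Algebra k Γ] [Algebra k Γ'] [F.Linear k] {f s : U →ₗ[Γ] V} {c : k}
    (hs : ∀ x, s x = c • f x) (x : F.obj U) : mp F s x = c • mp F f x := by
  obtain rfl : s = c • f := LinearMap.ext hs
  exact congr(($(F.map_smul (X := U) (Y := V) c (ModuleCat.ofHom f))).hom x)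

lemma mp_nat {G : ModuleCat.{u} Γ ⥤ ModuleCat.{u} Γ'} (a : F ⟶ G) (f : U →ₗ[Γ] V) (x : F.obj U) :
    (a.app V).hom (mp F f x) = mp G f ((a.app U).hom x) :=
  congr(($(a.naturality (X := U) (Y := V) (ModuleCat.ofHom f))).hom x)

end mp

variable {k : Type u} [Field k] {Γ : Type u} [Ring Γ] [Algebra k Γ]

attribute [instance] NatExt.addL' NatExt.addLt NatExt.linL' NatExt.linLt

namespace NatExt
variable (E : NatExt k Γ)

/-- `j` as a linear map -/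
noncomputable def jj (U : ModuleCat.{u} Γ) : U →ₗ[Γ] E.Lt.obj U := (E.j.app U).hom
/-- `p` as a linear map -/
noncomputable def pp (U : ModuleCat.{u} Γ) : E.Lt.obj U →ₗ[Γ] E.L'.obj U := (E.p.app U).hom

variable {U V : ModuleCat.{u} Γ}

lemma mp_jj (f : U →ₗ[Γ] V) (x : U) : mp E.Lt f (E.jj U x) = E.jj V (f x) :=
  (mp_nat (𝟭 _) E.j f x).symm

lemma mp_pp (f : U →ₗ[Γ] V) (x : E.Lt.obj U) : mp E.L' f (E.pp U x) = E.pp V (mp E.Lt f x) :=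
  (mp_nat E.Lt E.p f x).symm

@[simp] lemma pp_jj (x : U) : E.pp U (E.jj U x) = 0 := (E.jp U).apply_apply_eq_zero x

lemma jj_inj : Function.Injective (E.jj U) := E.j_inj U
lemma pp_surj : Function.Surjective (E.pp U) := E.p_surj U
lemma jp_exact : Function.Exact (E.jj U) (E.pp U) := E.jp U

lemma exLt : ExF E.Lt := ExF.of_ext E.j E.p E.j_inj E.jp E.p_surj exF_id E.exL'

lemma ses (U : ModuleCat.{u} Γ) : SES U (E.Lt.obj U) (E.L'.obj U) :=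
  ⟨_, _, E.jj_inj, E.jp_exact, E.pp_surj⟩

lemma finLt : FinF E.Lt := fun U hU => (E.ses U).fin₂ hU (E.finL' U hU)

lemma fpLt : FP Γ (E.Lt.obj (ModuleCat.of Γ Γ)) := (E.ses _).fp₂ FP.of_proj E.fpL'

end NatExt

/-- the data of a module over `Λ` -/
structure Dat (E : NatExt k Γ) (h : k) where
  X : ModuleCat.{u} Γ
  Y : ModuleCat.{u} Γ
  εX : X →ₗ[Γ] X
  εY : Y →ₗ[Γ] Y
  α : Y →ₗ[Γ] X
  ψ : E.Lt.obj Y →ₗ[Γ] X
  ψ₂ : E.L'.obj Y →ₗ[Γ] X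
  εX2 : ∀ x, εX (εX x) = 0
  εY2 : ∀ y, εY (εY y) = 0
  εα : ∀ y, εX (α y) = α (εY y)
  εψ : ∀ y, εX (ψ (E.jj Y y)) = h • ψ (E.jj Y (εY y)) + (1 - h) • α (εY y)
  hψ₂ : ∀ l, ψ₂ (E.pp Y l) = εX (ψ (mp E.Lt εY l))

variable {E : NatExt k Γ} {h : k}

lemma Dat.εψ₂ (N : Dat E h) (l : E.L'.obj N.Y) : N.εX (N.ψ₂ l) = 0 := by
  obtain ⟨l, rfl⟩ := E.pp_surj l
  rw [N.hψ₂, N.εX2]

lemma Dat.ψ₂ε (N : Dat E h) (l : E.L'.obj N.Y) : N.ψ₂ (mp E.L' N.εY l) = 0 := by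
  obtain ⟨l, rfl⟩ := E.pp_surj l
  rw [E.mp_pp, N.hψ₂, mp_mp, mp_zero' E.Lt (f := N.εY ∘ₗ N.εY) N.εY2, map_zero, map_zero]

/-- morphisms of data -/
structure DHom (M N : Dat E h) where
  fX : M.X →ₗ[Γ] N.X
  fY : M.Y →ₗ[Γ] N.Y
  hεX : ∀ x, fX (M.εX x) = N.εX (fX x)
  hεY : ∀ y, fY (M.εY y) = N.εY (fY y)
  hα : ∀ y, fX (M.α y) = N.α (fY y)
  hψ : ∀ l, fX (M.ψ l) = N.ψ (mp E.Lt fY l)

lemma DHom.hψ₂ {M N : Dat E h} (F : DHom M N) (l : E.L'.obj M.Y) :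
    F.fX (M.ψ₂ l) = N.ψ₂ (mp E.L' F.fY l) := by
  obtain ⟨l, rfl⟩ := E.pp_surj l
  rw [M.hψ₂, E.mp_pp, N.hψ₂, F.hεX, F.hψ, mp_mp, mp_mp]
  exact congrArg _ (congrArg _ (mp_congr _ F.hεY l))

/-- `U ⊕ ε U` -/
abbrev Dbl (U : ModuleCat.{u} Γ) : ModuleCat.{u} Γ := ModuleCat.of Γ (U × U)

/-- `ε` on `U ⊕ ε U` -/
def εD (U : ModuleCat.{u} Γ) : U × U →ₗ[Γ] U × U := LinearMap.inr Γ U U ∘ₗ LinearMap.fst Γ U U

@[simp] lemma εD_apply (U : ModuleCat.{u} Γ) (x : U × U) : εD U x = (0, x.1) := rfl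

/-- first component -/
def fD (U : ModuleCat.{u} Γ) : U × U →ₗ[Γ] U := LinearMap.fst Γ U U
/-- second component -/
def sD (U : ModuleCat.{u} Γ) : U × U →ₗ[Γ] U := LinearMap.snd Γ U U
/-- first inclusion -/
def iD (U : ModuleCat.{u} Γ) : U →ₗ[Γ] U × U := LinearMap.inl Γ U U

@[simp] lemma fD_apply (U : ModuleCat.{u} Γ) (x : U × U) : fD U x = x.1 := rfl
@[simp] lemma sD_apply (U : ModuleCat.{u} Γ) (x : U × U) : sD U x = x.2 := rfl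
@[simp] lemma iD_apply (U : ModuleCat.{u} Γ) (x : U) : iD U x = (x, 0) := rfl

/-- the map `U ⊕ ε U → V` induced by `φ` -/
def lD {U V : ModuleCat.{u} Γ} (ε : V →ₗ[Γ] V) (φ : U →ₗ[Γ] V) : U × U →ₗ[Γ] V :=
  φ ∘ₗ fD U + ε ∘ₗ φ ∘ₗ sD U

@[simp] lemma lD_apply {U V : ModuleCat.{u} Γ} (ε : V →ₗ[Γ] V) (φ : U →ₗ[Γ] V) (x : U × U) :
    lD ε φ x = φ x.1 + ε (φ x.2) := rfl

variable (E h) in
/-- the data induced from the `X`-corner -/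
noncomputable def iI (U : ModuleCat.{u} Γ) : Dat E h where
  X := Dbl U
  Y := ModuleCat.of Γ PUnit
  εX := εD U
  εY := 0
  α := 0
  ψ := 0
  ψ₂ := 0
  εX2 _ := rfl
  εY2 _ := rfl
  εα _ := rfl
  εψ _ := by simp
  hψ₂ _ := rfl

/-- universal property of `iI` -/
noncomputable def liftI {U : ModuleCat.{u} Γ} (N : Dat E h) (φ : U →ₗ[Γ] N.X) :
    DHom (iI E h U) N where
  fX := lD N.εX φ
  fY := 0
  hεX x := by
    change φ 0 + N.εX (φ x.1) = N.εX (φ x.1 + N.εX (φ x.2))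
    simp [N.εX2]
  hεY _ := (map_zero _).symm
  hα _ := (map_zero _).trans (map_zero _).symm
  hψ l := (map_zero _).trans (by rw [mp_zero' E.Lt (fun _ => rfl), map_zero])

variable (E) in
/-- the `X`-part of `jI U` -/
abbrev JX (U : ModuleCat.{u} Γ) : Type u :=
  U × E.Lt.obj U × E.Lt.obj U × E.Lt.obj U × E.L'.obj U

variable (E h) in
/-- `ε` on `JX U` -/
noncomputable def εJ (U : ModuleCat.{u} Γ) : JX E U →ₗ[Γ] JX E U where
  toFun v := (0, 0, v.2.1 - (h - 1)⁻¹ • E.jj U v.1, ((h - 1)⁻¹ * h) • E.jj U v.1, E.pp U v.2.2.2.1)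
  map_add' a b := by simp [smul_add]; abel
  map_smul' γ a := by simp [smul_sub, smul_comm γ]

variable (E h) in
/-- `α` for `jI U` -/
noncomputable def αJ (U : ModuleCat.{u} Γ) : U × U →ₗ[Γ] JX E U where
  toFun g := (g.1, 0, -((h - 1)⁻¹ • E.jj U g.2), ((h - 1)⁻¹ * h) • E.jj U g.2, 0)
  map_add' a b := by simp [smul_add]; abel
  map_smul' γ a := by simp [smul_comm γ]

variable (E) in
/-- `ψ` for `jI U` -/
noncomputable def ψJ (U : ModuleCat.{u} Γ) : E.Lt.obj (Dbl U) →ₗ[Γ] JX E U where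
  toFun l := (0, mp E.Lt (U := Dbl U) (fD U) l, 0, mp E.Lt (U := Dbl U) (sD U) l, 0)
  map_add' a b := by simp
  map_smul' γ a := by simp

variable (E) in
/-- `ψ₂` for `jI U` -/
noncomputable def ψ₂J (U : ModuleCat.{u} Γ) : E.L'.obj (Dbl U) →ₗ[Γ] JX E U where
  toFun l := (0, 0, 0, 0, mp E.L' (U := Dbl U) (fD U) l)
  map_add' a b := by simp
  map_smul' γ a := by simp

lemma εJ_apply (U : ModuleCat.{u} Γ) (v : JX E U) : εJ E h U v =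
  (0, 0, v.2.1 - (h - 1)⁻¹ • E.jj U v.1, ((h - 1)⁻¹ * h) • E.jj U v.1, E.pp U v.2.2.2.1) := rfl
lemma αJ_apply (U : ModuleCat.{u} Γ) (g : U × U) : αJ E h U g =
  (g.1, 0, -((h - 1)⁻¹ • E.jj U g.2), ((h - 1)⁻¹ * h) • E.jj U g.2, 0) := rfl
lemma ψJ_apply (U : ModuleCat.{u} Γ) (l : E.Lt.obj (Dbl U)) : ψJ E U l =
  (0, mp E.Lt (U := Dbl U) (fD U) l, 0, mp E.Lt (U := Dbl U) (sD U) l, 0) := rfl
lemma ψ₂J_apply (U : ModuleCat.{u} Γ) (l : E.L'.obj (Dbl U)) : ψ₂J E U l =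
  (0, 0, 0, 0, mp E.L' (U := Dbl U) (fD U) l) := rfl

variable [hh : Fact (h ≠ 1)]

lemma c_mul : (h - 1)⁻¹ * h = 1 + (h - 1)⁻¹ := by
  have : h - 1 ≠ 0 := sub_ne_zero.2 hh.out
  field_simp; ring

variable (E h) in
/-- the data induced from the `Y`-corner -/
noncomputable def jI (U : ModuleCat.{u} Γ) : Dat E h where
  X := ModuleCat.of Γ (JX E U)
  Y := Dbl U
  εX := εJ E h U
  εY := εD U
  α := αJ E h U
  ψ := ψJ E U
  ψ₂ := ψ₂J E U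
  εX2 v := by simp [εJ_apply]
  εY2 _ := rfl
  εα y := by simp [εJ_apply, αJ_apply]
  εψ y := by
    have h1 : (1 - h) * (h - 1)⁻¹ = -1 := by
      have : h - 1 ≠ 0 := sub_ne_zero.2 hh.out
      field_simp; ring
    change εJ E h U (ψJ E U (E.jj (Dbl U) y)) =
      h • ψJ E U (E.jj (Dbl U) (εD U y)) + (1 - h) • αJ E h U (εD U y)
    simp only [εJ_apply, αJ_apply, ψJ_apply, E.mp_jj, εD_apply, fD_apply, sD_apply, map_zero,
      smul_zero, E.pp_jj, Prod.smul_mk, Prod.mk_add_mk, add_zero, smul_neg, smul_smul,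
      ← mul_assoc, h1]
    simp
  hψ₂ l := by
    simp only [εJ_apply, ψ₂J_apply, ψJ_apply, mp_mp, E.mp_pp]
    rw [mp_zero' E.Lt (U := Dbl U) (f := fD U ∘ₗ εD U) (fun _ => rfl),
      mp_congr E.Lt (U := Dbl U) (f := sD U ∘ₗ εD U) (g := fD U) (fun _ => rfl)]
    simp

/-- `X`-part of the universal property of `jI` -/
noncomputable def lJX {U : ModuleCat.{u} Γ} (N : Dat E h) (φ : U →ₗ[Γ] N.Y) : JX E U →ₗ[Γ] N.X where
  toFun v := N.α (φ v.1) + N.ψ (mp E.Lt φ v.2.1) + N.εX (N.ψ (mp E.Lt φ v.2.2.1)) +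
    N.ψ (mp E.Lt N.εY (mp E.Lt φ v.2.2.2.1)) + N.ψ₂ (mp E.L' φ v.2.2.2.2)
  map_add' a b := by simp; abel
  map_smul' γ a := by simp

omit hh in
lemma lJX_apply {U : ModuleCat.{u} Γ} (N : Dat E h) (φ : U →ₗ[Γ] N.Y) (v : JX E U) :
    lJX N φ v = N.α (φ v.1) + N.ψ (mp E.Lt φ v.2.1) + N.εX (N.ψ (mp E.Lt φ v.2.2.1)) +
    N.ψ (mp E.Lt N.εY (mp E.Lt φ v.2.2.2.1)) + N.ψ₂ (mp E.L' φ v.2.2.2.2) := rfl

/-- universal property of `jI` -/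
noncomputable def liftJ {U : ModuleCat.{u} Γ} (N : Dat E h) (φ : U →ₗ[Γ] N.Y) :
    DHom (jI E h U) N where
  fX := lJX N φ
  fY := lD N.εY φ
  hεX v := by
    change lJX N φ (εJ E h U v) = N.εX (lJX N φ v)
    simp only [lJX_apply, εJ_apply, map_zero, map_sub, map_add, LinearMap.map_smul_of_tower,
      E.mp_jj, E.mp_pp, N.hψ₂, N.εX2, N.εψ₂, N.εψ, N.εα, c_mul]
    have : h - 1 ≠ 0 := sub_ne_zero.2 hh.out
    match_scalars <;> field_simp <;> ring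
  hεY y := by
    change φ 0 + N.εY (φ y.1) = N.εY (φ y.1 + N.εY (φ y.2))
    simp [N.εY2]
  hα y := by
    change lJX N φ (αJ E h U y) = N.α (φ y.1 + N.εY (φ y.2))
    simp only [lJX_apply, αJ_apply, map_zero, map_neg, map_add, LinearMap.map_smul_of_tower,
      E.mp_jj, N.εψ, c_mul]
    have : h - 1 ≠ 0 := sub_ne_zero.2 hh.out
    match_scalars <;> (try field_simp) <;> ring
  hψ l := by
    change lJX N φ (ψJ E U l) = N.ψ (mp E.Lt (U := Dbl U) (lD N.εY φ) l)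
    rw [mp_add' E.Lt (U := Dbl U) (s := lD N.εY φ) (f := φ ∘ₗ fD U) (g := N.εY ∘ₗ φ ∘ₗ sD U) (fun _ => rfl)]
    simp only [lJX_apply, ψJ_apply, map_zero, map_add, mp_mp, zero_add, add_zero]

omit hh in
lemma lJX_nat {U : ModuleCat.{u} Γ} {M N : Dat E h} (F : DHom M N) (φ : U →ₗ[Γ] M.Y) (v : JX E U) :
    F.fX (lJX M φ v) = lJX N (F.fY ∘ₗ φ) v := by
  simp only [lJX_apply, map_add, F.hα, F.hψ, F.hεX, F.hψ₂, mp_mp, LinearMap.comp_apply]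
  rw [mp_congr E.Lt (f := F.fY ∘ₗ M.εY ∘ₗ φ) (g := N.εY ∘ₗ F.fY ∘ₗ φ) (fun x => F.hεY _)]

omit hh in
lemma lJX_add {U : ModuleCat.{u} Γ} (N : Dat E h) {s φ φ' : U →ₗ[Γ] N.Y} (hs : ∀ x, s x = φ x + φ' x)
    (v : JX E U) : lJX N s v = lJX N φ v + lJX N φ' v := by
  simp only [lJX_apply, mp_add' E.Lt hs, mp_add' E.L' hs, hs, map_add]
  abel

omit hh in
lemma lJX_smul {U : ModuleCat.{u} Γ} (N : Dat E h) {s φ : U →ₗ[Γ] N.Y} {c : k}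
    (hs : ∀ x, s x = c • φ x) (v : JX E U) : lJX N s v = c • lJX N φ v := by
  simp only [lJX_apply, mp_smul' E.Lt hs, mp_smul' E.L' hs, hs, LinearMap.map_smul_of_tower,
    smul_add]

/-- the map `jI U → jI V` induced by `f` -/
lemma lJX_map {U V : ModuleCat.{u} Γ} (f : U →ₗ[Γ] V) {φ : U →ₗ[Γ] (jI E h V).Y}
    (hφ : ∀ x, φ x = (f x, 0)) (v : JX E U) :
    lJX (jI E h V) φ v =
      (f v.1, mp E.Lt f v.2.1, mp E.Lt f v.2.2.1, mp E.Lt f v.2.2.2.1, mp E.L' f v.2.2.2.2) := by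
  obtain rfl : φ = iD V ∘ₗ f := LinearMap.ext hφ
  change αJ E h V (f v.1, 0) + ψJ E V (mp E.Lt (V := Dbl V) (iD V ∘ₗ f) v.2.1) +
    εJ E h V (ψJ E V (mp E.Lt (V := Dbl V) (iD V ∘ₗ f) v.2.2.1)) +
    ψJ E V (mp E.Lt (U := Dbl V) (V := Dbl V) (εD V) (mp E.Lt (V := Dbl V) (iD V ∘ₗ f) v.2.2.2.1)) +
    ψ₂J E V (mp E.L' (V := Dbl V) (iD V ∘ₗ f) v.2.2.2.2) = _
  have a1 := fun l => mp_congr E.Lt (f := fD V ∘ₗ iD V ∘ₗ f) (g := f) (fun _ => rfl) l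
  have a2 := fun l => mp_zero' E.Lt (f := sD V ∘ₗ iD V ∘ₗ f) (fun _ => rfl) l
  have a3 := fun l => mp_zero' E.Lt (f := fD V ∘ₗ εD V ∘ₗ iD V ∘ₗ f) (fun _ => rfl) l
  have a4 := fun l => mp_congr E.Lt (f := sD V ∘ₗ εD V ∘ₗ iD V ∘ₗ f) (g := f) (fun _ => rfl) l
  have a5 := fun l => mp_congr E.L' (f := fD V ∘ₗ iD V ∘ₗ f) (g := f) (fun _ => rfl) l
  simp only [αJ_apply, ψJ_apply, εJ_apply, ψ₂J_apply, mp_mp, a1, a2, a3, a4, a5]
  simp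

/-- right multiplication by `ε` -/
lemma lJX_eps {U : ModuleCat.{u} Γ} {φ : U →ₗ[Γ] (jI E h U).Y}
    (hφ : ∀ x, φ x = (0, x)) (v : JX E U) :
    lJX (jI E h U) φ v = (0, 0, -((h - 1)⁻¹ • E.jj U v.1), ((h - 1)⁻¹ * h) • E.jj U v.1 + v.2.1,
      E.pp U v.2.2.1) := by
  obtain rfl : φ = εD U ∘ₗ iD U := LinearMap.ext hφ
  change αJ E h U (0, v.1) + ψJ E U (mp E.Lt (V := Dbl U) (εD U ∘ₗ iD U) v.2.1) +
    εJ E h U (ψJ E U (mp E.Lt (V := Dbl U) (εD U ∘ₗ iD U) v.2.2.1)) +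
    ψJ E U (mp E.Lt (U := Dbl U) (V := Dbl U) (εD U)
      (mp E.Lt (V := Dbl U) (εD U ∘ₗ iD U) v.2.2.2.1)) +
    ψ₂J E U (mp E.L' (V := Dbl U) (εD U ∘ₗ iD U) v.2.2.2.2) = _
  have a1 := fun l => mp_zero' E.Lt (f := fD U ∘ₗ εD U ∘ₗ iD U) (fun _ => rfl) l
  have a2 := fun l => mp_id' E.Lt (f := sD U ∘ₗ εD U ∘ₗ iD U) (fun _ => rfl) l
  have a3 := fun l => mp_zero' E.Lt (f := fD U ∘ₗ εD U ∘ₗ εD U ∘ₗ iD U) (fun _ => rfl) l
  have a4 := fun l => mp_zero' E.Lt (f := sD U ∘ₗ εD U ∘ₗ εD U ∘ₗ iD U) (fun _ => rfl) l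
  have a5 := fun l => mp_zero' E.L' (f := fD U ∘ₗ εD U ∘ₗ iD U) (fun _ => rfl) l
  simp only [αJ_apply, ψJ_apply, εJ_apply, ψ₂J_apply, mp_mp, a1, a2, a3, a4, a5]
  simp

end Crest.Agent.R186
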