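import Crest.Agent.R186.Lam1

/-! The algebra `Λ` and its modules. -/

set_option autoImplicit false
open CategoryTheory Abelian
open scoped TensorProduct ModuleCat

namespace Crest.Agent.R186

open Crest.Agent.R178

universe u

variable {k : Type u} [Field k] {Γ : Type u} [Ring Γ] [Algebra k Γ]
variable {E : NatExt k Γ} {h : k}

/-- underlying group of the module attached to data -/
def Car (N : Dat E h) : Type u := N.X × N.Y

namespace Car
variable {M N : Dat E h}
instance : AddCommGroup (Car N) := inferInstanceAs (AddCommGroup (N.X × N.Y))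
/-- `X`-component -/
def x (w : Car N) : N.X := w.1
/-- `Y`-component -/
def y (w : Car N) : N.Y := w.2
/-- constructor -/
def mk (a : N.X) (b : N.Y) : Car N := (a, b)
@[simp] lemma mk_x (a : N.X) (b : N.Y) : (mk a b).x = a := rfl
@[simp] lemma mk_y (a : N.X) (b : N.Y) : (mk a b).y = b := rfl
@[simp] lemma add_x (v w : Car N) : (v + w).x = v.x + w.x := rfl
@[simp] lemma add_y (v w : Car N) : (v + w).y = v.y + w.y := rfl
@[simp] lemma sub_x (v w : Car N) : (v - w).x = v.x - w.x := rfl
@[simp] lemma sub_y (v w : Car N) : (v - w).y = v.y - w.y := rfl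
@[simp] lemma zero_x : (0 : Car N).x = 0 := rfl
@[simp] lemma zero_y : (0 : Car N).y = 0 := rfl
@[ext] lemma ext {v w : Car N} (h1 : v.x = w.x) (h2 : v.y = w.y) : v = w := Prod.ext h1 h2
end Car

/-- the additive map attached to a morphism of data -/
def DHom.app {M N : Dat E h} (F : DHom M N) : Car M →+ Car N where
  toFun w := Car.mk (F.fX w.x) (F.fY w.y)
  map_zero' := by ext <;> simp
  map_add' a b := by ext <;> simp

@[simp] lemma DHom.app_x {M N : Dat E h} (F : DHom M N) (w : Car M) : (F.app w).x = F.fX w.x := rfl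
@[simp] lemma DHom.app_y {M N : Dat E h} (F : DHom M N) (w : Car M) : (F.app w).y = F.fY w.y := rfl

/-- `iI U ⊕ N` -/
noncomputable def addX (U : ModuleCat.{u} Γ) (N : Dat E h) : Dat E h where
  X := ModuleCat.of Γ ((U × U) × N.X)
  Y := N.Y
  εX := (εD U).prodMap N.εX
  εY := N.εY
  α := LinearMap.inr Γ _ _ ∘ₗ N.α
  ψ := LinearMap.inr Γ _ _ ∘ₗ N.ψ
  ψ₂ := LinearMap.inr Γ _ _ ∘ₗ N.ψ₂
  εX2 x := Prod.ext rfl (N.εX2 _)
  εY2 := N.εY2
  εα y := Prod.ext rfl (N.εα _)
  εψ y := Prod.ext (by
    change ((0, 0) : U × U) = h • (0 : U × U) + (1 - h) • (0 : U × U)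
    rw [smul_zero, smul_zero, add_zero]; rfl) (N.εψ _)
  hψ₂ l := Prod.ext rfl (N.hψ₂ _)

/-- map out of `iI U ⊕ N` -/
noncomputable def copair {U : ModuleCat.{u} Γ} {N M : Dat E h} (φ : U →ₗ[Γ] M.X) (F : DHom N M) :
    DHom (addX U N) M where
  fX := (lD M.εX φ).coprod F.fX
  fY := F.fY
  hεX x := by
    change φ 0 + M.εX (φ x.1.1) + F.fX (N.εX x.2) = M.εX (φ x.1.1 + M.εX (φ x.1.2) + F.fX x.2)
    simp [M.εX2, F.hεX]
  hεY := F.hεY
  hα y := by
    change lD M.εX φ 0 + F.fX (N.α y) = _
    rw [map_zero, zero_add]; exact F.hα y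
  hψ l := by
    change lD M.εX φ 0 + F.fX (N.ψ l) = _
    rw [map_zero, zero_add]; exact F.hψ l

/-- inclusion `iI U → iI U ⊕ N` -/
noncomputable def inlX (U : ModuleCat.{u} Γ) (N : Dat E h) : DHom (iI E h U) (addX U N) where
  fX := LinearMap.inl Γ _ _
  fY := 0
  hεX _ := Prod.ext rfl (map_zero N.εX).symm
  hεY _ := (map_zero _).symm
  hα _ := (map_zero _).trans (map_zero _).symm
  hψ l := (map_zero _).trans (by rw [mp_zero' E.Lt (fun _ => rfl), map_zero])

/-- inclusion `N → iI U ⊕ N` -/
noncomputable def inrX (U : ModuleCat.{u} Γ) (N : Dat E h) : DHom N (addX U N) where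
  fX := LinearMap.inr Γ _ _
  fY := LinearMap.id
  hεX _ := Prod.ext rfl rfl
  hεY _ := rfl
  hα _ := rfl
  hψ l := Prod.ext rfl (congrArg N.ψ (mp_id' E.Lt (f := LinearMap.id) (fun _ => rfl) l).symm)

variable (Γ) in
/-- the regular module -/
abbrev G0 : ModuleCat.{u} Γ := ModuleCat.of Γ Γ

/-- `g ↦ g • x` -/
def ρ {U : ModuleCat.{u} Γ} (x : U) : G0 Γ →ₗ[Γ] U := LinearMap.toSpanSingleton Γ U x

lemma ρ_apply {U : ModuleCat.{u} Γ} (x : U) (g : Γ) : ρ x g = g • x := rfl

variable [hh : Fact (h ≠ 1)]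

variable (E h) in
/-- the data of the regular `Λ`-module -/
noncomputable def PD0 : Dat E h := addX (G0 Γ) (jI E h (G0 Γ))

/-- coordinates on the regular module -/
noncomputable def a0 (l : Car (PD0 E h)) : Γ := l.x.1.1
/-- coordinates on the regular module -/
noncomputable def a1 (l : Car (PD0 E h)) : Γ := l.x.1.2
/-- coordinates on the regular module -/
noncomputable def aJ (l : Car (PD0 E h)) : JX E (G0 Γ) := l.x.2
/-- coordinates on the regular module -/
noncomputable def b0 (l : Car (PD0 E h)) : Γ := l.y.1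
/-- coordinates on the regular module -/
noncomputable def b1 (l : Car (PD0 E h)) : Γ := l.y.2

/-- evaluation at an element -/
noncomputable def ev {N : Dat E h} (w : Car N) : DHom (PD0 E h) N :=
  copair (ρ w.x) (liftJ N (ρ w.y))

lemma ev_x {N : Dat E h} (w : Car N) (l : Car (PD0 E h)) : ((ev w).app l).x =
    a0 l • w.x + N.εX (a1 l • w.x) + lJX N (ρ w.y) (aJ l) := rfl

lemma ev_y {N : Dat E h} (w : Car N) (l : Car (PD0 E h)) : ((ev w).app l).y =
    b0 l • w.y + N.εY (b1 l • w.y) := rfl

lemma ev_nat {M N : Dat E h} (F : DHom M N) (w : Car M) (l : Car (PD0 E h)) :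
    F.app ((ev w).app l) = (ev (F.app w)).app l := by
  ext
  · rw [DHom.app_x, ev_x, ev_x, map_add, map_add, lJX_nat, F.hεX, map_smul, map_smul]
    exact congrArg (fun φ => _ + lJX N φ (aJ l)) (LinearMap.ext fun g => map_smul F.fY g w.y)
  · rw [DHom.app_y, ev_y, ev_y, map_add, F.hεY, map_smul, map_smul]; rfl

lemma ev_add {N : Dat E h} (v w : Car N) (l : Car (PD0 E h)) :
    (ev (v + w)).app l = (ev v).app l + (ev w).app l := by
  ext
  · rw [Car.add_x, ev_x, ev_x, ev_x, lJX_add N (s := ρ (v + w).y) (φ := ρ v.y) (φ' := ρ w.y)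
      (fun g => smul_add g v.y w.y)]
    simp only [Car.add_x, smul_add, map_add]; abel
  · simp only [Car.add_y, ev_y, smul_add, map_add]; abel

lemma ev_zero {N : Dat E h} (l : Car (PD0 E h)) : (ev (0 : Car N)).app l = 0 := by
  have := ev_add (0 : Car N) 0 l
  rw [add_zero] at this
  exact left_eq_add.1 this

variable (E h) in
/-- the diagonal embedding of `Γ` -/
noncomputable def θ0 (g : Γ) : Car (PD0 E h) := Car.mk ((g, 0), 0) (g, 0)

lemma ev_θ0 {N : Dat E h} (w : Car N) (g : Γ) :
    (ev w).app (θ0 E h g) = Car.mk (g • w.x) (g • w.y) := by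
  ext
  · change g • w.x + N.εX ((0 : Γ) • w.x) + lJX N (ρ w.y) 0 = g • w.x
    simp
  · change g • w.y + N.εY ((0 : Γ) • w.y) = g • w.y
    simp

lemma ev_one (l : Car (PD0 E h)) : (ev (θ0 E h 1)).app l = l := by
  ext
  · rw [ev_x]
    have h1 := (lJX_nat (inrX (G0 Γ) (jI E h (G0 Γ))) (iD (G0 Γ)) (aJ l)).symm
    rw [lJX_map (LinearMap.id) (fun _ => rfl)] at h1
    simp only [mp_id' (f := LinearMap.id) _ (fun _ => rfl), LinearMap.id_apply] at h1
    have h2 : lJX (PD0 E h) (ρ (θ0 E h 1).y) (aJ l) = (0, aJ l) := by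
      refine Eq.trans ?_ h1
      congr 2
      refine LinearMap.ext fun g => Prod.ext (mul_one g) (smul_zero g)
    rw [h2]
    refine Prod.ext (Prod.ext ?_ ?_) ?_
    · change a0 l * 1 + 0 + 0 = a0 l
      simp
    · change a0 l * 0 + a1 l * 1 + 0 = a1 l
      simp
    · have : a0 l • (0 : JX E (G0 Γ)) + εJ E h (G0 Γ) (a1 l • (0 : JX E (G0 Γ))) + aJ l = aJ l := by
        rw [smul_zero, smul_zero, map_zero, add_zero, zero_add]
      exact this
  · refine Prod.ext ?_ ?_
    · change b0 l * 1 + 0 = b0 l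
      simp
    · change b0 l * 0 + b1 l * 1 = b1 l
      simp

variable (E h) in
/-- the algebra `Λ` -/
def Lam : Type u := Car (PD0 E h)

namespace Lam

noncomputable instance : AddCommGroup (Lam E h) := inferInstanceAs (AddCommGroup (Car (PD0 E h)))

/-- the underlying element -/
def car (l : Lam E h) : Car (PD0 E h) := l
/-- constructor -/
def mk (l : Car (PD0 E h)) : Lam E h := l

noncomputable instance : Ring (Lam E h) where
  __ := (inferInstance : AddCommGroup (Lam E h))
  mul a b := mk ((ev b.car).app a.car)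
  one := mk (θ0 E h 1)
  left_distrib a b c := ev_add b.car c.car a.car
  right_distrib a b c := map_add (ev c.car).app a.car b.car
  zero_mul a := map_zero (ev a.car).app
  mul_zero a := ev_zero a.car
  mul_assoc a b c := ev_nat (ev c.car) b.car a.car
  one_mul a := (ev_θ0 a.car 1).trans (Car.ext (one_smul _ _) (one_smul _ _))
  mul_one a := ev_one a.car

lemma car_mul (a b : Lam E h) : (a * b).car = (ev b.car).app a.car := rfl

end Lam

noncomputable instance (N : Dat E h) : Module (Lam E h) (Car N) where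
  smul l w := (ev w).app l.car
  one_smul w := (ev_θ0 w 1).trans (Car.ext (one_smul _ _) (one_smul _ _))
  mul_smul a b w := ev_nat (ev w) b.car a.car
  smul_zero a := ev_zero a.car
  smul_add a v w := ev_add v w a.car
  add_smul a b w := map_add (ev w).app a.car b.car
  zero_smul w := map_zero (ev w).app

lemma Car.smul_def {N : Dat E h} (l : Lam E h) (w : Car N) : l • w = (ev w).app l.car := rfl

/-- the `Λ`-linear map attached to a morphism of data -/
noncomputable def DHom.lin {M N : Dat E h} (F : DHom M N) : Car M →ₗ[Lam E h] Car N where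
  toFun := F.app
  map_add' := F.app.map_add
  map_smul' l w := ev_nat F w l.car

@[simp] lemma DHom.lin_x {M N : Dat E h} (F : DHom M N) (w : Car M) : (F.lin w).x = F.fX w.x := rfl
@[simp] lemma DHom.lin_y {M N : Dat E h} (F : DHom M N) (w : Car M) : (F.lin w).y = F.fY w.y := rfl

variable (E h) in
/-- the diagonal ring homomorphism `Γ → Λ` -/
noncomputable def θ : Γ →+* Lam E h where
  toFun g := Lam.mk (θ0 E h g)
  map_one' := rfl
  map_mul' a b := by
    refine ((ev_θ0 (θ0 E h b) a).trans ?_).symm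
    exact Car.ext (Prod.ext (Prod.ext rfl (mul_zero a)) (smul_zero a)) (Prod.ext rfl (mul_zero a))
  map_zero' := rfl
  map_add' a b := Car.ext (Prod.ext (Prod.ext rfl (add_zero _).symm) (add_zero _).symm)
    (Prod.ext rfl (add_zero _).symm)

lemma θ_smul {N : Dat E h} (g : Γ) (w : Car N) : θ E h g • w = Car.mk (g • w.x) (g • w.y) :=
  ev_θ0 w g

lemma ev_smul {N : Dat E h} (c : k) (w : Car N) (l : Car (PD0 E h)) :
    (ev (θ E h (algebraMap k Γ c) • w)).app l = θ E h (algebraMap k Γ c) • (ev w).app l := by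
  rw [θ_smul, θ_smul]
  ext
  · change a0 l • c • w.x + N.εX (a1 l • c • w.x) + lJX N (ρ (c • w.y)) (aJ l) =
      c • ((ev w).app l).x
    rw [lJX_smul N (s := ρ (c • w.y)) (φ := ρ w.y) (c := c) (fun g => smul_comm g c w.y), ev_x,
      smul_add, smul_add, ← N.εX.map_smul_of_tower, smul_comm c, smul_comm c]
  · change b0 l • c • w.y + N.εY (b1 l • c • w.y) = c • ((ev w).app l).y
    rw [ev_y, smul_add, ← LinearMap.map_smul_of_tower, smul_comm c, smul_comm c]

noncomputable instance : Algebra k (Lam E h) :=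
  ((θ E h).comp (algebraMap k Γ)).toAlgebra' fun c l => (ev_smul c (θ0 E h 1) l.car |>.trans
    (congrArg (θ E h (algebraMap k Γ c) • ·) (ev_one l.car))).symm.trans
      (congrArg (fun w => (ev w).app l.car) (ev_one (θ0 E h (algebraMap k Γ c))))

lemma algebraMap_Lam (c : k) : algebraMap k (Lam E h) c = θ E h (algebraMap k Γ c) := rfl

variable (E h) in
/-- restriction along `θ` -/
noncomputable abbrev Res : ModuleCat.{u} (Lam E h) ⥤ ModuleCat.{u} Γ :=
  ModuleCat.restrictScalars (θ E h)

/-- the module attached to data -/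
noncomputable abbrev Dat.mod (N : Dat E h) : ModuleCat.{u} (Lam E h) := ModuleCat.of _ (Car N)

/-- the restriction of the module attached to data -/
noncomputable def resEquiv (N : Dat E h) :
    (Res E h).obj N.mod ≃ₗ[Γ] (N.X × N.Y) where
  toFun w := (Car.x w, Car.y w)
  invFun w := Car.mk w.1 w.2
  map_add' _ _ := rfl
  map_smul' g w := θ_smul (N := N) g w
  left_inv _ := rfl
  right_inv _ := rfl

variable (E h) in
/-- `Λ` is the module attached to `PD0` -/
noncomputable def regEquiv : Lam E h ≃ₗ[Lam E h] Car (PD0 E h) where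
  toFun := Lam.car
  invFun := Lam.mk
  map_add' _ _ := rfl
  map_smul' _ _ := rfl
  left_inv _ := rfl
  right_inv _ := rfl

variable (E h) in
/-- the element `ε` -/
noncomputable def tt : Lam E h := Lam.mk (Car.mk ((0, 1), 0) (0, 1))

lemma tt_smul {N : Dat E h} (w : Car N) : tt E h • w = Car.mk (N.εX w.x) (N.εY w.y) := by
  ext
  · change (0 : Γ) • w.x + N.εX ((1 : Γ) • w.x) + lJX N (ρ w.y) 0 = N.εX w.x
    simp
  · change (0 : Γ) • w.y + N.εY ((1 : Γ) • w.y) = N.εY w.y
    simp

lemma tt_tt : tt E h * tt E h = 0 :=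
  (tt_smul (N := PD0 E h) (tt E h).car).trans
    (Car.ext (Prod.ext rfl (map_zero (εJ E h _))) rfl)

lemma tt_θ (g : Γ) : tt E h * θ E h g = θ E h g * tt E h := by
  refine (tt_smul (N := PD0 E h) (θ E h g).car).trans
    ((θ_smul (N := PD0 E h) g (tt E h).car).trans ?_).symm
  refine Car.ext (Prod.ext (Prod.ext (mul_zero g) (mul_one g)) ?_)
    (Prod.ext (mul_zero g) (mul_one g))
  exact (smul_zero g).trans (map_zero (εJ E h _)).symm

end Crest.Agent.R186
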