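import Crest.Agent.R186.Lam2
import Crest.Agent.R186.Ind

/-! The functors `iI`, `jI`, `Z` and the natural maps between them. -/

set_option autoImplicit false
open CategoryTheory Abelian
open scoped TensorProduct ModuleCat

namespace Crest.Agent.R186

open Crest.Agent.R178

universe u

variable {k : Type u} [Field k] {Γ : Type u} [Ring Γ] [Algebra k Γ]
variable {E : NatExt k Γ} {h : k} [hh : Fact (h ≠ 1)] {U V W : ModuleCat.{u} Γ}

/-! ### coordinates -/

/-- coordinates on `iI U` -/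
noncomputable def ix (w : Car (iI E h U)) : U × U := w.x
/-- constructor for `iI U` -/
noncomputable def imk (a : U × U) : Car (iI E h U) := Car.mk a PUnit.unit
/-- coordinates on `jI U` -/
noncomputable def jx (w : Car (jI E h U)) : JX E U := w.x
/-- coordinates on `jI U` -/
noncomputable def jy (w : Car (jI E h U)) : U × U := w.y
/-- constructor for `jI U` -/
noncomputable def jmk (a : JX E U) (b : U × U) : Car (jI E h U) := Car.mk a b

omit hh in
@[simp] lemma ix_imk (a : U × U) : ix (imk a : Car (iI E h U)) = a := rfl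
omit hh in
lemma iext {v w : Car (iI E h U)} (h1 : ix v = ix w) : v = w := Car.ext h1 rfl
omit hh in
@[simp] lemma ix_add (v w : Car (iI E h U)) : ix (v + w) = ix v + ix w := rfl
omit hh in
@[simp] lemma ix_zero : ix (0 : Car (iI E h U)) = 0 := rfl
@[simp] lemma jx_jmk (a : JX E U) (b : U × U) : jx (jmk a b : Car (jI E h U)) = a := rfl
@[simp] lemma jy_jmk (a : JX E U) (b : U × U) : jy (jmk a b : Car (jI E h U)) = b := rfl
lemma jext {v w : Car (jI E h U)} (h1 : jx v = jx w) (h2 : jy v = jy w) : v = w := Car.ext h1 h2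
@[simp] lemma jx_add (v w : Car (jI E h U)) : jx (v + w) = jx v + jx w := rfl
@[simp] lemma jy_add (v w : Car (jI E h U)) : jy (v + w) = jy v + jy w := rfl
@[simp] lemma jx_sub (v w : Car (jI E h U)) : jx (v - w) = jx v - jx w := rfl
@[simp] lemma jy_sub (v w : Car (jI E h U)) : jy (v - w) = jy v - jy w := rfl
@[simp] lemma jx_zero : jx (0 : Car (jI E h U)) = 0 := rfl
@[simp] lemma jy_zero : jy (0 : Car (jI E h U)) = 0 := rfl
lemma jext_iff {v w : Car (jI E h U)} : v = w ↔ jx v = jx w ∧ jy v = jy w :=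
  ⟨fun h => h ▸ ⟨rfl, rfl⟩, fun h => jext h.1 h.2⟩
omit hh in
lemma iext_iff {v w : Car (iI E h U)} : v = w ↔ ix v = ix w := ⟨fun h => h ▸ rfl, iext⟩

/-! ### functoriality -/

/-- `iI f` -/
noncomputable def mI (f : U →ₗ[Γ] V) : Car (iI E h U) →ₗ[Lam E h] Car (iI E h V) :=
  (liftI (iI E h V) (iD V ∘ₗ f)).lin

lemma ix_mI (f : U →ₗ[Γ] V) (w : Car (iI E h U)) : ix (mI f w) = (f (ix w).1, f (ix w).2) :=
  Prod.ext (add_zero _) (zero_add _)

/-- `jI f` -/
noncomputable def mJ (f : U →ₗ[Γ] V) : Car (jI E h U) →ₗ[Lam E h] Car (jI E h V) :=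
  (liftJ (jI E h V) (iD V ∘ₗ f)).lin

lemma jx_mJ (f : U →ₗ[Γ] V) (w : Car (jI E h U)) : jx (mJ f w) =
    (f (jx w).1, mp E.Lt f (jx w).2.1, mp E.Lt f (jx w).2.2.1, mp E.Lt f (jx w).2.2.2.1,
      mp E.L' f (jx w).2.2.2.2) := lJX_map f (fun _ => rfl) _

lemma jy_mJ (f : U →ₗ[Γ] V) (w : Car (jI E h U)) : jy (mJ f w) = (f (jy w).1, f (jy w).2) :=
  Prod.ext (add_zero _) (zero_add _)

variable (E h) in
/-- the functor `iI` -/
noncomputable def iIF : ModuleCat.{u} Γ ⥤ ModuleCat.{u} (Lam E h) where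
  obj U := (iI E h U).mod
  map f := ModuleCat.ofHom (mI f.hom)
  map_id U := by
    ext1; refine LinearMap.ext fun w => iext ?_
    exact ix_mI _ w
  map_comp f g := by
    ext1; refine LinearMap.ext fun w => iext ?_
    exact (ix_mI _ w).trans (by
      change _ = ix (mI g.hom (mI f.hom w))
      rw [ix_mI, ix_mI]; rfl)

variable (E h) in
/-- the functor `jI` -/
noncomputable def jIF : ModuleCat.{u} Γ ⥤ ModuleCat.{u} (Lam E h) where
  obj U := (jI E h U).mod
  map f := ModuleCat.ofHom (mJ f.hom)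
  map_id U := by
    ext1; refine LinearMap.ext fun w => jext ?_ (jy_mJ _ w)
    refine (jx_mJ _ w).trans ?_
    simp only [mp_id' (f := ModuleCat.Hom.hom (𝟙 U)) _ (fun _ => rfl)]
    rfl
  map_comp f g := by
    ext1; refine LinearMap.ext fun w => jext ?_ ?_
    · refine (jx_mJ _ w).trans ?_
      change _ = jx (mJ g.hom (mJ f.hom w))
      rw [jx_mJ, jx_mJ]
      simp only [mp_mp]
      rfl
    · refine (jy_mJ _ w).trans ?_
      change _ = jy (mJ g.hom (mJ f.hom w))
      rw [jy_mJ, jy_mJ]; rfl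

instance : (iIF E h).Additive where
  map_add {U V f g} := by
    ext1; refine LinearMap.ext fun w => iext ?_
    refine (ix_mI _ w).trans ?_
    change _ = ix (mI f.hom w) + ix (mI g.hom w)
    rw [ix_mI, ix_mI]; rfl

instance : (jIF E h).Additive where
  map_add {U V f g} := by
    ext1; refine LinearMap.ext fun w => jext ?_ ?_
    · refine (jx_mJ _ w).trans ?_
      change _ = jx (mJ f.hom w) + jx (mJ g.hom w)
      rw [jx_mJ, jx_mJ]
      simp only [mp_add' (s := (f + g).hom) (f := f.hom) (g := g.hom) _ (fun _ => rfl)]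
      rfl
    · refine (jy_mJ _ w).trans ?_
      change _ = jy (mJ f.hom w) + jy (mJ g.hom w)
      rw [jy_mJ, jy_mJ]; rfl

lemma exF_iI : ExF (iIF E h) := fun A B C f g hf hfg hg => by
  refine ⟨fun v w hvw => ?_, fun w => ⟨fun hw => ?_, ?_⟩, fun w => ?_⟩
  · have := congrArg ix hvw
    erw [ix_mI, ix_mI] at this
    exact iext (Prod.ext (hf (congrArg Prod.fst this)) (hf (congrArg Prod.snd this)))
  · have := congrArg ix hw
    erw [ix_mI] at this
    obtain ⟨a, ha⟩ := (hfg _).1 (congrArg Prod.fst this)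
    obtain ⟨b, hb⟩ := (hfg _).1 (congrArg Prod.snd this)
    exact ⟨imk (a, b), iext ((ix_mI _ _).trans (Prod.ext ha hb))⟩
  · rintro ⟨v, rfl⟩
    refine iext ((ix_mI _ _).trans ?_)
    erw [ix_mI]
    exact Prod.ext (hfg.apply_apply_eq_zero _) (hfg.apply_apply_eq_zero _)
  · obtain ⟨a, ha⟩ := hg (ix w).1
    obtain ⟨b, hb⟩ := hg (ix w).2
    exact ⟨imk (a, b), iext ((ix_mI _ _).trans (Prod.ext ha hb))⟩

lemma exF_jI : ExF (jIF E h) := fun A B C f g hf hfg hg => by
  obtain ⟨p1, p2, p3⟩ := E.exLt f g hf hfg hg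
  obtain ⟨q1, q2, q3⟩ := E.exL' f g hf hfg hg
  refine ⟨fun v w hvw => ?_, fun w => ⟨fun hw => ?_, ?_⟩, fun w => ?_⟩
  · have h1 := congrArg jx hvw
    have h2 := congrArg jy hvw
    erw [jx_mJ, jx_mJ] at h1
    erw [jy_mJ, jy_mJ] at h2
    simp only [Prod.mk.injEq] at h1 h2
    exact jext (Prod.ext (hf h1.1) (Prod.ext (p1 h1.2.1) (Prod.ext (p1 h1.2.2.1)
      (Prod.ext (p1 h1.2.2.2.1) (q1 h1.2.2.2.2))))) (Prod.ext (hf h2.1) (hf h2.2))
  · have h1 := congrArg jx hw
    have h2 := congrArg jy hw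
    erw [jx_mJ] at h1
    erw [jy_mJ] at h2
    obtain ⟨a, ha⟩ := (hfg _).1 (congrArg Prod.fst h1)
    obtain ⟨b, hb⟩ := (p2 _).1 congr($h1.2.1)
    obtain ⟨c, hc⟩ := (p2 _).1 congr($h1.2.2.1)
    obtain ⟨d, hd⟩ := (p2 _).1 congr($h1.2.2.2.1)
    obtain ⟨e, he⟩ := (q2 _).1 congr($h1.2.2.2.2)
    obtain ⟨y, hy⟩ := (hfg _).1 (congrArg Prod.fst h2)
    obtain ⟨z, hz⟩ := (hfg _).1 (congrArg Prod.snd h2)
    exact ⟨jmk (a, b, c, d, e) (y, z), jext ((jx_mJ _ _).trans (Prod.ext ha (Prod.ext hb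
      (Prod.ext hc (Prod.ext hd he))))) ((jy_mJ _ _).trans (Prod.ext hy hz))⟩
  · rintro ⟨v, rfl⟩
    refine jext ((jx_mJ _ _).trans ?_) ((jy_mJ _ _).trans ?_)
    · erw [jx_mJ]
      exact Prod.ext (hfg.apply_apply_eq_zero _) (Prod.ext (p2.apply_apply_eq_zero _)
        (Prod.ext (p2.apply_apply_eq_zero _) (Prod.ext (p2.apply_apply_eq_zero _)
        (q2.apply_apply_eq_zero _))))
    · erw [jy_mJ]
      exact Prod.ext (hfg.apply_apply_eq_zero _) (hfg.apply_apply_eq_zero _)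
  · obtain ⟨a, ha⟩ := hg (jx w).1
    obtain ⟨b, hb⟩ := p3 (jx w).2.1
    obtain ⟨c, hc⟩ := p3 (jx w).2.2.1
    obtain ⟨d, hd⟩ := p3 (jx w).2.2.2.1
    obtain ⟨e, he⟩ := q3 (jx w).2.2.2.2
    obtain ⟨y, hy⟩ := hg (jy w).1
    obtain ⟨z, hz⟩ := hg (jy w).2
    exact ⟨jmk (a, b, c, d, e) (y, z), jext ((jx_mJ _ _).trans (Prod.ext ha (Prod.ext hb
      (Prod.ext hc (Prod.ext hd he))))) ((jy_mJ _ _).trans (Prod.ext hy hz))⟩

/-! ### right multiplication by `ε` -/

/-- right multiplication by `ε` on `iI U` -/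
noncomputable def rI (U : ModuleCat.{u} Γ) : Car (iI E h U) →ₗ[Lam E h] Car (iI E h U) :=
  (liftI (iI E h U) (εD U ∘ₗ iD U)).lin

lemma ix_rI (w : Car (iI E h U)) : ix (rI U w) = (0, (ix w).1) :=
  Prod.ext (add_zero _) (add_zero _)

/-- right multiplication by `ε` on `jI U` -/
noncomputable def rJ (U : ModuleCat.{u} Γ) : Car (jI E h U) →ₗ[Lam E h] Car (jI E h U) :=
  (liftJ (jI E h U) (εD U ∘ₗ iD U)).lin

lemma jx_rJ (w : Car (jI E h U)) : jx (rJ U w) = (0, 0, -((h - 1)⁻¹ • E.jj U (jx w).1),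
    ((h - 1)⁻¹ * h) • E.jj U (jx w).1 + (jx w).2.1, E.pp U (jx w).2.2.1) :=
  lJX_eps (fun _ => rfl) _

lemma jy_rJ (w : Car (jI E h U)) : jy (rJ U w) = (0, (jy w).1) :=
  Prod.ext (add_zero _) (add_zero _)

lemma rI_exact : Function.Exact (rI (E := E) (h := h) U) (rI U) := fun w => by
  constructor
  · intro hw
    have := congrArg ix hw
    rw [ix_rI] at this
    exact ⟨imk ((ix w).2, 0), iext ((ix_rI _).trans (Prod.ext (congrArg Prod.snd this).symm rfl))⟩
  · rintro ⟨v, rfl⟩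
    exact iext (by rw [ix_rI, ix_rI]; rfl)

lemma c_ne : (h - 1)⁻¹ ≠ 0 := inv_ne_zero (sub_ne_zero.2 hh.out)

lemma mem_range_rJ (w : Car (jI E h U)) : (∃ v, rJ U v = w) ↔
    (jx w).1 = 0 ∧ (jx w).2.1 = 0 ∧ E.pp U (jx w).2.2.1 = 0 ∧ (jy w).1 = 0 := by
  constructor
  · rintro ⟨v, rfl⟩
    rw [jx_rJ, jy_rJ]
    simp
  · rintro ⟨h1, h2, h3, h4⟩
    obtain ⟨a, ha⟩ := (E.jp_exact _).1 h3
    obtain ⟨b, hb⟩ := E.pp_surj (jx w).2.2.2.2
    refine ⟨jmk (-((h - 1) • a), (jx w).2.2.2.1 + h • E.jj U a, b, 0, 0) ((jy w).2, 0),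
      jext ?_ ?_⟩
    · have : h - 1 ≠ 0 := sub_ne_zero.2 hh.out
      rw [jx_rJ]
      refine Prod.ext h1.symm (Prod.ext h2.symm (Prod.ext ?_ (Prod.ext ?_ hb)))
      · simp only [jx_jmk, map_neg, LinearMap.map_smul_of_tower, ← ha]
        match_scalars; field_simp
      · simp only [jx_jmk, map_neg, LinearMap.map_smul_of_tower]
        match_scalars <;> field_simp; ring
    · rw [jy_rJ]; exact Prod.ext h4.symm rfl

lemma rJ_exact : Function.Exact (rJ (E := E) (h := h) U) (rJ U) := fun w => by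
  refine Iff.trans ?_ (mem_range_rJ w).symm
  rw [jext_iff, jx_rJ, jy_rJ]
  simp only [jx_zero, jy_zero, Prod.mk_eq_zero, true_and, neg_eq_zero]
  constructor
  · rintro ⟨⟨h1, h2, h3⟩, h4⟩
    have h5 : (jx w).1 = 0 := E.jj_inj (by
      rw [map_zero]; exact (smul_eq_zero.1 h1).resolve_left c_ne)
    rw [h5, map_zero, smul_zero, zero_add] at h2
    exact ⟨h5, h2, h3, h4⟩
  · rintro ⟨h1, h2, h3, h4⟩
    simp [h1, h2, h3, h4]

variable (E h) in
/-- `iI` as an induction functor -/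
noncomputable def indI : Ind (θ E h) (tt E h) where
  J := iIF E h
  ex := exF_iI
  η U :=
    { toFun := fun x => imk (x, 0)
      map_zero' := rfl
      map_add' := fun a b => iext (Prod.ext rfl (add_zero _).symm) }
  η_smul U g x := by
    refine ((θ_smul (N := iI E h U) g (imk (x, 0))).trans ?_).symm
    exact iext (Prod.ext rfl (smul_zero g))
  η_nat f x := iext ((ix_mI f _).trans (Prod.ext rfl (map_zero f)))
  inc := (regEquiv E h).symm.toLinearMap ∘ₗ (inlX (G0 Γ) (jI E h (G0 Γ))).lin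
  inc_smul w := by
    refine iext ((ev_x (N := iI E h (G0 Γ)) (imk (1, 0)) _).trans ?_)
    refine Eq.trans (congrArg (_ + ·) (map_zero (lJX _ _))) ?_
    refine Prod.ext ?_ ?_
    · change (ix w).1 * 1 + 0 + 0 = (ix w).1
      simp
    · change (ix w).1 * 0 + (ix w).2 * 1 + 0 = (ix w).2
      simp
  e_θ g := by
    refine (θ_smul (N := PD0 E h) g _).trans (Car.ext ?_ ?_)
    · refine ((ev_x _ _).trans ?_).symm
      refine Eq.trans (congrArg (_ + ·) (map_zero (lJX _ _))) ?_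
      refine Prod.ext (Prod.ext ?_ ?_) ?_
      · change 1 * g + 0 + 0 = g * 1
        simp
      · change 1 * 0 + 0 * g + 0 = g * 0
        simp
      · have : (1 : Γ) • (0 : JX E (G0 Γ)) + εJ E h (G0 Γ) ((0 : Γ) • (0 : JX E (G0 Γ))) + 0 =
          g • 0 := by simp
        exact this
    · refine Prod.ext ?_ ?_
      · change g * 0 = 0 * g + 0
        simp
      · change g * 0 = 0 * 0 + 0 * g
        simp
  e_t := by
    refine (tt_smul (N := PD0 E h) _).trans (Car.ext ?_ ?_)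
    · refine ((ev_x _ _).trans ?_).symm
      refine Eq.trans (congrArg (_ + ·) (map_zero (lJX _ _))) ?_
      refine Prod.ext (Prod.ext ?_ ?_) ?_
      · change (1 : Γ) * 0 + 0 + 0 = 0
        simp
      · change (1 : Γ) * 1 + 0 * 0 + 0 = 1
        simp
      · have : (1 : Γ) • (0 : JX E (G0 Γ)) + εJ E h (G0 Γ) ((0 : Γ) • (0 : JX E (G0 Γ))) + 0 =
          εJ E h (G0 Γ) 0 := by simp
        exact this
    · refine Prod.ext ?_ ?_
      · change (0 : Γ) = 0 * 0 + 0
        simp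
      · change (0 : Γ) = 0 * 1 + 0 * 0
        simp
  r := rI
  r_nat f x := iext (by
    change ix (mI f (rI _ x)) = ix (rI _ (mI f x))
    rw [ix_mI, ix_rI, ix_rI, ix_mI, map_zero])
  r_η U x := ((tt_smul (N := iI E h U) (imk (x, 0))).trans (iext (ix_rI _).symm)).symm
  r_exact U := rI_exact

variable (E h) in
/-- `jI` as an induction functor -/
noncomputable def indJ : Ind (θ E h) (tt E h) where
  J := jIF E h
  ex := exF_jI
  η U :=
    { toFun := fun x => jmk 0 (x, 0)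
      map_zero' := rfl
      map_add' := fun a b => jext (add_zero _).symm (Prod.ext rfl (add_zero _).symm) }
  η_smul U g x := by
    refine ((θ_smul (N := jI E h U) g (jmk 0 (x, 0))).trans ?_).symm
    exact jext (smul_zero g) (Prod.ext rfl (smul_zero g))
  η_nat f x := jext ((jx_mJ f _).trans (by simp))
    ((jy_mJ f _).trans (Prod.ext rfl (map_zero f)))
  inc := (regEquiv E h).symm.toLinearMap ∘ₗ (inrX (G0 Γ) (jI E h (G0 Γ))).lin
  inc_smul w := by
    refine jext ((ev_x (N := jI E h (G0 Γ)) (jmk 0 (1, 0)) _).trans ?_) ?_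
    · rw [lJX_map LinearMap.id (fun g => Prod.ext (mul_one g) (mul_zero g))]
      simp only [mp_id' (f := LinearMap.id) _ (fun _ => rfl)]
      have : (0 : Γ) • (0 : JX E (G0 Γ)) + εJ E h (G0 Γ) ((0 : Γ) • (0 : JX E (G0 Γ))) + jx w =
          jx w := by simp
      exact this
    · refine Prod.ext ?_ ?_
      · change (jy w).1 * 1 + 0 = (jy w).1
        simp
      · change (jy w).1 * 0 + (jy w).2 * 1 = (jy w).2
        simp
  e_θ g := by
    refine (θ_smul (N := PD0 E h) g _).trans (Car.ext ?_ ?_)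
    · refine ((ev_x _ _).trans ?_).symm
      refine Eq.trans (congrArg (_ + ·) (map_zero (lJX _ _))) ?_
      refine Prod.ext (Prod.ext ?_ ?_) ?_
      · change 0 * g + 0 + 0 = g * 0
        simp
      · change 0 * 0 + 0 * g + 0 = g * 0
        simp
      · have : (0 : Γ) • (0 : JX E (G0 Γ)) + εJ E h (G0 Γ) ((0 : Γ) • (0 : JX E (G0 Γ))) + 0 =
          g • 0 := by simp
        exact this
    · refine Prod.ext ?_ ?_
      · change g * 1 = 1 * g + 0
        simp
      · change g * 0 = 1 * 0 + 0 * g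
        simp
  e_t := by
    refine (tt_smul (N := PD0 E h) _).trans (Car.ext ?_ ?_)
    · refine ((ev_x _ _).trans ?_).symm
      refine Eq.trans (congrArg (_ + ·) (map_zero (lJX _ _))) ?_
      refine Prod.ext (Prod.ext ?_ ?_) ?_
      · change (0 : Γ) * 0 + 0 + 0 = 0
        simp
      · change (0 : Γ) * 1 + 0 * 0 + 0 = 0
        simp
      · have : (0 : Γ) • (0 : JX E (G0 Γ)) + εJ E h (G0 Γ) ((0 : Γ) • (0 : JX E (G0 Γ))) + 0 =
          εJ E h (G0 Γ) 0 := by simp
        exact this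
    · refine Prod.ext ?_ ?_
      · change (0 : Γ) = 1 * 0 + 0
        simp
      · change (1 : Γ) = 1 * 1 + 0 * 0
        simp
  r := rJ
  r_nat f x := by
    refine jext ?_ ?_
    · change jx (mJ f (rJ _ x)) = jx (rJ _ (mJ f x))
      rw [jx_mJ, jx_rJ, jx_rJ, jx_mJ]
      simp [E.mp_jj, E.mp_pp]
    · change jy (mJ f (rJ _ x)) = jy (rJ _ (mJ f x))
      rw [jy_mJ, jy_rJ, jy_rJ, jy_mJ, map_zero]
  r_η U x := by
    refine ((tt_smul (N := jI E h U) (jmk 0 (x, 0))).trans (jext ?_ (jy_rJ _).symm)).symm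
    refine (map_zero (εJ E h U)).trans ((jx_rJ (jmk 0 (x, 0))).trans ?_).symm
    simp
  r_exact U := rJ_exact

end Crest.Agent.R186
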