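import Crest.Agent.R186.Lam3

/-! The modules `Z, W, D, W♭` and the short exact sequences between them. -/

set_option autoImplicit false
open CategoryTheory Abelian
open scoped TensorProduct ModuleCat

namespace Crest.Agent.R186

open Crest.Agent.R178

universe u

variable {k : Type u} [Field k] {Γ : Type u} [Ring Γ] [Algebra k Γ]
variable {E : NatExt k Γ} {h : k} {U V W : ModuleCat.{u} Γ}

variable (E h) in
/-- the data `(U, U, α = 1, γ = -1, ψ = 0)` -/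
noncomputable def ZD (U : ModuleCat.{u} Γ) : Dat E h where
  X := U
  Y := U
  εX := 0
  εY := 0
  α := LinearMap.id
  ψ := 0
  ψ₂ := 0
  εX2 _ := rfl
  εY2 _ := rfl
  εα _ := rfl
  εψ _ := by simp
  hψ₂ _ := rfl

/-- functoriality of `ZD` -/
noncomputable def mZ (f : U →ₗ[Γ] V) : DHom (ZD E h U) (ZD E h V) where
  fX := f
  fY := f
  hεX _ := map_zero f
  hεY _ := map_zero f
  hα _ := rfl
  hψ _ := map_zero f

variable [hh : Fact (h ≠ 1)]

variable (E h) in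
/-- the functor `Z` -/
noncomputable def ZF : ModuleCat.{u} Γ ⥤ ModuleCat.{u} (Lam E h) where
  obj U := (ZD E h U).mod
  map f := ModuleCat.ofHom (mZ f.hom).lin

lemma exF_Z : ExF (ZF E h) := fun A B C f g hf hfg hg => by
  refine ⟨fun v w hvw => Car.ext (hf (congrArg Car.x hvw)) (hf (congrArg Car.y hvw)),
    fun w => ⟨fun hw => ?_, ?_⟩, fun w => ?_⟩
  · obtain ⟨a, ha⟩ := (hfg _).1 (congrArg Car.x hw)
    obtain ⟨b, hb⟩ := (hfg _).1 (congrArg Car.y hw)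
    exact ⟨Car.mk (N := ZD E h A) a b, Car.ext ha hb⟩
  · rintro ⟨v, rfl⟩
    exact Car.ext (hfg.apply_apply_eq_zero _) (hfg.apply_apply_eq_zero _)
  · obtain ⟨a, ha⟩ := hg (Car.x w)
    obtain ⟨b, hb⟩ := hg (Car.y w)
    exact ⟨Car.mk (N := ZD E h B) a b, Car.ext ha hb⟩

lemma retr_res_Z (U : ModuleCat.{u} Γ) :
    Retr ((Res E h).obj ((ZF E h).obj U)) (ModuleCat.of Γ (U × U)) :=
  Retr.of_equiv (resEquiv (ZD E h U))

lemma finF_Z : FinF (ZF E h) := fun U hU =>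
  fin_of_res (θ E h) _ ((retr_res_Z U).fin inferInstance)

variable (E h) in
/-- `a + μ c` -/
noncomputable def mm (μ : k) (U : ModuleCat.{u} Γ) : Car (iI E h U) →ₗ[Lam E h] Car (jI E h U) :=
  (liftI (jI E h U)
    { toFun := fun x => (((1 - μ) • x, μ • E.jj U x, 0, 0, 0) : JX E U)
      map_add' := fun a b => by
        change _ = ((_ : JX E U) + (_ : JX E U))
        simp
      map_smul' := fun g a => by
        change _ = (g • (_ : JX E U))
        simp [smul_comm g] }).lin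

lemma jx_mm (μ : k) (w : Car (iI E h U)) : jx (mm E h μ U w) =
    ((1 - μ) • (ix w).1, μ • E.jj U (ix w).1, (μ - (h - 1)⁻¹ * (1 - μ)) • E.jj U (ix w).2,
      ((h - 1)⁻¹ * h * (1 - μ)) • E.jj U (ix w).2, 0) := by
  change (((1 - μ) • (ix w).1, μ • E.jj U (ix w).1, 0, 0, 0) : JX E U) +
    εJ E h U ((1 - μ) • (ix w).2, μ • E.jj U (ix w).2, 0, 0, 0) = _
  simp [εJ_apply, sub_smul, smul_smul, mul_sub, smul_sub]

lemma jy_mm (μ : k) (w : Car (iI E h U)) : jy (mm E h μ U w) = 0 := rfl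

variable (E h) in
/-- `ψ` -/
noncomputable def nn (U : ModuleCat.{u} Γ) :
    Car (iI E h (E.Lt.obj U)) →ₗ[Lam E h] Car (jI E h U) :=
  (liftI (jI E h U)
    { toFun := fun x => ((0, x, 0, 0, 0) : JX E U)
      map_add' := fun a b => by
        change _ = ((_ : JX E U) + (_ : JX E U))
        simp
      map_smul' := fun g a => by
        change _ = (g • (_ : JX E U))
        simp }).lin

lemma jx_nn (w : Car (iI E h (E.Lt.obj U))) : jx (nn E h U w) = (0, (ix w).1, (ix w).2, 0, 0) := by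
  change ((0, (ix w).1, 0, 0, 0) : JX E U) + εJ E h U (0, (ix w).2, 0, 0, 0) = _
  simp [εJ_apply]

lemma jy_nn (w : Car (iI E h (E.Lt.obj U))) : jy (nn E h U w) = 0 := rfl

/-- the map `jI U → Z V` induced by `f` -/
noncomputable def zz (f : U →ₗ[Γ] V) : Car (jI E h U) →ₗ[Lam E h] Car (ZD E h V) :=
  (liftJ (ZD E h V) f).lin

lemma zz_x (f : U →ₗ[Γ] V) (w : Car (jI E h U)) : (zz f w).x = f (jx w).1 := by
  change f (jx w).1 + 0 + 0 + 0 + 0 = _
  simp

lemma zz_y (f : U →ₗ[Γ] V) (w : Car (jI E h U)) : (zz f w).y = f (jy w).1 := add_zero _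

lemma zz_eq_zero (w : Car (jI E h U)) :
    zz (LinearMap.id : U →ₗ[Γ] U) w = 0 ↔ (jx w).1 = 0 ∧ (jy w).1 = 0 := by
  constructor
  · intro hw
    exact ⟨(zz_x _ w).symm.trans (congrArg Car.x hw), (zz_y _ w).symm.trans (congrArg Car.y hw)⟩
  · rintro ⟨h1, h2⟩
    exact Car.ext ((zz_x _ w).trans h1) ((zz_y _ w).trans h2)

lemma zz_surj : Function.Surjective (zz (E := E) (h := h) (LinearMap.id : U →ₗ[Γ] U)) := fun w =>
  ⟨jmk (w.x, 0) (w.y, 0), Car.ext (zz_x _ _) (zz_y _ _)⟩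

lemma mm_nat (μ : k) (f : U →ₗ[Γ] V) (w : Car (iI E h U)) :
    mm E h μ V (mI f w) = mJ f (mm E h μ U w) := by
  refine jext ?_ ?_
  · rw [jx_mm, jx_mJ, jx_mm, ix_mI]
    simp [E.mp_jj]
  · rw [jy_mm, jy_mJ, jy_mm]
    exact Prod.ext (map_zero f).symm (map_zero f).symm

lemma mm_rI (μ : k) (w : Car (iI E h U)) : mm E h μ U (rI U w) = rJ U (mm E h (μ * h) U w) := by
  have : h - 1 ≠ 0 := sub_ne_zero.2 hh.out
  refine jext ?_ ?_
  · rw [jx_mm, jx_rJ, jx_mm, ix_rI]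
    simp only [smul_zero, map_zero, LinearMap.map_smul_of_tower, E.pp_jj, Prod.mk.injEq, true_and,
      and_true]
    constructor <;> match_scalars <;> field_simp <;> ring
  · rw [jy_mm, jy_rJ, jy_mm]; rfl

lemma mm_fst (μ : k) (w : Car (iI E h U)) (h1 : (jx (mm E h μ U w)).1 = 0)
    (h2 : (jx (mm E h μ U w)).2.1 = 0) : (ix w).1 = 0 := by
  rw [jx_mm] at h1 h2
  have h3 : μ • (ix w).1 = 0 := E.jj_inj (by rw [LinearMap.map_smul_of_tower, map_zero]; exact h2)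
  have h4 : (1 - μ) • (ix w).1 = 0 := h1
  rwa [sub_smul, h3, sub_zero, one_smul] at h4

lemma mm_range (μ : k) (w : Car (iI E h U)) (hw : ∃ v, rJ U v = mm E h μ U w) :
    ∃ v, rI U v = w := by
  obtain ⟨h1, h2, -⟩ := (mem_range_rJ _).1 hw
  exact (rI_exact w).1 (iext (by rw [ix_rI, mm_fst μ w h1 h2]; rfl))

lemma mm_inj (h0 : h ≠ 0) (μ : k) : Function.Injective (mm E h μ U) := by
  rw [injective_iff_map_eq_zero]
  intro w hw
  have h1 := mm_fst μ w (by rw [hw]; rfl) (by rw [hw]; rfl)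
  have h2 := congrArg jx hw
  rw [jx_mm] at h2
  have h3 : (μ - (h - 1)⁻¹ * (1 - μ)) • E.jj U (ix w).2 = 0 := congr($h2.2.2.1)
  have h4 : ((h - 1)⁻¹ * h * (1 - μ)) • E.jj U (ix w).2 = 0 := congr($h2.2.2.2.1)
  have h5 : E.jj U (ix w).2 = 0 := by
    by_contra hne
    have a3 := (smul_eq_zero.1 h3).resolve_right hne
    have a4 := (smul_eq_zero.1 h4).resolve_right hne
    have a5 : 1 - μ = 0 := (mul_eq_zero.1 a4).resolve_left (mul_ne_zero c_ne h0)
    rw [a5, mul_zero, sub_zero] at a3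
    rw [a3, sub_zero] at a5
    exact one_ne_zero a5
  exact iext (Prod.ext h1 (E.jj_inj (h5.trans (map_zero _).symm)))

lemma nn_inj : Function.Injective (nn E h U) := fun v w hvw => by
  have := congrArg jx hvw
  rw [jx_nn, jx_nn] at this
  exact iext (Prod.ext congr($this.2.1) congr($this.2.2.1))

lemma nn_jj (w : Car (iI E h U)) : nn E h U (mI (E.jj U) w) = mm E h 1 U w := by
  refine jext ?_ rfl
  rw [jx_nn, jx_mm, ix_mI]
  simp

variable (E h) in
/-- `W̃_μ U` -/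
noncomputable abbrev WW (μ : k) (U : ModuleCat.{u} Γ) : ModuleCat.{u} (Lam E h) :=
  Cok (A := (iIF E h).obj U) (B := (jIF E h).obj U) (mm E h μ U)

variable (E h) in
/-- `D̃_μ U` -/
noncomputable abbrev DD (μ : k) (U : ModuleCat.{u} Γ) : ModuleCat.{u} (Lam E h) :=
  ModuleCat.of _ (Car (jI E h U) ⧸ (LinearMap.range (mm E h μ U) ⊔ LinearMap.range (rJ U)))

variable (E h) in
/-- `W♭ U` -/
noncomputable abbrev Wb (U : ModuleCat.{u} Γ) : ModuleCat.{u} (Lam E h) :=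
  Cok (A := (iIF E h).obj (E.Lt.obj U)) (B := (jIF E h).obj U) (nn E h U)

lemma mkD_eq_zero (μ : k) (w : Car (jI E h U)) :
    (LinearMap.range (mm E h μ U) ⊔ LinearMap.range (rJ U)).mkQ w = 0 ↔
      ∃ a b, mm E h μ U a + rJ U b = w := by
  rw [Submodule.mkQ_apply, Submodule.Quotient.mk_eq_zero, Submodule.mem_sup]
  constructor
  · rintro ⟨_, ⟨a, rfl⟩, _, ⟨b, rfl⟩, hab⟩; exact ⟨a, b, hab⟩
  · rintro ⟨a, b, hab⟩; exact ⟨_, ⟨a, rfl⟩, _, ⟨b, rfl⟩, hab⟩

lemma mkQ_range_eq_zero {R : Type u} [Ring R] {A B : Type u} [AddCommGroup A] [Module R A]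
    [AddCommGroup B] [Module R B] (f : A →ₗ[R] B) (y : B) :
    (LinearMap.range f).mkQ y = 0 ↔ ∃ x, f x = y := Submodule.Quotient.mk_eq_zero _

lemma mkQ_range_eq {R : Type u} [Ring R] {A B : Type u} [AddCommGroup A] [Module R A]
    [AddCommGroup B] [Module R B] (f : A →ₗ[R] B) (y z : B) :
    (LinearMap.range f).mkQ y = (LinearMap.range f).mkQ z ↔ ∃ x, f x + z = y := by
  rw [← sub_eq_zero, ← map_sub, mkQ_range_eq_zero]
  exact exists_congr fun x => eq_sub_iff_add_eq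

lemma ses_W (h0 : h ≠ 0) (μ : k) (U : ModuleCat.{u} Γ) :
    SES ((iIF E h).obj U) ((jIF E h).obj U) (WW E h μ U) :=
  SES.coker (A := (iIF E h).obj U) (B := (jIF E h).obj U) _ (mm_inj h0 μ)

lemma ses_Wb (U : ModuleCat.{u} Γ) :
    SES ((iIF E h).obj (E.Lt.obj U)) ((jIF E h).obj U) (Wb E h U) :=
  SES.coker (A := (iIF E h).obj (E.Lt.obj U)) (B := (jIF E h).obj U) _ nn_inj

lemma ses_DWD (μ : k) (U : ModuleCat.{u} Γ) :
    SES (DD E h (μ * h) U) (WW E h μ U) (DD E h μ U) := by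
  refine SES.of_quot (A := (jI E h U).mod) (B := (jI E h U).mod) (rJ U) (Submodule.mkQ _)
    (LinearMap.range (mm E h μ U)).mkQ (Submodule.mkQ _) (Submodule.mkQ_surjective _)
    (Submodule.mkQ_surjective _) (Submodule.mkQ_surjective _) (fun x => ?_) (fun y => ?_)
  · refine (mkQ_range_eq_zero _ _).trans (Iff.trans ?_ (mkD_eq_zero _ _).symm)
    constructor
    · rintro ⟨y, hy⟩
      obtain ⟨v, rfl⟩ := mm_range μ y ⟨x, hy.symm⟩
      rw [mm_rI] at hy
      obtain ⟨b, hb⟩ := (rJ_exact (x - mm E h (μ * h) U v)).1 (by rw [map_sub, hy, sub_self])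
      exact ⟨v, b, by rw [hb, add_sub_cancel]⟩
    · rintro ⟨a, b, rfl⟩
      exact ⟨rI U a, by rw [mm_rI, map_add, rJ_exact.apply_apply_eq_zero, add_zero]⟩
  · refine (mkD_eq_zero _ _).trans ?_
    constructor
    · rintro ⟨a, b, rfl⟩; exact ⟨b, (mkQ_range_eq _ _ _).2 ⟨a, rfl⟩⟩
    · rintro ⟨b, hb⟩
      obtain ⟨a, ha⟩ := (mkQ_range_eq _ _ _).1 hb
      exact ⟨a, b, ha⟩

lemma ses_QQD (μ : k) (U : ModuleCat.{u} Γ) :
    SES ((indI E h).Q U) ((indJ E h).Q U) (DD E h μ U) := by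
  refine SES.of_quot (A := (iI E h U).mod) (B := (jI E h U).mod) (mm E h μ U)
    (LinearMap.range (rI U)).mkQ (LinearMap.range (rJ U)).mkQ (Submodule.mkQ _)
    (Submodule.mkQ_surjective _)
    (Submodule.mkQ_surjective _) (Submodule.mkQ_surjective _) (fun x => ?_) (fun y => ?_)
  · refine (mkQ_range_eq_zero _ _).trans (Iff.trans ?_ (mkQ_range_eq_zero _ _).symm)
    refine ⟨mm_range μ x, ?_⟩
    rintro ⟨v, rfl⟩
    exact ⟨_, (mm_rI μ v).symm⟩
  · refine (mkD_eq_zero _ _).trans ?_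
    constructor
    · rintro ⟨a, b, rfl⟩; exact ⟨a, (mkQ_range_eq _ _ _).2 ⟨b, add_comm _ _⟩⟩
    · rintro ⟨a, ha⟩
      obtain ⟨b, hb⟩ := (mkQ_range_eq _ _ _).1 ha
      exact ⟨a, b, (add_comm _ _).trans hb⟩

lemma ker_zz (y : Car (jI E h U)) : zz (LinearMap.id : U →ₗ[Γ] U) y = 0 ↔
    ∃ a b, nn E h U a + rJ U b = y := by
  rw [zz_eq_zero]
  constructor
  · rintro ⟨h1, h2⟩
    obtain ⟨b, hb⟩ := (mem_range_rJ (y - nn E h U (imk ((jx y).2.1, (jx y).2.2.1)))).2 (by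
      rw [jx_sub, jy_sub, jx_nn, jy_nn]
      simp [h1, h2])
    exact ⟨_, b, by rw [hb, add_sub_cancel]⟩
  · rintro ⟨a, b, rfl⟩
    rw [jx_add, jy_add, jx_nn, jy_nn, jx_rJ, jy_rJ]
    simp

lemma ses_DWZ (U : ModuleCat.{u} Γ) : SES (DD E h (1 * h) U) (Wb E h U) ((ZF E h).obj U) := by
  refine SES.of_quot (A := (jI E h U).mod) (B := (jI E h U).mod) (rJ U) (Submodule.mkQ _)
    (LinearMap.range (nn E h U)).mkQ (zz LinearMap.id) (Submodule.mkQ_surjective _)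
    (Submodule.mkQ_surjective _) zz_surj (fun x => ?_) (fun y => ?_)
  · refine (mkQ_range_eq_zero _ _).trans (Iff.trans ?_ (mkD_eq_zero _ _).symm)
    constructor
    · rintro ⟨y, hy⟩
      obtain ⟨-, h2, h3, -⟩ := (mem_range_rJ _).1 ⟨x, hy.symm⟩
      rw [jx_nn] at h2 h3
      obtain ⟨a, ha⟩ := (E.jp_exact _).1 h3
      have : y = mI (E.jj U) (rI U (imk (a, 0))) := iext (by
        rw [ix_mI, ix_rI]
        exact Prod.ext (h2.trans (map_zero _).symm) ha.symm)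
      rw [this, nn_jj, mm_rI] at hy
      obtain ⟨b, hb⟩ := (rJ_exact (x - mm E h (1 * h) U (imk (a, 0)))).1
        (by rw [map_sub, hy, sub_self])
      exact ⟨_, b, by rw [hb, add_sub_cancel]⟩
    · rintro ⟨a, b, rfl⟩
      exact ⟨mI (E.jj U) (rI U a), by
        rw [nn_jj, mm_rI, map_add, rJ_exact.apply_apply_eq_zero, add_zero]⟩
  · refine (ker_zz _).trans ?_
    constructor
    · rintro ⟨a, b, rfl⟩; exact ⟨b, (mkQ_range_eq _ _ _).2 ⟨a, rfl⟩⟩
    · rintro ⟨b, hb⟩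
      obtain ⟨a, ha⟩ := (mkQ_range_eq _ _ _).1 hb
      exact ⟨a, b, ha⟩

lemma ses_LDZ (U : ModuleCat.{u} Γ) :
    SES ((iIF E h).obj (E.L'.obj U)) (DD E h 1 U) ((ZF E h).obj U) := by
  refine SES.of_quot (A := (iI E h (E.Lt.obj U)).mod) (B := (jI E h U).mod) (nn E h U)
    (mI (E.pp U)) (Submodule.mkQ _) (zz LinearMap.id)
    (exF_iI.surj (ModuleCat.ofHom (E.pp U)) E.pp_surj)
    (Submodule.mkQ_surjective _) zz_surj (fun x => ?_) (fun y => ?_)
  · refine (mkD_eq_zero _ _).trans ?_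
    refine Iff.trans ?_ ((exF_iI (ModuleCat.ofHom (E.jj U)) (ModuleCat.ofHom (E.pp U)) E.jj_inj
      E.jp_exact E.pp_surj).2.1 x).symm
    constructor
    · rintro ⟨a, b, hab⟩
      obtain ⟨-, h2, h3, -⟩ := (mem_range_rJ (nn E h U (x - mI (E.jj U) a))).1
        ⟨b, by rw [map_sub, nn_jj, ← hab, add_sub_cancel_left]⟩
      rw [jx_nn] at h2 h3
      obtain ⟨c, hc⟩ := (E.jp_exact _).1 h3
      refine ⟨a + imk (0, c), ?_⟩
      change mI (E.jj U) (a + imk (0, c)) = x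
      rw [map_add, ← eq_sub_iff_add_eq']
      refine iext ?_
      rw [ix_mI]
      exact Prod.ext ((map_zero _).trans h2.symm) hc
    · rintro ⟨a, rfl⟩
      exact ⟨a, 0, by rw [map_zero, add_zero]; exact (nn_jj a).symm⟩
  · refine (ker_zz _).trans ?_
    constructor
    · rintro ⟨a, b, rfl⟩
      refine ⟨a, ?_⟩
      rw [← sub_eq_zero, ← map_sub]
      exact (mkD_eq_zero _ _).2 ⟨0, b, by rw [map_zero, zero_add, add_sub_cancel_left]⟩
    · rintro ⟨a, ha⟩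
      rw [← sub_eq_zero, ← map_sub] at ha
      obtain ⟨c, b, hb⟩ := (mkD_eq_zero _ _).1 ha
      exact ⟨mI (E.jj U) c + a, b, by rw [map_add, nn_jj, add_right_comm, hb, sub_add_cancel]⟩

lemma ex_W (h0 : h ≠ 0) (μ : k) {A B C : ModuleCat.{u} Γ} (hs : SES A B C) :
    SES (WW E h μ A) (WW E h μ B) (WW E h μ C) := by
  obtain ⟨f, g, hf, hfg, hg⟩ := hs
  obtain ⟨a1, a2, a3⟩ := exF_iI (E := E) (h := h) (ModuleCat.ofHom f) (ModuleCat.ofHom g) hf hfg hg
  obtain ⟨b1, b2, b3⟩ := exF_jI (E := E) (h := h) (ModuleCat.ofHom f) (ModuleCat.ofHom g) hf hfg hg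
  refine SES.coker_map (A := (iIF E h).obj A) (B := (iIF E h).obj B) (C := (iIF E h).obj C)
    (A' := (jIF E h).obj A) (B' := (jIF E h).obj B) (C' := (jIF E h).obj C)
    (mI f) (mI g) (mJ f) (mJ g) a3 b2 b3 _ _ _ (mm_nat μ f) (mm_nat μ g) fun x y hxy => ?_
  have : mI g y = 0 := mm_inj h0 μ (by
    rw [mm_nat, map_zero]
    exact (congrArg (mJ g) hxy).symm.trans (b2.apply_apply_eq_zero x))
  obtain ⟨z, rfl⟩ := (a2 y).1 this
  exact ⟨z, b1 ((mm_nat μ f z).symm.trans hxy.symm)⟩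

end Crest.Agent.R186
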