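import Crest.Agent.R186.Lam4

/-! Properties of `Λ`. -/

set_option autoImplicit false
open CategoryTheory Abelian
open scoped TensorProduct ModuleCat

namespace Crest.Agent.R186

open Crest.Agent.R178

universe u

variable {k : Type u} [Field k] {Γ : Type u} [Ring Γ] [Algebra k Γ]
variable {E : NatExt k Γ} {h : k} {U V W : ModuleCat.{u} Γ} [hh : Fact (h ≠ 1)]

lemma fin_res : Module.Finite Γ ((Res E h).obj (ModuleCat.of (Lam E h) (Lam E h))) := by
  have h1 := E.finLt (G0 Γ) inferInstance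
  have h2 := E.finL' (G0 Γ) inferInstance
  have : Module.Finite Γ (((Γ × Γ) × JX E (G0 Γ)) × (Γ × Γ)) := inferInstance
  exact (Retr.of_equiv (A := (Res E h).obj (PD0 E h).mod)
    (B := ModuleCat.of Γ (((Γ × Γ) × JX E (G0 Γ)) × (Γ × Γ))) (resEquiv (PD0 E h))).fin this

instance [Module.Finite k Γ] : Module.Finite k (Lam E h) :=
  fin_k k _ (fin_res (E := E) (h := h))

lemma lext {v w : Car (PD0 E h)} (h1 : a0 v = a0 w) (h2 : a1 v = a1 w) (h3 : aJ v = aJ w)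
    (h4 : b0 v = b0 w) (h5 : b1 v = b1 w) : v = w :=
  Car.ext (Prod.ext (Prod.ext h1 h2) h3) (Prod.ext h4 h5)

/-- constructor -/
noncomputable def lmk (a b : Γ) (v : JX E (G0 Γ)) (c d : Γ) : Car (PD0 E h) :=
  Car.mk ((a, b), v) (c, d)

lemma tt_mul (l : Lam E h) : (tt E h * l).car =
    lmk 0 (a0 l.car) (εJ E h _ (aJ l.car)) 0 (b0 l.car) := tt_smul (N := PD0 E h) l.car

lemma εJ_eq_zero (h0 : h ≠ 0) (v : JX E U) :
    εJ E h U v = 0 ↔ v.1 = 0 ∧ v.2.1 = 0 ∧ E.pp U v.2.2.2.1 = 0 := by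
  rw [εJ_apply]
  simp only [Prod.mk_eq_zero, true_and]
  constructor
  · rintro ⟨h1, h2, h3⟩
    have h4 : E.jj U v.1 = 0 := (smul_eq_zero.1 h2).resolve_left (mul_ne_zero c_ne h0)
    rw [h4, smul_zero, sub_zero] at h1
    exact ⟨E.jj_inj (h4.trans (map_zero _).symm), h1, h3⟩
  · rintro ⟨h1, h2, h3⟩
    simp [h1, h2, h3]

lemma εJ_exact (h0 : h ≠ 0) (v : JX E U) (hv : εJ E h U v = 0) : ∃ w, εJ E h U w = v := by
  obtain ⟨h1, h2, h3⟩ := (εJ_eq_zero h0 v).1 hv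
  obtain ⟨a, ha⟩ := (E.jp_exact _).1 h3
  obtain ⟨b, hb⟩ := E.pp_surj v.2.2.2.2
  have : h - 1 ≠ 0 := sub_ne_zero.2 hh.out
  refine ⟨(((h - 1) * h⁻¹) • a, v.2.2.1 + h⁻¹ • E.jj U a, 0, b, 0), ?_⟩
  rw [εJ_apply]
  refine Prod.ext h1.symm (Prod.ext h2.symm (Prod.ext ?_ (Prod.ext ?_ hb)))
  · simp only [LinearMap.map_smul_of_tower]
    match_scalars <;> field_simp; ring
  · simp only [LinearMap.map_smul_of_tower, ← ha]
    match_scalars; field_simp

lemma tt_mul_eq_zero (h0 : h ≠ 0) (l : Lam E h) : tt E h * l = 0 ↔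
    a0 l.car = 0 ∧ ((aJ l.car).1 = 0 ∧ (aJ l.car).2.1 = 0 ∧ E.pp _ (aJ l.car).2.2.2.1 = 0) ∧
      b0 l.car = 0 := by
  rw [← εJ_eq_zero h0]
  constructor
  · intro hl
    have := (tt_mul l).symm.trans (congrArg Lam.car hl)
    exact ⟨congrArg a1 this, congrArg aJ this, congrArg b1 this⟩
  · rintro ⟨h1, h2, h3⟩
    exact (tt_mul l).trans (lext rfl h1 h2 rfl h3)

lemma tex_Lam (h0 : h ≠ 0) : TEx (tt E h) (ModuleCat.of (Lam E h) (Lam E h)) := fun l hl => by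
  have h1 := (tt_mul_eq_zero h0 l).1 hl
  rw [← εJ_eq_zero h0] at h1
  obtain ⟨v, hv⟩ := εJ_exact h0 _ h1.2.1
  exact ⟨Lam.mk (lmk (a1 l.car) 0 v (b1 l.car) 0),
    (tt_mul _).trans (lext h1.1.symm rfl hv h1.2.2.symm rfl)⟩

lemma tL_exact (h0 : h ≠ 0) : Function.Exact (Ind.tL (tt_θ (E := E) (h := h))) (Ind.tL tt_θ) :=
  fun l => ⟨fun hl => tex_Lam h0 l hl, by
    rintro ⟨x, rfl⟩
    change tt E h * (tt E h * unres x) = 0
    rw [← mul_assoc, tt_tt, zero_mul]⟩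

lemma fp_prod {R : Type u} [Ring R] {A B : Type u} [AddCommGroup A] [Module R A] [AddCommGroup B]
    [Module R B] (hA : FP R A) (hB : FP R B) : FP R (A × B) :=
  (SES.prod (ModuleCat.of R A) (ModuleCat.of R B)).fp₂ hA hB

lemma fp_ker_tL (h0 : h ≠ 0) : FP Γ (LinearMap.ker (Ind.tL (tt_θ (E := E) (h := h)))) := by
  let φ : (Γ × E.Lt.obj (G0 Γ) × Γ × E.L'.obj (G0 Γ) × Γ) →ₗ[Γ]
      (Res E h).obj (ModuleCat.of (Lam E h) (Lam E h)) :=
    (resEquiv (PD0 E h)).symm.toLinearMap ∘ₗ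
      (show (Γ × E.Lt.obj (G0 Γ) × Γ × E.L'.obj (G0 Γ) × Γ) →ₗ[Γ]
          (((Γ × Γ) × JX E (G0 Γ)) × (Γ × Γ)) from
        { toFun := fun x => (((0, x.1), (0, 0, x.2.1, E.jj (G0 Γ) x.2.2.1, x.2.2.2.1)), (0, x.2.2.2.2))
          map_add' := fun a b => by simp
          map_smul' := fun g a => by
            have := (E.jj (G0 Γ)).map_smul g a.2.2.1
            simp only [smul_eq_mul] at this
            simp [this] })
  have hφ : ∀ x, φ x ∈ LinearMap.ker (Ind.tL (tt_θ (E := E) (h := h))) := fun x =>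
    (tt_mul_eq_zero h0 _).2 ⟨rfl, ⟨rfl, rfl, E.pp_jj _⟩, rfl⟩
  refine (Retr.of_bij' (A := ModuleCat.of Γ (Γ × E.Lt.obj (G0 Γ) × Γ × E.L'.obj (G0 Γ) × Γ))
    (B := ModuleCat.of Γ (LinearMap.ker (Ind.tL (tt_θ (E := E) (h := h)))))
    (φ.codRestrict _ hφ) ⟨fun a b hab => ?_, fun l => ?_⟩).fp ?_
  · have := congrArg Subtype.val hab
    exact Prod.ext (congrArg a1 this) (Prod.ext congr((aJ $this).2.2.1)
      (Prod.ext (E.jj_inj congr((aJ $this).2.2.2.1))
      (Prod.ext congr((aJ $this).2.2.2.2) (congrArg b1 this))))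
  · obtain ⟨h1, ⟨h2, h3, h4⟩, h5⟩ := (tt_mul_eq_zero h0 l.1).1 l.2
    obtain ⟨a, ha⟩ := (E.jp_exact _).1 h4
    refine ⟨(a1 l.1, (aJ l.1).2.2.1, a, (aJ l.1).2.2.2.2, b1 l.1), Subtype.ext ?_⟩
    exact lext h1.symm rfl (Prod.ext h2.symm (Prod.ext h3.symm (Prod.ext rfl (Prod.ext ha rfl))))
      h5.symm rfl
  · exact fp_prod FP.of_proj (fp_prod E.fpLt (fp_prod FP.of_proj (fp_prod E.fpL' FP.of_proj)))

lemma a0_mul (a b : Lam E h) : a0 (a * b).car = a0 a.car * a0 b.car := by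
  change a0 a.car * a0 b.car + 0 + (0 + 0 + 0 + 0 + 0) = _
  simp

lemma b0_mul (a b : Lam E h) : b0 (a * b).car = b0 a.car * b0 b.car := add_zero _

variable (E h) in
/-- the projection of `Λ` onto `Γ × Γ` -/
noncomputable def toΓΓ : Lam E h →ₐ[k] Γ × Γ where
  toFun l := (a0 l.car, b0 l.car)
  map_one' := rfl
  map_mul' a b := Prod.ext (a0_mul a b) (b0_mul a b)
  map_zero' := rfl
  map_add' _ _ := rfl
  commutes' _ := rfl

lemma nil_toΓΓ (l : Lam E h) (hl : toΓΓ E h l = 0) : l ^ 4 = 0 := by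
  have h1 : a0 l.car = 0 := congrArg Prod.fst hl
  have h2 : b0 l.car = 0 := congrArg Prod.snd hl
  have y1 : ∀ w : Car (PD0 E h), (l • w).y = (PD0 E h).εY (b1 l.car • w.y) := fun w => by
    rw [Car.smul_def, ev_y, h2, zero_smul, zero_add]
  have x1 : ∀ w : Car (PD0 E h), w.y = 0 → (l • w).x = (PD0 E h).εX (a1 l.car • w.x) := by
    intro w hw
    have := lJX_smul (PD0 E h) (s := ρ w.y) (φ := ρ w.y) (c := (0 : k))
      (fun g => by rw [ρ_apply, hw, smul_zero, smul_zero]) (aJ l.car)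
    rw [Car.smul_def, ev_x, h1, zero_smul, zero_add, this, zero_smul, add_zero]
  have y2 : ∀ w : Car (PD0 E h), (l • l • w).y = 0 := fun w => by
    rw [y1, y1, map_smul, (PD0 E h).εY2, smul_zero]
  have key : ∀ w : Car (PD0 E h), l • l • l • l • w = 0 := fun w => by
    refine Car.ext ?_ (y2 _)
    rw [x1 _ (y2 _), x1 _ (y2 _), map_smul, (PD0 E h).εX2, smul_zero, Car.zero_x]
  have := key (1 : Lam E h).car
  rw [← mul_smul, ← mul_smul, ← mul_smul] at this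
  rw [pow_succ, pow_succ, pow_succ, pow_one, ← mul_one (_ * l)]
  exact this

lemma rad_Lam (hR : Rad k Γ 4) : Rad k (Lam E h) 8 := by
  obtain ⟨π, hπ, hnil, a, b, c, d, ha, hb, hc, hd, hne⟩ := hR
  let e : ((Fin 4 → k) × (Fin 4 → k)) ≃ₐ[k] (Fin 8 → k) :=
    (AlgEquiv.sumArrowEquivProdArrow (Fin 4) (Fin 4) k k).symm.trans
      (AlgEquiv.piCongrLeft' k (fun _ => k) (finSumFinEquiv (m := 4) (n := 4)))
  let π' : Lam E h →ₐ[k] (Fin 8 → k) := e.toAlgHom.comp ((π.prodMap π).comp (toΓΓ E h))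
  have hθ : ∀ g, π g = 0 → π' (θ E h g) = 0 := fun g hg => by
    change e (π g, π g) = 0
    rw [hg]; exact map_zero e
  refine ⟨π', fun v => ?_, fun l hl => ?_, θ E h a, θ E h b, θ E h c, θ E h d, hθ a ha, hθ b hb,
    hθ c hc, hθ d hd, fun h0 => hne ?_⟩
  · obtain ⟨⟨x, y⟩, rfl⟩ := e.surjective v
    obtain ⟨x, rfl⟩ := hπ x
    obtain ⟨y, rfl⟩ := hπ y
    exact ⟨Lam.mk (lmk x 0 0 y 0), rfl⟩
  · have h1 : (π.prodMap π) (toΓΓ E h l) = 0 := e.injective (hl.trans (map_zero e).symm)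
    obtain ⟨n, hn⟩ := hnil (toΓΓ E h l).1 (congrArg Prod.fst h1)
    obtain ⟨m, hm⟩ := hnil (toΓΓ E h l).2 (congrArg Prod.snd h1)
    refine ⟨(n + m) * 4, ?_⟩
    rw [pow_mul]
    refine nil_toΓΓ _ ?_
    rw [map_pow]
    refine Prod.ext ?_ ?_
    · rw [Prod.pow_fst, pow_add, hn, zero_mul]; rfl
    · rw [Prod.pow_snd, pow_add, hm, mul_zero]; rfl
  · rw [← map_mul, ← map_mul, ← map_mul] at h0
    exact congr(a0 (Lam.car $h0))

lemma eI_smul_y {N : Dat E h} (w : Car N) : ((indI E h).e • w).y = 0 := by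
  change (0 : Γ) • w.y + N.εY ((0 : Γ) • w.y) = 0
  simp

lemma eJ_smul_x {N : Dat E h} (w : Car N) : ((indJ E h).e • w).x = 0 := by
  change (0 : Γ) • w.x + N.εX ((0 : Γ) • w.x) + lJX N (ρ w.y) 0 = 0
  simp

lemma xv_W_Z [IsNoetherianRing Γ] (h0 : h ≠ 0) {μ : k} (hμ : μ ≠ 1) (n : ℤ)
    (U : ModuleCat.{u} Γ) (hU : Module.Finite Γ U) (V : ModuleCat.{u} Γ) :
    XV (WW E h μ U) ((ZF E h).obj V) n := by
  have hμ' : 1 - μ ≠ 0 := sub_ne_zero.2 hμ.symm
  have free : ∀ (P : ModuleCat.{u} Γ), Module.Finite Γ P →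
      Module.Projective (Lam E h) ((iIF E h).obj P) →
      Module.Projective (Lam E h) ((jIF E h).obj P) → ∀ n : ℤ, XV (WW E h μ P) ((ZF E h).obj V) n := by
    intro P hP hPI hPJ n
    have key : ∀ (f : P →ₗ[Γ] V) (x : P), zz f (mm E h μ P (imk (x, 0))) =
        Car.mk (N := ZD E h V) ((1 - μ) • f x) 0 := fun f x => by
      refine Car.ext ((zz_x _ _).trans ?_) ((zz_y _ _).trans (map_zero f))
      rw [jx_mm]
      exact f.map_smul_of_tower _ _
    rcases lt_trichotomy n 0 with hn | rfl | hn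
    · exact XV.neg hn
    · refine xv_zero_iff.2 fun φ => ?_
      let φ' : Car (jI E h P) →ₗ[Lam E h] Car (ZD E h V) := φ ∘ₗ Submodule.mkQ _
      let f : P →ₗ[Γ] V := LinearMap.snd Γ _ _ ∘ₗ (resEquiv (ZD E h V)).toLinearMap ∘ₗ
        (indJ E h).res (M := (ZF E h).obj V) φ'
      have hx : ∀ x, (φ' (jmk 0 (x, 0))).x = 0 := fun x => by
        have := (indJ E h).e_η P x
        change (indJ E h).e • jmk 0 (x, 0) = jmk 0 (x, 0) at this
        exact (congrArg (fun w => (φ' w).x) this).symm.trans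
          ((congrArg Car.x (φ'.map_smul _ _)).trans (eJ_smul_x _))
      have h1 : φ' - zz f = 0 := (indJ E h).gen P hP (M := (ZF E h).obj V) _ fun x => by
        refine sub_eq_zero.2 (Car.ext ((hx x).trans ((zz_x _ _).trans (map_zero f)).symm) ?_)
        exact (zz_y f (jmk 0 (x, 0))).symm
      have h2 : ∀ x, f x = 0 := fun x => by
        have := key f x
        rw [← sub_eq_zero.1 h1] at this
        have h3 : φ' (mm E h μ P (imk (x, 0))) = 0 := by
          exact (congrArg φ ((mkQ_range_eq_zero (mm E h μ P) _).2 ⟨_, rfl⟩)).trans (map_zero φ)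
        exact (smul_eq_zero.1 (congrArg Car.x (this.symm.trans h3))).resolve_left hμ'
      have h4 : φ' = 0 := (indJ E h).gen P hP (M := (ZF E h).obj V) _ fun x =>
        Car.ext (hx x) (h2 x)
      ext x
      exact congr($h4 x)
    · rcases eq_or_lt_of_le (show 1 ≤ n by omega) with rfl | hn1
      · refine XV.of_extend (A := (iIF E h).obj P) (B := (jIF E h).obj P) (C := WW E h μ P)
          (mm E h μ P) (Submodule.mkQ _) (mm_inj h0 μ) (LinearMap.exact_map_mkQ_range _)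
          (Submodule.mkQ_surjective _) (XV.of_proj hPJ le_rfl) fun φ => ?_
        let f : P →ₗ[Γ] V := LinearMap.fst Γ _ _ ∘ₗ (resEquiv (ZD E h V)).toLinearMap ∘ₗ
          (indI E h).res (M := (ZF E h).obj V) φ
        let φ' : Car (iI E h P) →ₗ[Lam E h] Car (ZD E h V) := φ
        have h1 : zz ((1 - μ)⁻¹ • f) ∘ₗ mm E h μ P - φ' = 0 :=
          (indI E h).gen P hP (M := (ZF E h).obj V) _ fun x => by
            refine sub_eq_zero.2 ((key _ x).trans (Car.ext ?_ ?_))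
            · change (1 - μ) • (1 - μ)⁻¹ • f x = f x
              rw [smul_smul, mul_inv_cancel₀ hμ', one_smul]
            · have := (indI E h).e_η P x
              exact ((congrArg (fun w => (φ' w).y) this).symm.trans
                ((congrArg Car.y (φ'.map_smul _ _)).trans (eI_smul_y _))).symm
        exact ⟨zz ((1 - μ)⁻¹ • f), fun x => sub_eq_zero.1 congr($h1 x)⟩
      · exact XV.src₃ (ses_W h0 μ P) (XV.of_proj hPI (by omega)) (XV.of_proj hPJ (by omega))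
  refine xv_all_src (ι := {U : ModuleCat.{u} Γ // Module.Finite Γ U}) (fun U => WW E h μ U.1) _
    (fun U => ?_) n ⟨U, hU⟩
  obtain ⟨r, K, hK⟩ := exists_cover U.1 U.2
  exact ⟨⟨K, hK.fin₁ inferInstance⟩, _, ex_W h0 μ hK,
    free _ inferInstance ((indI E h).proj r) ((indJ E h).proj r)⟩

end Crest.Agent.R186
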