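import Crest.Agent.R186.Lam5

/-! The Tate cohomology of `Z₀`. -/

set_option autoImplicit false
open CategoryTheory Abelian
open scoped TensorProduct ModuleCat

namespace Crest.Agent.R186

open Crest.Agent.R178

universe u

variable {k : Type u} [Field k] {Γ : Type u} [Ring Γ] [Algebra k Γ] [Module.Finite k Γ]
variable {E : NatExt k Γ} {h : k} [hh : Fact (h ≠ 1)] (h0 : h ≠ 0)
  (gd : ∀ U : ModuleCat.{u} Γ, Module.Finite Γ U → GD U 4)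
variable {U V : ModuleCat.{u} Γ} {n : ℤ}

section
variable (I : Ind (θ E h) (tt E h))
include h0 gd

lemma gdJ (hU : Module.Finite Γ U) : GD (I.J.obj U) 4 :=
  have := noeth k Γ
  I.gdJ tt_θ (tL_exact h0) fin_res (fp_ker_tL h0) hU (gd U hU)

lemma gdQ (hU : Module.Finite Γ U) : GD (I.Q U) 4 :=
  have := noeth k Γ
  I.gdQ tt_θ (tL_exact h0) fin_res (fp_ker_tL h0) 4 hU (gd U hU)

lemma tvJ (hU : Module.Finite Γ U) (hV : Module.Finite Γ V) (hT : TV k U V n) :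
    TV k (I.J.obj U) ((ZF E h).obj V) n :=
  have := noeth k Γ
  tv_transfer (Res E h) (exF_res _) (finF_res _ fin_res)
    (Ind.fp_res tt_θ (tL_exact h0) (fp_ker_tL h0)) (gd U hU)
    (fun M n _ hx => I.xv M n U hU hx) _ (finF_Z V hV) n
    (TV.retr_tgt (retr_res_Z V) (TV.tgt₂ (SES.prod V V) hT hT))

omit h0 gd in
lemma xvJ (hU : Module.Finite Γ U) (hT : XV U V n) : XV (I.J.obj U) ((ZF E h).obj V) n :=
  have := noeth k Γ
  I.xv _ n U hU (XV.retr_tgt (retr_res_Z V) (XV.tgt₂ (SES.prod V V) hT hT))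

lemma gdW (μ : k) (hU : Module.Finite Γ U) : GD (WW E h μ U) 5 :=
  GD.src₃ (D := 4) (ses_W h0 μ U) (gdJ h0 gd (indI E h) hU)
    ((gdJ h0 gd (indJ E h) hU).mono (by omega))

lemma gdD (μ : k) (hU : Module.Finite Γ U) : GD (DD E h μ U) 5 :=
  GD.src₃ (D := 4) (ses_QQD μ U) (gdQ h0 gd (indI E h) hU)
    ((gdQ h0 gd (indJ E h) hU).mono (by omega))

lemma tvW_fp (μ : k) (hU : Module.Finite Γ U) (hV : Module.Finite Γ V) (hp : FP Γ V) :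
    TV k (WW E h μ U) ((ZF E h).obj V) n :=
  TV.src₃ (ses_W h0 μ U) (tvJ h0 gd (indI E h) hU hV (TV.of_fp_tgt (gd U hU) hV hp))
    (tvJ h0 gd (indJ E h) hU hV (TV.of_fp_tgt (gd U hU) hV hp))

lemma tvW {μ : k} (hμ : μ ≠ 1) (hU : Module.Finite Γ U) (hV : Module.Finite Γ V) :
    TV k (WW E h μ U) ((ZF E h).obj V) n := by
  have := noeth k Γ
  refine (tv_chain_tgt (fun b => (ZF E h).obj ((Om k)^[b] V))
    (fun b => (ZF E h).obj ((Bar k Γ).obj ((Om k)^[b] V))) (fun b => exF_Z.ses (ses_om_iter k V b))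
    (fun b n => tvW_fp h0 gd μ hU (finF_bar k _ (fin_om_iter k hV b))
      (@FP.of_proj _ _ _ _ _ (bar_proj k _))) (6 - n).toNat).1 ?_
  exact (tv_iff (gdW h0 gd μ hU) (finF_Z _ (fin_om_iter k hV _)) (by omega)).2
    (xv_W_Z h0 hμ _ U hU _)

variable (hq : ∀ m : ℕ, 0 < m → h ^ m ≠ 1)
include hq

omit gd in
lemma xvD_h (hU : Module.Finite Γ U) : XV (DD E h (1 * h) U) ((ZF E h).obj V) n := by
  have := noeth k Γ
  refine xv_all_src (ι := {μ : k // ∃ r : ℕ, μ = h ^ (r + 1)}) (fun μ => DD E h μ.1 U) _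
    (fun μ => ?_) n ⟨1 * h, 0, by simp⟩
  obtain ⟨μ, r, rfl⟩ := μ
  exact ⟨⟨h ^ (r + 1) * h, r + 1, (pow_succ _ _).symm⟩, _, ses_DWD _ U,
    fun n => xv_W_Z h0 (hq _ (by omega)) n U hU V⟩

lemma tvD_one (hU : Module.Finite Γ U) (hV : Module.Finite Γ V) (h1 : XV U V n)
    (h2 : XV U V (n - 1)) : TV k (DD E h 1 U) ((ZF E h).obj V) n := by
  have := noeth k Γ
  have hs : ∀ r : ℕ, SES (DD E h (h⁻¹ ^ r) U) (WW E h (h⁻¹ ^ (r + 1)) U)
      (DD E h (h⁻¹ ^ (r + 1)) U) := fun r => by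
    have e : h⁻¹ ^ (r + 1) * h = h⁻¹ ^ r := by rw [pow_succ, mul_assoc, inv_mul_cancel₀ h0, mul_one]
    exact e ▸ ses_DWD (h⁻¹ ^ (r + 1)) U
  have hne : ∀ r : ℕ, h⁻¹ ^ (r + 1) ≠ 1 := fun r => by
    rw [inv_pow, Ne, inv_eq_one]; exact hq _ (by omega)
  have c1 : ∀ r : ℕ, XV (DD E h (h⁻¹ ^ r) U) ((ZF E h).obj V) (n + r) := fun r => by
    induction r with
    | zero =>
      rw [pow_zero, Nat.cast_zero, add_zero]
      exact XV.src₃ (ses_DWD 1 U) (xvD_h h0 hq hU)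
        (XV.src₃ (ses_W h0 1 U) (xvJ (indI E h) hU h2) (xvJ (indJ E h) hU h1))
    | succ r ih =>
      exact XV.src₃ (hs r) (by convert ih using 1; push_cast; ring) (xv_W_Z h0 (hne r) _ U hU V)
  have c2 : ∀ r : ℕ, TV k (DD E h (h⁻¹ ^ r) U) ((ZF E h).obj V) (n + r) →
      TV k (DD E h 1 U) ((ZF E h).obj V) n := fun r => by
    induction r with
    | zero => rw [pow_zero, Nat.cast_zero, add_zero]; exact id
    | succ r ih =>
      exact fun h3 => ih (TV.src₁ (hs r) (tvW h0 gd (hne r) hU hV)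
        (by convert h3 using 1; push_cast; ring))
  exact c2 (6 - n).toNat ((tv_iff (gdD h0 gd _ hU) (finF_Z V hV) (by omega)).2 (c1 _))

lemma tvD_h_fp (hU : Module.Finite Γ U) (hV : Module.Finite Γ V) (hp : FP Γ V)
    (h1 : XV U V (n + 1)) (h2 : XV U V n) : TV k (DD E h (1 * h) U) ((ZF E h).obj V) n :=
  TV.src₁ (ses_DWD 1 U) (tvW_fp h0 gd 1 hU hV hp)
    (tvD_one h0 gd hq hU hV h1 (by convert h2 using 1; ring))

end

lemma fin_sM (χ : Γ →ₐ[k] k) : Module.Finite Γ (sM χ) :=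
  Module.Finite.of_surjective (LinearMap.toSpanSingleton Γ (Chi χ) (Chi.mk χ 1)) fun x =>
    ⟨algebraMap k Γ (Chi.val χ x), by
      change χ (algebraMap k Γ (Chi.val χ x)) * 1 = Chi.val χ x
      simp⟩

include h0 in
lemma tv_Z (hq : ∀ m : ℕ, 0 < m → h ^ m ≠ 1) {χ : Γ →ₐ[k] k} (G : Good k Γ χ)
    (a1 : ∀ n, n ≠ 4 → XV (sM χ) G.P₀ n)
    (a2 : ∀ n, n ≠ 0 → n ≠ 3 → TV k (sM χ) (sM χ) n)
    (a3 : ∀ n, n ≠ -2 → n ≠ 1 → TV k (E.L'.obj (sM χ)) (sM χ) n)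
    (a4 : TV k (E.Lt.obj (sM χ)) (sM χ) 0) (a5 : TV k (E.Lt.obj (sM χ)) (sM χ) 1)
    (n : ℤ) (hn0 : n ≠ 0) (hn1 : n ≠ -1) :
    TV k ((ZF E h).obj (sM χ)) ((ZF E h).obj (sM χ)) n := by
  have := noeth k Γ
  have hs := fin_sM χ
  have hW : ∀ b, Module.Finite Γ (G.W b) := fun b => by
    rcases b with _ | b
    · exact G.ses₀.fin₁ G.finP₀
    · exact (G.ses b).fin₁ (G.finP b)
  have tH : ∀ n, TV k (DD E h (1 * h) (sM χ)) ((ZF E h).obj (G.W 0)) n := fun n => by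
    refine (tv_chain_tgt (fun b => (ZF E h).obj (G.W b)) (fun b => (ZF E h).obj (G.P b))
      (fun b => exF_Z.ses (G.ses b)) (fun b n => tvD_h_fp h0 G.gd hq hs (G.finP b) (G.fpP b)
        (G.sP _ _) (G.sP _ _)) (6 - n).toNat).1 ?_
    exact (tv_iff (gdD h0 G.gd _ hs) (finF_Z _ (hW _)) (by omega)).2 (xvD_h h0 hq hs)
  have tI : ∀ n, n ≠ 3 → n ≠ 4 → TV k (DD E h (1 * h) (sM χ)) ((ZF E h).obj (sM χ)) n :=
    fun n h3 h4 => TV.tgt₃ (exF_Z.ses G.ses₀) (tH _)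
      (tvD_h_fp h0 G.gd hq hs G.finP₀ G.fpP₀ (a1 _ (by omega)) (a1 _ h4))
  by_cases hn : n = 1 ∨ n = 2
  · refine TV.src₃ (ses_DWZ (sM χ)) (tI _ (by omega) (by omega)) (TV.src₃ (ses_Wb (sM χ))
      (tvJ h0 G.gd (indI E h) (E.finLt _ hs) hs ?_)
      (tvJ h0 G.gd (indJ E h) hs hs (a2 n (by omega) (by omega))))
    rcases hn with rfl | rfl
    · exact a4
    · exact a5
  · have xs : ∀ m : ℤ, m ≠ 0 → XV (sM χ) (sM χ) m := fun m hm => by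
      rcases lt_or_gt_of_ne hm with hm | hm
      · exact XV.neg hm
      · exact G.ss m (by omega)
    exact TV.src₃ (ses_LDZ (sM χ))
      (tvJ h0 G.gd (indI E h) (E.finL' _ hs) hs (a3 _ (by omega) (by omega)))
      (tvD_one h0 G.gd hq hs hs (xs _ hn0) (xs _ (by omega)))

include h0 gd in
lemma gp_Z (hA : AStmt.{u}) (pdD : PD Γ (DG k Γ) 5) (hU : Module.Finite Γ U) :
    GPd k 6 ((ZF E h).obj U) := by
  have := noeth k Γ
  obtain ⟨A1, A2, A3, A4, -⟩ := hA k (Lam E h)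
  have fpI : ∀ U : ModuleCat.{u} Γ, Module.Finite Γ U → FP Γ ((IF k Γ).obj U) := fun U hU =>
    ⟨5, pd_I k Γ pdD U hU⟩
  have g0 : ∀ (I : Ind (θ E h) (tt E h)) (U : ModuleCat.{u} Γ), Module.Finite Γ U → FP Γ U →
      GPd k 4 (I.J.obj U) := fun I U hU hp =>
    A1 4 _ (I.finF U hU) (I.fp U hU hp) (gdJ h0 gd I hU)
  have gJ : ∀ (I : Ind (θ E h) (tt E h)) (U : ModuleCat.{u} Γ), Module.Finite Γ U →
      GPd k 4 (I.J.obj U) := fun I U hU =>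
    A2 4 {U : ModuleCat.{u} Γ // Module.Finite Γ U} (fun U => I.J.obj U.1)
      (fun U => ⟨I.finF _ U.2, gdJ h0 gd I U.2, ⟨_, finF_Sg k Γ _ U.2⟩, _,
        I.ex.ses (ses_I k Γ U.1), g0 I _ (finF_I k Γ _ U.2) (fpI _ U.2)⟩) ⟨U, hU⟩
  have gQ0 : ∀ (I : Ind (θ E h) (tt E h)) (U : ModuleCat.{u} Γ), Module.Finite Γ U → FP Γ U →
      GPd k 4 (I.Q U) := fun I U hU hp =>
    A2 4 PUnit (fun _ => I.Q U) (fun _ => ⟨I.finQ U hU, gdQ h0 gd I hU, PUnit.unit, _,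
      I.sesQ U, g0 I U hU hp⟩) PUnit.unit
  have gQ : ∀ (I : Ind (θ E h) (tt E h)) (U : ModuleCat.{u} Γ), Module.Finite Γ U →
      GPd k 4 (I.Q U) := fun I U hU =>
    A2 4 {U : ModuleCat.{u} Γ // Module.Finite Γ U} (fun U => I.Q U.1)
      (fun U => ⟨I.finQ _ U.2, gdQ h0 gd I U.2, ⟨_, finF_Sg k Γ _ U.2⟩, _,
        I.exQ (ses_I k Γ U.1), gQ0 I _ (finF_I k Γ _ U.2) (fpI _ U.2)⟩) ⟨U, hU⟩
  exact A3 5 _ _ _ (ses_LDZ U) ((ses_QQD 1 U).fin₃ ((indJ E h).finQ U hU))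
    (A4 4 _ (gJ (indI E h) _ (E.finL' U hU)))
    (A3 4 _ _ _ (ses_QQD 1 U) ((indJ E h).finQ U hU) (gQ (indI E h) U hU) (gQ (indJ E h) U hU))

include h0 in
lemma not_fp_Z (hU : Module.Finite Γ U) (x : U) (hx : x ≠ 0) : ¬ FP (Lam E h) ((ZF E h).obj U) := by
  intro hp
  have := noeth k (Lam E h)
  obtain ⟨y, hy⟩ := TEx.of_fp tt_tt (tex_Lam h0) _ (finF_Z U hU) hp
    (Car.mk (N := ZD E h U) x x) (tt_smul (N := ZD E h U) _)
  exact hx (congrArg Car.x ((tt_smul (N := ZD E h U) y).symm.trans hy)).symm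

end Crest.Agent.R186
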