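import Crest.Agent.R186.TensA
import Crest.Agent.R186.Base

/-! Row 186, task K2: the tensor square `Γ = C ⊗ C`. -/

set_option autoImplicit false
set_option linter.unusedSectionVars false
open CategoryTheory Abelian
open scoped TensorProduct ModuleCat

namespace Crest.Agent.R186

open Crest.Agent.R178

universe u

namespace K2

variable {k : Type u} [Field k] {C : Type u} [Ring C] [Algebra k C]

/-- a finite module without maps to `s` is generated by `P` -/
lemma cover [Module.Finite k C] (χ : C →ₐ[k] k) (P : ModuleCat.{u} C) (ι : P →ₗ[C] C)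
    (gen : ∀ x, χ x = 0 → x ∈ Submodule.span k {y : C | ∃ (a : P) (b : C), y = ι a * b})
    (N : ModuleCat.{u} C) (hN : Module.Finite C N) (h : XV N (sM χ) 0) :
    ∃ r K, SES K (ModuleCat.of C (Fin r → P)) N := by
  have := fin_k k N hN
  let b := Module.finBasis k N
  let g : (Fin (Module.finrank k N) → P) →ₗ[C] N :=
    ∑ i, LinearMap.toSpanSingleton C N (b i) ∘ₗ ι ∘ₗ LinearMap.proj i
  have hg : ∀ v, g v = ∑ i, ι (v i) • b i := fun v => LinearMap.sum_apply _ _ _
  have key : ∀ x, χ x = 0 → ∀ n : N, x • n ∈ LinearMap.range g := fun x hx => by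
    have hx' := gen x hx
    clear hx
    induction hx' using Submodule.span_induction with
    | zero => simp
    | add x y _ _ hx hy => exact fun n => by rw [add_smul]; exact add_mem (hx n) (hy n)
    | smul c x _ hx =>
      exact fun n => by rw [Algebra.smul_def, mul_smul]; exact Submodule.smul_mem _ _ (hx n)
    | mem x hx =>
      obtain ⟨a, c, rfl⟩ := hx
      refine fun n => ⟨fun i => algebraMap k C (b.repr (c • n) i) • a, ?_⟩
      rw [hg, mul_smul, ← b.sum_repr (c • n), Finset.smul_sum]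
      refine Finset.sum_congr rfl fun i _ => ?_
      rw [b.repr_sum_self, map_smul, smul_eq_mul, Algebra.commutes, mul_smul, algebraMap_smul]
  refine ⟨_, _, SES.ker (B := ModuleCat.of C _) g fun n => ?_⟩
  by_contra hn
  obtain ⟨l, h1, h2⟩ := ((LinearMap.range g).restrictScalars k).exists_dual_map_eq_bot_of_notMem
    (x := n) hn inferInstance
  let φ : N →ₗ[C] sM χ :=
    { toFun := fun m => Chi.mk χ (l m)
      map_add' := l.map_add
      map_smul' := fun x m => by
        have h3 : l ((x - algebraMap k C (χ x)) • m) = 0 :=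
          (Submodule.eq_bot_iff _).1 h2 _ (Submodule.mem_map_of_mem (key _ (by simp) m))
        rw [sub_smul, map_sub, algebraMap_smul, sub_eq_zero] at h3
        exact h3.trans (l.map_smul _ _) }
  exact h1 congr($(xv_zero_iff.1 h φ) n)

lemma nil_left {A B : Type u} [Ring A] [Algebra k A] [Ring B] [Algebra k B] (π : C →ₐ[k] B)
    (hs : Function.Surjective π) {n : ℕ} (hn : LinearMap.ker π.toLinearMap ^ n = ⊥) (x : A ⊗[k] C)
    (hx : Algebra.TensorProduct.map (AlgHom.id k A) π x = 0) : IsNilpotent x := by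
  obtain ⟨y, rfl⟩ := (lTensor_exact A (LinearMap.exact_subtype_ker_map π.toLinearMap) hs x).1 hx
  clear hx
  let I := (LinearMap.ker π.toLinearMap).map
    (Algebra.TensorProduct.includeRight : C →ₐ[k] A ⊗[k] C).toLinearMap
  let J := (⊤ : Submodule k A).map
    (Algebra.TensorProduct.includeLeft : A →ₐ[k] A ⊗[k] C).toLinearMap
  have hc : Commute J I := Submodule.mul_comm_of_commute (by
    rintro _ ⟨a, -, rfl⟩ _ ⟨c, -, rfl⟩
    simp [Commute, SemiconjBy])
  have hy : (LinearMap.ker π.toLinearMap).subtype.lTensor A y ∈ J * I := by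
    induction y with
    | zero => simp
    | add a b ha hb => rw [map_add]; exact add_mem ha hb
    | tmul a c =>
      have : (a ⊗ₜ 1 : A ⊗[k] C) * (1 ⊗ₜ c.1) ∈ J * I :=
        Submodule.mul_mem_mul ⟨a, trivial, rfl⟩ ⟨c, c.2, rfl⟩
      rwa [Algebra.TensorProduct.tmul_mul_tmul, mul_one, one_mul] at this
  have := Submodule.pow_mem_pow _ hy n
  rw [hc.mul_pow, ← Submodule.map_pow (LinearMap.ker π.toLinearMap), hn, Submodule.map_bot,
    Submodule.mul_bot] at this
  exact ⟨n, this⟩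

lemma rad [Module.Finite k C] (π : C →ₐ[k] (Fin 2 → k)) (hs : Function.Surjective π)
    (hn : ∀ x, π x = 0 → IsNilpotent x) (a b : C) (ha : π a = 0) (hb : π b = 0) (hab : a * b ≠ 0) :
    Rad k (C ⊗[k] C) 4 := by
  have : IsArtinianRing C := IsArtinianRing.of_finite k C
  obtain ⟨n, hN⟩ : IsNilpotent (Ring.jacobson C) := IsSemiprimaryRing.isNilpotent
  rw [D.jac_eq π hs hn] at hN
  have hN' : LinearMap.ker π.toLinearMap ^ n = ⊥ := by
    have : ∀ j, ∀ x ∈ LinearMap.ker π.toLinearMap ^ j, x ∈ RingHom.ker π ^ j := fun j => by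
      induction j with
      | zero => intro x _; rw [Submodule.pow_zero, Ideal.one_eq_top]; trivial
      | succ j ih =>
        intro x hx
        rw [pow_succ] at hx
        rw [Submodule.pow_succ]
        exact Submodule.mul_induction_on hx (fun a ha b hb => Ideal.mul_mem_mul (ih a ha) hb)
          fun _ _ => add_mem
    exact (Submodule.eq_bot_iff _).2 fun x hx => by simpa [hN] using this n x hx
  let τ : (Fin 2 → Fin 2 → k) →ₐ[k] (Fin 4 → k) := AlgHom.pi fun i =>
    (Pi.evalAlgHom k _ ((finProdFinEquiv (m := 2) (n := 2)).symm i).2).comp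
      (Pi.evalAlgHom k (fun _ : Fin 2 => Fin 2 → k) ((finProdFinEquiv (m := 2) (n := 2)).symm i).1)
  have hτ : Function.Bijective τ := ⟨fun f g h => funext₂ fun i j => by
      simpa [τ] using congrFun h (finProdFinEquiv (i, j)),
    fun f => ⟨fun i j => f (finProdFinEquiv (i, j)), funext fun i =>
      congrArg f ((finProdFinEquiv (m := 2) (n := 2)).apply_symm_apply i)⟩⟩
  let σ := Algebra.TensorProduct.piScalarRight k k (Fin 2 → k) (Fin 2)
  have h0 : ∀ x y, π x = 0 ∨ π y = 0 →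
      (τ.comp σ.toAlgHom).comp (Algebra.TensorProduct.map π π) (x ⊗ₜ y) = 0 := by
    rintro x y (h | h) <;> simp [h]
  refine ⟨(τ.comp σ.toAlgHom).comp (Algebra.TensorProduct.map π π),
    (hτ.2.comp σ.surjective).comp (TensorProduct.map_surjective (g := π.toLinearMap)
      (g' := π.toLinearMap) hs hs), fun x hx => ?_, a ⊗ₜ 1, b ⊗ₜ 1, 1 ⊗ₜ a, 1 ⊗ₜ b,
    h0 _ _ (.inl ha), h0 _ _ (.inl hb), h0 _ _ (.inr ha), h0 _ _ (.inr hb), fun h => hab ?_⟩
  · have h1 : Algebra.TensorProduct.map π π x = 0 :=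
      (hτ.1.comp σ.injective) (hx.trans (map_zero (τ.comp σ.toAlgHom)).symm)
    have e1 : ∀ y, Algebra.TensorProduct.map (AlgHom.id k _) π
        (Algebra.TensorProduct.map π (AlgHom.id k C) y) = Algebra.TensorProduct.map π π y :=
      fun y => by induction y <;> simp [*]
    have e2 : ∀ y, Algebra.TensorProduct.map (AlgHom.id k C) π (Algebra.TensorProduct.comm k C C y) =
        Algebra.TensorProduct.comm k _ C (Algebra.TensorProduct.map π (AlgHom.id k C) y) :=
      fun y => by induction y <;> simp [*]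
    obtain ⟨m, hm⟩ := nil_left π hs hN' _ ((e1 x).trans h1)
    obtain ⟨m', hm'⟩ := nil_left π hs hN' (Algebra.TensorProduct.comm k C C (x ^ m))
      (by rw [e2, map_pow, hm, map_zero])
    exact ⟨m * m', by rwa [← map_pow, map_eq_zero_iff _ (AlgEquiv.injective _), ← pow_mul] at hm'⟩
  · simp only [Algebra.TensorProduct.tmul_mul_tmul, one_mul, mul_one] at h
    refine (Module.forall_dual_apply_eq_zero_iff k _).1 fun l => ?_
    simpa using congr(TensorProduct.dualDistrib k C C (l ⊗ₜ l) $h)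

section
variable {χ : C →ₐ[k] k} (G : GoodC k C χ) {Γ : Type u} [Ring Γ] [Algebra k Γ] [Module.Finite k C]
include G

lemma id_F {F : ModuleCat.{u} C ⥤ ModuleCat.{u} Γ} [F.Additive] (hF : ExF F) {d : ℤ}
    (h : ID (F.obj (DG k C)) d) : ID (F.obj (ModuleCat.of C C)) (d + 2) := by
  have hQ : ID (F.obj G.Q) d := fun U n hn => by
    obtain ⟨r, hr⟩ := retr_I k C G.Q G.finQ
    have := G.injQ
    obtain ⟨p, hp⟩ := Module.Injective.out (R := C) (Q := G.Q) ((ιI k C).app G.Q).hom (ιI_inj k C _)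
      LinearMap.id
    have h1 : Retr G.Q ((IF k C).obj G.Q) := ⟨_, p, hp⟩
    exact XV.retr_tgt (((h1.trans hr).map F).trans (retr_pi F _ r)) (XV.pi_tgt (h U n hn) r)
  intro U n hn
  refine XV.retr_tgt (G.retr.map F) (XV.tgt₂ (hF.ses (SES.prod _ _)) (hQ U n (by omega)) ?_)
  refine XV.tgt₁ (hF.ses G.ses1) (hQ U n (by omega)) (XV.tgt₁ (hF.ses G.ses0) ?_ (h U _ (by omega)))
  exact XV.tgt₂ (hF.ses (SES.prod _ _)) (hQ U _ (by omega)) (hQ U _ (by omega))

lemma pd_D {F : ModuleCat.{u} C ⥤ ModuleCat.{u} Γ} [F.Additive] (hF : ExF F) {d : ℕ}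
    (h : PD Γ (F.obj (ModuleCat.of C C)) d) : PD Γ (F.obj (DG k C)) (d + 2) := by
  have hQ := pd_F h G.Q G.finQ G.projQ
  exact (hF.ses G.ses0).pd₃ ((hF.ses G.ses1).pd₃ (pd_F h G.P G.finP G.projP) (hQ.mono (by omega)))
    (((hF.ses (SES.prod _ _)).pd₂ hQ hQ).mono (by omega))

lemma gen (e : Γ ≃ₐ[k] C ⊗[k] C) (x : Γ) (hx : χ2 e χ x = 0) : x ∈ Submodule.span k
    {y : Γ | ∃ (a : T e G.Q (ModuleCat.of C C) × T e (ModuleCat.of C C) G.Q) (b : Γ), y =
      ((eΓ e ∘ₗ T.map e G.iq LinearMap.id).coprod (eΓ e ∘ₗ T.map e LinearMap.id G.iq)) a * b} := by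
  set S := Submodule.span k {y : Γ | ∃ (a : T e G.Q (ModuleCat.of C C) × T e (ModuleCat.of C C) G.Q)
    (b : Γ), y = ((eΓ e ∘ₗ T.map e G.iq LinearMap.id).coprod
      (eΓ e ∘ₗ T.map e LinearMap.id G.iq)) a * b}
  have h1 : ∀ a c, χ a = 0 → e.symm (a ⊗ₜ c) ∈ S := fun a c ha => by
    refine Submodule.span_le (p := S.comap (e.symm.toLinearMap ∘ₗ (TensorProduct.mk k C C).flip c)).2
      ?_ (G.gen a ha)
    rintro _ ⟨q, b, rfl⟩
    refine Submodule.subset_span ⟨(tm e q c, 0), e.symm (b ⊗ₜ 1), ?_⟩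
    rw [LinearMap.coprod_apply, map_zero, add_zero]
    change e.symm ((G.iq q * b) ⊗ₜ c) = e.symm (G.iq q ⊗ₜ c) * _
    rw [← map_mul, Algebra.TensorProduct.tmul_mul_tmul, mul_one]
  have h2 : ∀ a c, χ c = 0 → e.symm (a ⊗ₜ c) ∈ S := fun a c ha => by
    refine Submodule.span_le (p := S.comap (e.symm.toLinearMap ∘ₗ TensorProduct.mk k C C a)).2
      ?_ (G.gen c ha)
    rintro _ ⟨q, b, rfl⟩
    refine Submodule.subset_span ⟨(0, tm e a q), e.symm (1 ⊗ₜ b), ?_⟩
    rw [LinearMap.coprod_apply, map_zero, zero_add]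
    change e.symm (a ⊗ₜ (G.iq q * b)) = e.symm (a ⊗ₜ G.iq q) * _
    rw [← map_mul, Algebra.TensorProduct.tmul_mul_tmul, mul_one]
  have h3 : ∀ t, e.symm t - χ2 e χ (e.symm t) • e.symm (1 ⊗ₜ 1) ∈ S := fun t => by
    induction t with
    | zero => simp
    | add a b ha hb =>
      rw [map_add, map_add, add_smul, add_sub_add_comm]
      exact add_mem ha hb
    | tmul a c =>
      have := add_mem (h1 (a - χ a • 1) c (by simp)) (h2 (χ a • 1) (c - χ c • 1) (by simp))
      convert this using 1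
      simp only [χ2_tmul, TensorProduct.sub_tmul, TensorProduct.tmul_sub, map_sub,
        TensorProduct.tmul_smul, ← TensorProduct.smul_tmul', map_smul, smul_smul, mul_comm (χ c)]
      abel
  simpa [hx] using h3 (e x)

lemma good [Module.Finite k Γ] (e : Γ ≃ₐ[k] C ⊗[k] C) : Nonempty (Good k Γ (χ2 e χ)) := by
  have := noeth k C
  have := noeth k Γ
  have fQ := G.finQ
  have fP := G.finP
  have fD := fin_DG k C
  have fW := G.sesW.fin₁ fP
  have fs := G.sesW.fin₃ fP
  have fC : Module.Finite C (ModuleCat.of C C) := inferInstance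
  have pC : Module.Projective C (ModuleCat.of C C) := inferInstance
  have r1 := Retr.of_bij' (A := TT e _ _) (eS e χ) (eS_bij e χ)
  have Qs : ∀ n, XV G.Q (sM χ) n := fun n => by
    rcases lt_trichotomy n 0 with h | rfl | h
    exacts [XV.neg h, xv_zero_iff.2 G.Qs, XV.of_proj G.projQ h]
  have sQ : ∀ n, XV (sM χ) G.Q n := fun n => by
    rcases lt_trichotomy n 0 with h | rfl | h
    exacts [XV.neg h, xv_zero_iff.2 G.sQ, XV.of_inj G.injQ h]
  have QQs : ∀ n, XV (ModuleCat.of C (G.Q × G.Q)) (sM χ) n := fun n =>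
    XV.src₂ (SES.prod _ _) (Qs n) (Qs n)
  have sQQ : ∀ n, XV (sM χ) (ModuleCat.of C (G.Q × G.Q)) n := fun n =>
    XV.tgt₂ (SES.prod _ _) (sQ n) (sQ n)
  have aL : ∀ {M N : ModuleCat.{u} C}, Module.Finite C M → Module.Finite C N →
      (∀ n, XV M (sM χ) n) → ∀ n, XV (TT e M N) (sM (χ2 e χ)) n :=
    fun hM hN h n => XV.retr_tgt r1 (kv_left e hM hN fs h n)
  have aR : ∀ {M N : ModuleCat.{u} C}, Module.Finite C M → Module.Finite C N →
      (∀ n, XV N (sM χ) n) → ∀ n, XV (TT e M N) (sM (χ2 e χ)) n :=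
    fun hM hN h n => XV.retr_tgt r1 (kv_right e hM hN fs h n)
  have bL : ∀ {M N : ModuleCat.{u} C}, Module.Finite C N →
      (∀ n, XV (sM χ) M n) → ∀ n, XV (sM (χ2 e χ)) (TT e M N) n :=
    fun hN h n => XV.retr_src r1 (kv_left e fs fs hN h n)
  have bR : ∀ {M N : ModuleCat.{u} C}, Module.Finite C M →
      (∀ n, XV (sM χ) N n) → ∀ n, XV (sM (χ2 e χ)) (TT e M N) n :=
    fun hM h n => XV.retr_src r1 (kv_right e fs fs hM h n)
  obtain ⟨W₀, s0, s1⟩ := ses_comp ((exL e (N := G.P)).ses G.sesW)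
    (ses_bij ((exR e (M := sM χ)).ses G.sesW) (eS e χ) (eS_bij e χ))
  have pP := pd_T e fP G.projP fP G.projP
  have hW : ∀ n, XV W₀ (sM (χ2 e χ)) n := fun n =>
    XV.src₂ s1 (aL fW fP G.Ws n) (aR fs fW G.Ws n)
  let P' := ModuleCat.of Γ (TT e G.Q (ModuleCat.of C C) × TT e (ModuleCat.of C C) G.Q)
  have fP' : Module.Finite Γ P' := (SES.prod _ _).fin₂ (fin_T e fQ fC) (fin_T e fC fQ)
  have step : ∀ N : {N : ModuleCat.{u} Γ // Module.Finite Γ N ∧ ∀ n, XV N (sM (χ2 e χ)) n},
      ∃ (N' : {N : ModuleCat.{u} Γ // Module.Finite Γ N ∧ ∀ n, XV N (sM (χ2 e χ)) n}) (r : ℕ),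
        SES N'.1 (ModuleCat.of Γ (Fin r → P')) N.1 := fun N => by
    obtain ⟨r, K, hK⟩ := cover _ P' _ (gen G e) N.1 N.2.1 (N.2.2 0)
    exact ⟨⟨K, hK.fin₁ inferInstance, fun n => XV.src₁ hK (XV.pi_src (XV.src₂ (SES.prod _ _)
      (aL fQ fC Qs n) (aR fC fQ Qs n)) r) (N.2.2 _)⟩, r, hK⟩
  choose nx r hr using step
  let W : ℕ → {N : ModuleCat.{u} Γ // Module.Finite Γ N ∧ ∀ n, XV N (sM (χ2 e χ)) n} := fun b =>
    Nat.rec ⟨W₀, s0.fin₁ (fin_T e fP fP), hW⟩ (fun _ N => nx N) b
  have fQQ : Module.Finite C (ModuleCat.of C (G.Q × G.Q)) := inferInstance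
  exact ⟨{
    gd := fun U _ n hn => XV.retr_tgt (Retr.of_bij' (A := TT e _ _) (eΓ e) (eΓ_bij e))
      (id_F G (exL e) (id_F G (exR e) (d := 0) fun U n hn => XV.retr_tgt
        (Retr.of_bij (A := TT e _ _) (eD e) (eD_bij e)) (XV.of_inj CoI.injective hn)) U n hn)
    pdD := (Retr.of_bij' (A := TT e _ _) (eD e) (eD_bij e)).pd
      (pd_D G (exL e) (pd_D G (exR e) (pd_T e fC pC fC pC)))
    ss := fun n hn => XV.src₃ s0 (hW _) (XV.of_pd pP hn)
    P₀ := TT e G.P G.P
    W := fun b => (W b).1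
    P := fun b => ModuleCat.of Γ (Fin (r (W b)) → P')
    finP₀ := fin_T e fP fP
    fpP₀ := ⟨1, pP⟩
    finP := fun _ => inferInstance
    fpP := fun _ => fp_pi ((SES.prod _ _).fp₂ ⟨1, pd_T e fQ G.projQ fC pC⟩
      ⟨1, pd_T e fC pC fQ G.projQ⟩) _
    ses₀ := s0
    ses := fun b => hr (W b)
    sP := fun _ n => XV.pi_tgt (XV.tgt₂ (SES.prod _ _) (bL fC sQ n) (bR fC sQ n)) _
    Ws := hW 0
    K₁ := TT e G.K (DG k C)
    K₂ := TT e G.P (DG k C)
    K₃ := TT e G.P G.K
    Q := ![TT e (ModuleCat.of C (G.Q × G.Q)) (DG k C), TT e G.Q (DG k C),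
      TT e G.P (ModuleCat.of C (G.Q × G.Q)), TT e G.P G.Q]
    sesK₀ := ses_bij ((exL e (N := DG k C)).ses G.ses0) (eD e) (eD_bij e)
    sesK₁ := (exL e (N := DG k C)).ses G.ses1
    sesK₂ := (exR e (M := G.P)).ses G.ses0
    sesK₃ := (exR e (M := G.P)).ses G.ses1
    Qs := fun i => by
      fin_cases i
      exacts [aL fQQ fD QQs, aL fQ fD Qs, aR fP fQQ QQs, aR fP fQ Qs]
    sQ := fun i => by
      fin_cases i
      exacts [bL fD sQQ, bL fD sQ, bR fP sQQ, bR fP sQ]
    tr := fun x => by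
      obtain ⟨t, rfl⟩ := e.symm.surjective x
      have e1 : LinearMap.mulRight k (e.symm t) =
          e.symm.toLinearEquiv.conj (LinearMap.mulRight k t) := LinearMap.ext fun y => by
        simp [LinearEquiv.conj_apply]
      rw [e1, LinearMap.trace_conj']
      clear e1
      induction t with
      | zero => simp
      | add a b ha hb =>
        have : LinearMap.mulRight k (a + b) = LinearMap.mulRight k a + LinearMap.mulRight k b :=
          LinearMap.ext fun y => mul_add y a b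
        rw [this, map_add, ha, hb, add_zero]
      | tmul a b =>
        have : LinearMap.mulRight k (a ⊗ₜ[k] b) =
            TensorProduct.map (LinearMap.mulRight k a) (LinearMap.mulRight k b) :=
          TensorProduct.ext' fun x y => by simp
        rw [this, LinearMap.trace_tensorProduct', G.tr, zero_mul] }⟩

end

end K2

theorem k2Stmt : K2Stmt.{u} := by
  intro k _ C _ _ _ χ G
  obtain ⟨π, hs, hn, a, b, ha, hb, hab⟩ := G.rad
  exact ⟨C ⊗[k] C, inferInstance, inferInstance, inferInstance, _, K2.good G AlgEquiv.refl,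
    K2.rad π hs hn a b ha hb hab⟩

end Crest.Agent.R186
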