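import Crest.Agent.R186.Defs0
import Crest.Agent.R178.Hom

/-! Task 186-B: passage to the trivial extension algebra. -/

set_option autoImplicit false
set_option linter.unusedSectionVars false
open CategoryTheory Crest.AlgebraR Matrix

namespace Crest.Agent.R186

universe u

namespace TB

/-- Dimension shifting along an exact complex of projective modules. -/
theorem ext_vanish {R : Type u} [Ring R] (Q : ℤ → Type u) [∀ n, AddCommGroup (Q n)]
    [∀ n, Module R (Q n)] [∀ n, Module.Projective R (Q n)] (δ : ∀ n, Q (n + 1) →ₗ[R] Q n)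
    (hex : ∀ n, Function.Exact (δ (n + 1)) (δ n)) (N : ModuleCat.{u} R)
    (h : ∀ n ≥ 0, ∀ g : Q (n + 1) →ₗ[R] N, g ∘ₗ δ (n + 1) = 0 → ∃ g', g = g' ∘ₗ δ n) (i : ℕ) :
    ∀ n ≥ 0, ∀ x : Abelian.Ext (ModuleCat.of R (Q n ⧸ LinearMap.range (δ n))) N (i + 1), x = 0 := by
  let j : ∀ n, (Q (n + 1) ⧸ LinearMap.range (δ (n + 1))) →ₗ[R] Q n := fun n =>
    (LinearMap.range (δ (n + 1))).liftQ (δ n) (LinearMap.exact_iff.1 (hex n)).ge
  have hS := fun n => R178.ses (j n) (LinearMap.range (δ n)).mkQ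
    (LinearMap.ker_eq_bot.1 (Submodule.ker_liftQ_eq_bot _ _ _ (LinearMap.exact_iff.1 (hex n)).le))
    (by rw [LinearMap.exact_iff, Submodule.ker_mkQ, Submodule.range_liftQ])
    (Submodule.mkQ_surjective _)
  have key : ∀ i n, ∀ x : Abelian.Ext (ModuleCat.of R (Q n ⧸ LinearMap.range (δ n))) N (i + 1),
      ∃ y, (hS n).extClass.comp y (add_comm 1 i) = x := fun i n x =>
    have : Projective (ModuleCat.of R (Q n)) := (IsProjective.iff_projective _).1 inferInstance
    Abelian.Ext.contravariant_sequence_exact₃ (hS n) N x (Abelian.Ext.eq_zero_of_projective _) _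
  induction i with
  | zero =>
    intro n hn x
    obtain ⟨y, rfl⟩ := key 0 n x
    obtain ⟨f, rfl⟩ := (Abelian.Ext.mk₀_bijective _ _).2 y
    obtain ⟨g, hg⟩ := h n hn (f.hom ∘ₗ (LinearMap.range (δ (n + 1))).mkQ) (by
      rw [LinearMap.comp_assoc, LinearMap.range_mkQ_comp, LinearMap.comp_zero])
    have e : f = ModuleCat.ofHom (j n) ≫ ModuleCat.ofHom g :=
      ModuleCat.hom_ext (Submodule.linearMap_qext _ hg)
    rw [e, ← Abelian.Ext.mk₀_comp_mk₀]
    exact (hS n).extClass_comp_assoc _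
  | succ i ih =>
    intro n hn x
    obtain ⟨y, rfl⟩ := key (i + 1) n x
    rw [ih (n + 1) (by omega) y, Abelian.Ext.comp_zero]

theorem rows {R ι a b : Type*} [Ring R] [Fintype a] (D : Matrix a b R) (X : Matrix ι b R)
    (h : ∀ i, ∃ y, y ᵥ* D = X i) : ∃ Y : Matrix ι a R, X = Y * D := by
  choose y hy using h
  exact ⟨Matrix.of y, by ext i j; rw [← hy]; rfl⟩

section mat
variable {Λ : Type u} [Ring Λ] {Z : Type u} [AddCommGroup Z] [Module Λ Z] (c : CRes Λ Z)

/-- The matrices of the differentials. -/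
def D (n : ℤ) : Matrix (Fin (c.r (n + 1))) (Fin (c.r n)) Λ := LinearMap.toMatrixRight' (c.d n)

theorem d_eq (n : ℤ) : c.d n = (D c n).toLinearMapRight' :=
  (LinearEquiv.symm_apply_apply _ _).symm

theorem D_sq (n : ℤ) : D c (n + 1) * D c n = 0 := by
  rw [D, D, ← LinearMap.toMatrixRight'_comp, (c.ex n).linearMap_comp_eq_zero, map_zero]

theorem row (n : ℤ) {ι : Type*} (X : Matrix ι (Fin (c.r (n + 1))) Λ) (h : X * D c n = 0) :
    ∃ Y : Matrix ι (Fin (c.r (n + 1 + 1))) Λ, X = Y * D c (n + 1) := rows _ _ fun i => by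
  have := (c.ex n (X i)).1 (by rw [d_eq]; exact congrFun h i)
  rwa [d_eq] at this

theorem col (n : ℤ) {ι : Type*} [Fintype ι] (X : Matrix (Fin (c.r (n + 1))) ι Λ)
    (h : D c (n + 1) * X = 0) : ∃ Y : Matrix (Fin (c.r n)) ι Λ, X = D c n * Y := by
  choose g hg using fun j => (c.exΛ n (LinearMap.proj j ∘ₗ X.toLinearMapRight')).1 (by
    simp only [LinearMap.comp_assoc]
    rw [d_eq, ← Matrix.toLinearMapRight'_mul, h, map_zero, LinearMap.comp_zero])
  refine ⟨LinearMap.toMatrixRight' (LinearMap.pi g), ?_⟩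
  rw [D, ← LinearMap.toMatrixRight'_comp, eq_comm, ← LinearEquiv.eq_symm_apply]
  ext1 v
  exact LinearMap.ext fun a => funext fun j => LinearMap.congr_fun (hg j) _

theorem exZ (n : ℤ) (h1 : n + 1 ≠ 0) (h2 : n + 1 ≠ -1) {m : ℤ} (hm : m = 0)
    (X : Matrix (Fin (c.r (n + 1))) (Fin (c.r m)) Λ)
    {Y : Matrix (Fin (c.r (n + 1 + 1))) (Fin (c.r (m + 1))) Λ}
    (h : D c (n + 1) * X = Y * D c m) :
    ∃ (X' : Matrix (Fin (c.r n)) (Fin (c.r m)) Λ)
      (Y' : Matrix (Fin (c.r (n + 1))) (Fin (c.r (m + 1))) Λ), X = D c n * X' + Y' * D c m := by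
  subst hm
  obtain ⟨g, hg⟩ := (c.exZ n h1 h2 (c.π ∘ₗ X.toLinearMapRight')).1 (by
    simp only [LinearMap.comp_assoc]
    rw [d_eq, ← Matrix.toLinearMapRight'_mul, h, Matrix.toLinearMapRight'_mul, ← d_eq,
      ← LinearMap.comp_assoc, c.ex0.linearMap_comp_eq_zero, LinearMap.zero_comp])
  obtain ⟨g', rfl⟩ := Module.projective_lifting_property c.π g c.π_surj
  obtain ⟨Y', hY⟩ := rows (D c 0) (X - D c n * LinearMap.toMatrixRight' g') fun i => by
    have := (c.ex0 ((X - D c n * LinearMap.toMatrixRight' g').toLinearMapRight'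
      (Pi.single i 1))).1 (by
        rw [map_sub, Matrix.toLinearMapRight'_mul, ← d_eq, LinearEquiv.symm_apply_apply,
          LinearMap.sub_apply, map_sub, sub_eq_zero]
        exact (LinearMap.congr_fun hg _).symm)
    rwa [d_eq, Matrix.toLinearMapRight'_apply, Matrix.single_one_vecMul] at this
  exact ⟨_, Y', eq_add_of_sub_eq' hY⟩

/-- Exactness of `Hom(Z_a, P_•)` at place `b + 1`. -/
def S (a b : ℤ) : Prop := ∀ U : Matrix (Fin (c.r a)) (Fin (c.r (b + 1))) Λ,
  D c a * U = 0 → U * D c b = 0 →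
    ∃ U' : Matrix (Fin (c.r a)) (Fin (c.r (b + 1 + 1))) Λ,
      D c a * U' = 0 ∧ U = U' * D c (b + 1)

theorem S_of (k : ℕ) : ∀ a b : ℤ, b + 2 = k → a + 2 ≤ k → S c a b := by
  induction k with
  | zero =>
    intro a b hb ha U h1 h2
    obtain ⟨a, rfl⟩ : ∃ a', a = a' + 1 := ⟨a - 1, by ring⟩
    obtain ⟨U0, rfl⟩ := row c b U h2
    obtain ⟨Y, hY⟩ := row c (b + 1) (D c (a + 1) * U0) (by rw [Matrix.mul_assoc, h1])
    obtain ⟨X', Y', rfl⟩ := exZ c a (by omega) (by omega) (by omega) U0 hY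
    exact ⟨D c a * X', by rw [← Matrix.mul_assoc, D_sq, Matrix.zero_mul],
      by rw [Matrix.add_mul, Matrix.mul_assoc Y', D_sq, Matrix.mul_zero, add_zero]⟩
  | succ k ih =>
    intro a b hb ha U h1 h2
    obtain ⟨a, rfl⟩ : ∃ a', a = a' + 1 := ⟨a - 1, by ring⟩
    obtain ⟨b, rfl⟩ : ∃ b', b = b' + 1 := ⟨b - 1, by ring⟩
    obtain ⟨U1, rfl⟩ := col c a U h1
    obtain ⟨W, h3, h4⟩ := ih a b (by omega) (by omega) (U1 * D c (b + 1))
      (by rw [← Matrix.mul_assoc, h2]) (by rw [Matrix.mul_assoc, D_sq, Matrix.mul_zero])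
    obtain ⟨T, hT⟩ := row c (b + 1) (U1 - W) (by rw [Matrix.sub_mul, h4, sub_self])
    exact ⟨D c a * T, by rw [← Matrix.mul_assoc, D_sq, Matrix.zero_mul],
      by rw [Matrix.mul_assoc, ← hT, Matrix.mul_sub, h3, sub_zero]⟩

theorem proj_of (E : Matrix (Fin (c.r 0)) (Fin (c.r 0)) Λ)
    {Y : Matrix (Fin (c.r 0)) (Fin (c.r (0 + 1))) Λ}
    (h1 : D c 0 * E = 0)
    (h2 : 1 - E = Y * D c 0) : Module.Projective Λ Z := by
  let s := (LinearMap.ker c.π).liftQ E.toLinearMapRight' (by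
    rw [LinearMap.exact_iff.1 c.ex0, LinearMap.range_le_ker_iff, d_eq,
      ← Matrix.toLinearMapRight'_mul, h1, map_zero]) ∘ₗ
    (c.π.quotKerEquivOfSurjective c.π_surj).symm.toLinearMap
  refine Module.Projective.of_split s c.π (LinearMap.ext fun z => ?_)
  obtain ⟨v, rfl⟩ := c.π_surj z
  have e : s (c.π v) = v ᵥ* E := by simp [s]
  have e2 : v - v ᵥ* E = c.d 0 (v ᵥ* Y) := by
    rw [d_eq, Matrix.toLinearMapRight'_apply, Matrix.vecMul_vecMul, ← h2, Matrix.vecMul_sub,
      Matrix.vecMul_one]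
  rw [LinearMap.comp_apply, e, LinearMap.id_apply, eq_comm, ← sub_eq_zero, ← map_sub, e2,
    c.ex0.apply_apply_eq_zero]

end mat

section triv
variable (k : Type u) [Field k] (Λ : Type u) [Ring Λ] [Algebra k Λ]

/-- The trivial extension `Λ ⋉ DΛ`. -/
def TE : Type u := Λ × Module.Dual k Λ

instance : AddCommGroup (TE k Λ) := inferInstanceAs (AddCommGroup (Λ × Module.Dual k Λ))
instance : Module k (TE k Λ) := inferInstanceAs (Module k (Λ × Module.Dual k Λ))
instance [FiniteDimensional k Λ] : FiniteDimensional k (TE k Λ) :=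
  inferInstanceAs (FiniteDimensional k (Λ × Module.Dual k Λ))
instance : One (TE k Λ) := ⟨(1, 0)⟩
instance : Mul (TE k Λ) :=
  ⟨fun x y => (x.1 * y.1, x.2 ∘ₗ LinearMap.mulLeft k y.1 + y.2 ∘ₗ LinearMap.mulRight k x.1)⟩

variable {k Λ}

theorem ext {x y : TE k Λ} (h1 : x.1 = y.1) (h2 : ∀ a, x.2 a = y.2 a) : x = y :=
  Prod.ext h1 (LinearMap.ext h2)

@[simp] theorem mul_1 (x y : TE k Λ) : (x * y).1 = x.1 * y.1 := rfl
@[simp] theorem mul_2 (x y : TE k Λ) (a : Λ) : (x * y).2 a = x.2 (y.1 * a) + y.2 (a * x.1) := rfl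
@[simp] theorem add_1 (x y : TE k Λ) : (x + y).1 = x.1 + y.1 := rfl
@[simp] theorem add_2 (x y : TE k Λ) (a : Λ) : (x + y).2 a = x.2 a + y.2 a := rfl
@[simp] theorem smul_1 (r : k) (y : TE k Λ) : (r • y).1 = r • y.1 := rfl
@[simp] theorem smul_2 (r : k) (y : TE k Λ) (a : Λ) : (r • y).2 a = r • y.2 a := rfl
@[simp] theorem zero_1 : (0 : TE k Λ).1 = 0 := rfl
@[simp] theorem zero_2 : (0 : TE k Λ).2 = 0 := rfl
@[simp] theorem one_1 : (1 : TE k Λ).1 = 1 := rfl
@[simp] theorem one_2 : (1 : TE k Λ).2 = 0 := rfl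

instance : Ring (TE k Λ) where
  __ := (inferInstance : AddCommGroup (TE k Λ))
  mul_assoc x y z := ext (mul_assoc _ _ _) fun a => by simp [mul_assoc, add_assoc]
  one_mul x := ext (one_mul _) fun a => by simp
  mul_one x := ext (mul_one _) fun a => by simp
  zero_mul x := ext (zero_mul _) fun a => by simp
  mul_zero x := ext (mul_zero _) fun a => by simp
  left_distrib x y z := ext (mul_add _ _ _) fun a => by simp [add_mul]; abel
  right_distrib x y z := ext (add_mul _ _ _) fun a => by simp [mul_add]; abel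

instance : Algebra k (TE k Λ) := Algebra.ofModule
  (fun r x y => ext (smul_mul_assoc _ _ _) fun a => by simp [mul_add])
  (fun r x y => ext (mul_smul_comm _ _ _) fun a => by simp [mul_add])

variable (k) in
/-- The inclusion. -/
def inl : Λ →+* TE k Λ where
  toFun a := (a, 0)
  map_one' := rfl
  map_zero' := rfl
  map_mul' _ _ := ext rfl fun _ => (add_zero 0).symm
  map_add' _ _ := ext rfl fun _ => (add_zero 0).symm

@[simp] theorem inl_1 (a : Λ) : (inl k a).1 = a := rfl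
@[simp] theorem inl_2 (a : Λ) : (inl k a).2 = 0 := rfl

/-- The projection. -/
def fst : TE k Λ →+* Λ where
  toFun a := a.1
  map_one' := rfl
  map_zero' := rfl
  map_mul' _ _ := rfl
  map_add' _ _ := rfl

/-- The symmetrising form. -/
def t : TE k Λ →ₗ[k] k where
  toFun x := x.2 1
  map_add' _ _ := rfl
  map_smul' _ _ := rfl

theorem t_mul (x y : TE k Λ) : t (x * y) = x.2 y.1 + y.2 x.1 := by
  change x.2 (y.1 * 1) + y.2 (1 * x.1) = _
  rw [mul_one, one_mul]

theorem t_comm (x y : TE k Λ) : t (x * y) = t (y * x) := by rw [t_mul, t_mul, add_comm]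

theorem symm [FiniteDimensional k Λ] : IsSymmetricAlgebra k (TE k Λ) := by
  refine ⟨LinearMap.linearEquivOfInjective ((LinearMap.mul k _).compr₂ t)
    ((injective_iff_map_eq_zero _).2 fun x hx => ?_) Subspace.dual_finrank_eq.symm,
    fun a x b y => ?_⟩
  · have h : ∀ y : TE k Λ, x.2 y.1 + y.2 x.1 = 0 := fun y => by
      rw [← t_mul]; exact LinearMap.congr_fun hx y
    exact ext ((Module.forall_dual_apply_eq_zero_iff k _).1 fun f => by simpa using h (0, f))
      fun a => by simpa using h (a, 0)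
  · change t (a * x * b * y) = t (x * (b * y * a))
    rw [mul_assoc, mul_assoc, t_comm, mul_assoc]

variable {a b a' b' : Type*} [Fintype a] [Fintype b] [Fintype a'] [Fintype b']

theorem tr_comm (X : Matrix a b (TE k Λ)) (Y : Matrix b a (TE k Λ)) :
    t (X * Y).trace = t (Y * X).trace := by
  simp only [Matrix.trace, Matrix.diag, Matrix.mul_apply, map_sum]
  rw [Finset.sum_comm]
  simp only [t_comm (X _ _)]

theorem tr_eq (X : Matrix a b (TE k Λ)) (U : Matrix b a Λ) :
    t (X * U.map (inl k)).trace = ∑ i, ∑ j, (X i j).2 (U j i) := by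
  simp [Matrix.trace, Matrix.mul_apply, t_mul]

theorem map_fst (U : Matrix b a Λ) : (U.map (inl k)).map fst = U := rfl

theorem exists_pr (X1 : Matrix a b Λ) (W : Module.Dual k (Matrix b a Λ)) :
    ∃ X : Matrix a b (TE k Λ), X.map fst = X1 ∧ ∀ U, t (X * U.map (inl k)).trace = W U := by
  classical
  refine ⟨Matrix.of fun i j => (X1 i j, W ∘ₗ Matrix.singleLinearMap k j i), rfl, fun U => ?_⟩
  rw [tr_eq, Finset.sum_comm]
  conv_rhs => rw [Matrix.matrix_eq_sum_single U]
  simp only [map_sum]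
  rfl

theorem ext_pr {X Y : Matrix a b (TE k Λ)} (h1 : X.map fst = Y.map fst)
    (h2 : ∀ U : Matrix b a Λ, t (X * U.map (inl k)).trace = t (Y * U.map (inl k)).trace) :
    X = Y := by
  classical
  ext1 i j
  refine ext (congrFun (congrFun h1 i) j) fun y => ?_
  have key : ∀ X : Matrix a b (TE k Λ),
      t (X * (Matrix.single j i y).map (inl k)).trace = (X i j).2 y := fun X => by
    rw [tr_eq, Finset.sum_eq_single i, Finset.sum_eq_single j] <;>
      simp +contextual [Matrix.single_apply, eq_comm]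
  rw [← key, h2, key]

theorem glue (D1 : Matrix a a' Λ) (D2 : Matrix b' b Λ) (X : Matrix a b (TE k Λ))
    (h1 : ∃ (X1 : Matrix a' b Λ) (Y1 : Matrix a b' Λ), X.map fst = D1 * X1 + Y1 * D2)
    (h2 : ∀ U : Matrix b a Λ, U * D1 = 0 → D2 * U = 0 → t (X * U.map (inl k)).trace = 0) :
    ∃ (X' : Matrix a' b (TE k Λ)) (Y' : Matrix a b' (TE k Λ)),
      X = D1.map (inl k) * X' + Y' * D2.map (inl k) := by
  obtain ⟨X1, Y1, h1⟩ := h1
  let Φ : Matrix b a Λ →ₗ[k] Matrix b a' Λ × Matrix b' a Λ :=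
    { toFun := fun U => (U * D1, D2 * U)
      map_add' := fun U V => by simp [Matrix.add_mul, Matrix.mul_add]
      map_smul' := fun r U => by simp }
  let W : Module.Dual k (Matrix b a Λ) :=
    { toFun := fun U => ∑ i, ∑ j, (X i j).2 (U j i)
      map_add' := fun U V => by simp [Finset.sum_add_distrib]
      map_smul' := fun r U => by simp [Finset.mul_sum] }
  have : W ∈ LinearMap.range Φ.dualMap := by
    rw [LinearMap.range_dualMap_eq_dualAnnihilator_ker, Submodule.mem_dualAnnihilator]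
    exact fun U hU => (tr_eq X U).symm.trans (h2 U (congrArg Prod.fst hU) (congrArg Prod.snd hU))
  obtain ⟨W', hW⟩ := this
  obtain ⟨X', a1, a2⟩ := exists_pr X1 (W' ∘ₗ LinearMap.inl k _ _)
  obtain ⟨Y', b1, b2⟩ := exists_pr Y1 (W' ∘ₗ LinearMap.inr k _ _)
  refine ⟨X', Y', ext_pr ?_ fun U => ?_⟩
  · rw [Matrix.map_add _ (map_add _), Matrix.map_mul, Matrix.map_mul, a1, b1, h1, map_fst, map_fst]
  · rw [Matrix.add_mul, Matrix.trace_add, map_add, Matrix.mul_assoc, tr_comm (D1.map _),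
      Matrix.mul_assoc, Matrix.mul_assoc, ← Matrix.map_mul, ← Matrix.map_mul, a2, b2, tr_eq]
    refine (LinearMap.congr_fun hW U).symm.trans ?_
    simp [Φ, ← map_add]

variable {Z : Type u} [AddCommGroup Z] [Module Λ Z] (c : CRes Λ Z)

theorem rowA (n : ℤ) (X : Matrix a (Fin (c.r (n + 1))) (TE k Λ))
    (h : X * (D c n).map (inl k) = 0) :
    ∃ Y : Matrix a (Fin (c.r (n + 1 + 1))) (TE k Λ), X = Y * (D c (n + 1)).map (inl k) := by
  obtain ⟨X', Y', h'⟩ := glue (0 : Matrix a a Λ) (D c (n + 1)) X (by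
    obtain ⟨Y, hY⟩ := row c n (X.map fst) (by
      rw [← map_fst (k := k) (D c n), ← Matrix.map_mul, h, Matrix.map_zero _ (map_zero _)])
    exact ⟨0, Y, by simpa using hY⟩) fun U _ hU => by
      obtain ⟨U', rfl⟩ := col c n U hU
      rw [Matrix.map_mul, ← Matrix.mul_assoc, h, Matrix.zero_mul, Matrix.trace_zero, map_zero]
  exact ⟨Y', by simpa using h'⟩

theorem exM {n : ℤ} (hn : 0 ≤ n) (X : Matrix (Fin (c.r (n + 1))) (Fin (c.r 0)) (TE k Λ))
    {Y : Matrix (Fin (c.r (n + 1 + 1))) (Fin (c.r (0 + 1))) (TE k Λ)}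
    (h : (D c (n + 1)).map (inl k) * X = Y * (D c 0).map (inl k)) :
    ∃ (X' : Matrix (Fin (c.r n)) (Fin (c.r 0)) (TE k Λ))
      (Y' : Matrix (Fin (c.r (n + 1))) (Fin (c.r (0 + 1))) (TE k Λ)),
      X = (D c n).map (inl k) * X' + Y' * (D c 0).map (inl k) := by
  refine glue _ _ X (exZ c n (by omega) (by omega) rfl _ (Y := Y.map fst) ?_) fun U h1 h2 => ?_
  · simpa only [Matrix.map_mul, map_fst] using congrArg (·.map fst) h
  · obtain ⟨U', h3, rfl⟩ := S_of c (n + 2).toNat 0 n (by omega) (by omega) U h2 h1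
    rw [Matrix.map_mul, ← Matrix.mul_assoc, tr_comm, ← Matrix.mul_assoc, h, Matrix.mul_assoc,
      ← Matrix.map_mul, h3, Matrix.map_zero _ (map_zero _), Matrix.mul_zero, Matrix.trace_zero,
      map_zero]

end triv

theorem lift_mat {R a b a' : Type*} [Ring R] [Fintype a] [DecidableEq a] [Fintype a']
    [DecidableEq a'] (D : Matrix a' b R) (X : Matrix a b R)
    (h : (LinearMap.range D.toLinearMapRight').mkQ ∘ₗ X.toLinearMapRight' = 0) :
    ∃ Y : Matrix a a' R, X = Y * D := rows _ _ fun i => by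
  have := (Submodule.Quotient.mk_eq_zero _).1 (LinearMap.congr_fun h (Pi.single i 1))
  rwa [Matrix.toLinearMapRight'_apply, Matrix.single_one_vecMul] at this

end TB

open TB in
theorem bStmt : BStmt.{u} := by
  intro k _ Λ _ _ _ Z _ _ c hZ
  let δ : ∀ n, (Fin (c.r (n + 1)) → TE k Λ) →ₗ[TE k Λ] (Fin (c.r n) → TE k Λ) :=
    fun n => ((D c n).map (inl k)).toLinearMapRight'
  have hex : ∀ n, Function.Exact (δ (n + 1)) (δ n) := fun n => by
    refine LinearMap.exact_of_comp_eq_zero_of_ker_le_range ?_ fun v hv => ?_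
    · rw [← Matrix.toLinearMapRight'_mul, ← Matrix.map_mul, D_sq, Matrix.map_zero _ (map_zero _),
        map_zero]
    · obtain ⟨Y, hY⟩ := rowA c n (Matrix.of fun _ : Unit => v) (by ext1 i j; exact congrFun hv j)
      exact ⟨Y (), (congrFun hY ()).symm⟩
  refine ⟨TE k Λ, inferInstance, inferInstance, inferInstance, symm,
    ModuleCat.of _ (_ ⧸ LinearMap.range (δ 0)), inferInstance, fun h => hZ ?_, fun i hi => ?_⟩
  · obtain ⟨s, hs⟩ := Module.projective_lifting_property (h := h) (LinearMap.range (δ 0)).mkQ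
      LinearMap.id (Submodule.mkQ_surjective _)
    obtain ⟨E, hE⟩ := Matrix.toLinearMapRight'.surjective (s ∘ₗ (LinearMap.range (δ 0)).mkQ)
    obtain ⟨Y, hY⟩ := lift_mat ((D c 0).map (inl k)) (1 - E) (by
      rw [map_sub, hE, LinearMap.comp_sub, ← LinearMap.comp_assoc, Matrix.toLinearMapRight'_one]
      exact sub_eq_zero.2 (congrArg (· ∘ₗ (LinearMap.range (δ 0)).mkQ) hs).symm)
    have h0 : (D c 0).map (inl k) * E = 0 := Matrix.toLinearMapRight'.injective (by
      rw [Matrix.toLinearMapRight'_mul, hE, LinearMap.comp_assoc, map_zero]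
      exact (congrArg (s ∘ₗ ·) (LinearMap.range_mkQ_comp _)).trans (LinearMap.comp_zero _))
    refine proj_of c (E.map fst) (Y := Y.map fst) ?_ ?_
    · simpa only [Matrix.map_mul, map_fst, Matrix.map_zero _ (map_zero _)] using
        congrArg (·.map fst) h0
    · simpa only [Matrix.map_mul, map_fst, Matrix.map_sub _ (map_sub _),
        Matrix.map_one _ (map_zero _) (map_one _)] using congrArg (·.map fst) hY
  · obtain ⟨i, rfl⟩ : ∃ j, i = j + 1 := ⟨i - 1, by omega⟩
    refine subsingleton_of_forall_eq 0 (ext_vanish (fun n => Fin (c.r n) → TE k Λ) δ hex _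
      (fun n hn g hg => ?_) i 0 le_rfl)
    obtain ⟨g', rfl⟩ := Module.projective_lifting_property (LinearMap.range (δ 0)).mkQ g
      (Submodule.mkQ_surjective _)
    obtain ⟨X, rfl⟩ := Matrix.toLinearMapRight'.surjective g'
    obtain ⟨Y, hY⟩ := lift_mat ((D c 0).map (inl k)) ((D c (n + 1)).map (inl k) * X) (by
      rw [Matrix.toLinearMapRight'_mul]; exact hg)
    obtain ⟨X', Y', rfl⟩ := exM c hn X hY
    refine ⟨(LinearMap.range (δ 0)).mkQ ∘ₗ X'.toLinearMapRight', ?_⟩
    rw [map_add, Matrix.toLinearMapRight'_mul, Matrix.toLinearMapRight'_mul, LinearMap.comp_add,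
      ← LinearMap.comp_assoc Y'.toLinearMapRight', LinearMap.range_mkQ_comp, LinearMap.zero_comp,
      add_zero]
    rfl

end Crest.Agent.R186
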