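import Crest.Agent.R186.Lam6
import Crest.Agent.R186.AlgC
import Crest.Agent.R186.Tens
import Crest.Agent.R186.Fun
import Crest.Agent.R186.Disc
import Crest.Agent.R186.GP
import Crest.Agent.R186.Triv
import Crest.Agent.R186.EndAlg
import Crest.Agent.R186.Base

/-! Row 186: assembly. -/

set_option autoImplicit false
open CategoryTheory Abelian

namespace Crest.Agent.R186

open Crest.Agent.R178

universe u

theorem core (k : Type u) [Field k] [CharP k 2] (q : k) (h0 : q ≠ 0)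
    (hq : ∀ n : ℕ, 0 < n → q ^ n ≠ 1) :
    ∃ (Λ : Type u) (_ : Ring Λ) (_ : Algebra k Λ) (_ : Module.Finite k Λ) (Z : ModuleCat.{u} Λ),
      Nonempty (CRes Λ Z) ∧ ¬ Module.Projective Λ Z ∧ Rad k Λ 8 := by
  obtain ⟨C, _, _, _, χ, ⟨GC⟩⟩ := k1Stmt k q h0 hq
  obtain ⟨Γ, _, _, _, χ', ⟨G⟩, hR⟩ := k2Stmt k C χ GC
  obtain ⟨E⟩ := l1Stmt k Γ G.gd G.pdD G.tr
  obtain ⟨a1, a2, a3, a4, a5⟩ := l2Stmt k Γ χ' G E
  have : Fact (q ≠ 1) := ⟨by simpa using hq 1 one_pos⟩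
  have hs := fin_sM χ'
  refine ⟨Lam E.toNatExt q, inferInstance, inferInstance, inferInstance,
    (Om k)^[6] ((ZF E.toNatExt q).obj (sM χ')),
    (aStmt k (Lam E.toNatExt q)).2.2.2.2 6 _ (finF_Z _ hs) (gp_Z h0 G.gd aStmt G.pdD hs)
      (tv_Z h0 hq G a1 a2 a3 a4 a5), fun hp => ?_, rad_Lam hR⟩
  exact not_fp_Z h0 hs (Chi.mk χ' 1) (one_ne_zero (α := k)) 
    (fp_of_om_iter (k := k) 6 (@FP.of_proj _ _ _ _ _ hp))

/-- the base field -/
abbrev K0 : Type := FractionRing (MvPolynomial (Fin 3) (ZMod 2))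

theorem core' (K : Type u) [Field K] [Algebra K0 K] :
    ∃ (Λ : Type u) (_ : Ring Λ) (_ : Algebra K Λ) (_ : Module.Finite K Λ) (Z : ModuleCat.{u} Λ),
      Nonempty (CRes Λ Z) ∧ ¬ Module.Projective Λ Z ∧ Rad K Λ 8 := by
  let f : MvPolynomial (Fin 3) (ZMod 2) →+* K := (algebraMap K0 K).comp (algebraMap _ K0)
  have hf : Function.Injective f :=
    (algebraMap K0 K).injective.comp (IsFractionRing.injective _ K0)
  have : CharP K 2 := charP_of_injective_ringHom hf 2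
  refine core K (f (MvPolynomial.X 0)) ?_ fun n hn h => ?_
  · rw [Ne, ← map_zero f, hf.eq_iff]
    exact MvPolynomial.X_ne_zero 0
  · rw [← map_pow, ← map_one f, hf.eq_iff] at h
    have := congrArg (MvPolynomial.eval (fun _ => (0 : ZMod 2))) h
    simp [hn.ne'] at this

theorem sym (K : Type u) [Field K] [Algebra K0 K] : Sym K := by
  obtain ⟨Λ, _, _, _, Z, ⟨h1⟩, h2, -⟩ := core' K
  exact bStmt K Λ Z h1 h2

end Crest.Agent.R186
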