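import Crest.Agent.R178.Hom

/-! Vanishing of Ext groups: two-out-of-three calculus. -/

set_option autoImplicit false
open CategoryTheory Abelian

namespace Crest.Agent.R186

open Crest.Agent.R178

universe u

section
variable {R : Type u} [Ring R]

/-- short exact sequence `0 → A → B → C → 0` -/
def SES (A B C : ModuleCat.{u} R) : Prop :=
  ∃ (f : A →ₗ[R] B) (g : B →ₗ[R] C), Function.Injective f ∧ Function.Exact f g ∧
    Function.Surjective g

/-- `Ext^n(S, V) = 0` (vacuous for negative `n`) -/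
def XV (S V : ModuleCat.{u} R) (n : ℤ) : Prop :=
  ∀ m : ℕ, (m : ℤ) = n → ∀ x : Ext S V m, x = 0

/-- `A` is a retract (direct summand) of `B` -/
def Retr (A B : ModuleCat.{u} R) : Prop :=
  ∃ (i : A →ₗ[R] B) (r : B →ₗ[R] A), ∀ x, r (i x) = x

variable {A B C S V : ModuleCat.{u} R} {n : ℤ}

lemma SES.mk' {A B C : Type u} [AddCommGroup A] [Module R A] [AddCommGroup B] [Module R B]
    [AddCommGroup C] [Module R C] (f : A →ₗ[R] B) (g : B →ₗ[R] C) (hf : Function.Injective f)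
    (hfg : Function.Exact f g) (hg : Function.Surjective g) :
    SES (ModuleCat.of R A) (ModuleCat.of R B) (ModuleCat.of R C) := ⟨f, g, hf, hfg, hg⟩

lemma XV.neg (hn : n < 0) : XV S V n := fun m hm => by omega

lemma XV.subsingleton {m : ℕ} (h : XV S V m) : Subsingleton (Ext S V m) :=
  ⟨fun a b => by rw [h m rfl a, h m rfl b]⟩

lemma XV.of_subsingleton {m : ℕ} (h : Subsingleton (Ext S V m)) : XV S V m := fun m' hm x => by
  obtain rfl : m' = m := by omega
  exact Subsingleton.elim _ _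

lemma XV.nat {m : ℕ} (h : ∀ x : Ext S V m, x = 0) : XV S V m := fun m' hm x => by
  obtain rfl : m' = m := by omega
  exact h x

lemma XV.src₁ (h : SES A B C) (hB : XV B V n) (hC : XV C V (n + 1)) : XV A V n := by
  obtain ⟨f, g, hf, hfg, hg⟩ := h
  intro m hm x
  have hS := ses f g hf hfg hg
  obtain ⟨y, hy⟩ := Ext.contravariant_sequence_exact₁ hS V x (n₁ := m + 1) (by omega)
    (hC (m + 1) (by omega) _)
  rw [← hy, hB m hm y, Ext.comp_zero]

lemma XV.src₂ (h : SES A B C) (hA : XV A V n) (hC : XV C V n) : XV B V n := by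
  obtain ⟨f, g, hf, hfg, hg⟩ := h
  intro m hm x
  have hS := ses f g hf hfg hg
  obtain ⟨y, hy⟩ := Ext.contravariant_sequence_exact₂ hS V x (hA m hm _)
  rw [← hy, hC m hm y, Ext.comp_zero]

lemma XV.src₃ (h : SES A B C) (hA : XV A V (n - 1)) (hB : XV B V n) : XV C V n := by
  obtain ⟨f, g, hf, hfg, hg⟩ := h
  intro m hm x
  have hS := ses f g hf hfg hg
  rcases m with _ | m
  · have := hS.epi_g
    apply Ext.precomp_mk₀_injective_of_epi V
      (ModuleCat.shortComplexOfCompEqZero f g hfg.linearMap_comp_eq_zero).g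
    rw [map_zero]
    exact hB 0 hm _
  · obtain ⟨y, hy⟩ := Ext.contravariant_sequence_exact₃ hS V x (hB _ hm _) (n₀ := m) (by omega)
    rw [← hy, hA m (by omega) y, Ext.comp_zero]

lemma XV.tgt₁ (h : SES A B C) (hB : XV S B n) (hC : XV S C (n - 1)) : XV S A n := by
  obtain ⟨f, g, hf, hfg, hg⟩ := h
  intro m hm x
  have hS := ses f g hf hfg hg
  rcases m with _ | m
  · have := hS.mono_f
    apply Ext.postcomp_mk₀_injective_of_mono S
      (ModuleCat.shortComplexOfCompEqZero f g hfg.linearMap_comp_eq_zero).f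
    rw [map_zero]
    exact hB 0 hm _
  · obtain ⟨y, hy⟩ := Ext.covariant_sequence_exact₁ S hS x (hB _ hm _) (n₀ := m) rfl
    rw [← hy, hC m (by omega) y, Ext.zero_comp]

lemma XV.tgt₂ (h : SES A B C) (hA : XV S A n) (hC : XV S C n) : XV S B n := by
  obtain ⟨f, g, hf, hfg, hg⟩ := h
  intro m hm x
  have hS := ses f g hf hfg hg
  obtain ⟨y, hy⟩ := Ext.covariant_sequence_exact₂ S hS x (hC m hm _)
  rw [← hy, hA m hm y, Ext.zero_comp]

lemma XV.tgt₃ (h : SES A B C) (hA : XV S A (n + 1)) (hB : XV S B n) : XV S C n := by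
  obtain ⟨f, g, hf, hfg, hg⟩ := h
  intro m hm x
  have hS := ses f g hf hfg hg
  obtain ⟨y, hy⟩ := Ext.covariant_sequence_exact₃ S hS x (n₁ := m + 1) rfl
    (hA (m + 1) (by omega) _)
  rw [← hy, hB m hm y, Ext.zero_comp]

lemma XV.retr_src (h : Retr A B) (hB : XV B V n) : XV A V n := by
  obtain ⟨i, r, hir⟩ := h
  intro m hm x
  have e : ModuleCat.ofHom i ≫ ModuleCat.ofHom r = 𝟙 A := by ext y; exact hir y
  have : x = (Ext.mk₀ (ModuleCat.ofHom i)).comp
      ((Ext.mk₀ (ModuleCat.ofHom r)).comp x (zero_add m)) (zero_add m) := by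
    rw [Ext.mk₀_comp_mk₀_assoc, e]; exact (Ext.mk₀_id_comp x).symm
  rw [this, hB m hm ((Ext.mk₀ (ModuleCat.ofHom r)).comp x (zero_add m)), Ext.comp_zero]

lemma XV.retr_tgt (h : Retr A B) (hB : XV S B n) : XV S A n := by
  obtain ⟨i, r, hir⟩ := h
  intro m hm x
  have e : ModuleCat.ofHom i ≫ ModuleCat.ofHom r = 𝟙 A := by ext y; exact hir y
  have : x = (x.comp (Ext.mk₀ (ModuleCat.ofHom i)) (add_zero m)).comp
      (Ext.mk₀ (ModuleCat.ofHom r)) (add_zero m) := by
    rw [Ext.comp_assoc_of_third_deg_zero, Ext.mk₀_comp_mk₀, e]; exact (Ext.comp_mk₀_id x).symm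
  rw [this, hB m hm (x.comp (Ext.mk₀ (ModuleCat.ofHom i)) (add_zero m)), Ext.zero_comp]

lemma Retr.of_equiv (e : A ≃ₗ[R] B) : Retr A B := ⟨e, e.symm, fun x => e.symm_apply_apply x⟩

lemma Retr.refl (A : ModuleCat.{u} R) : Retr A A := ⟨LinearMap.id, LinearMap.id, fun _ => rfl⟩

lemma Retr.trans (h : Retr A B) (h' : Retr B C) : Retr A C := by
  obtain ⟨i, r, hir⟩ := h
  obtain ⟨i', r', hir'⟩ := h'
  exact ⟨i' ∘ₗ i, r ∘ₗ r', fun x => by simp [hir, hir']⟩

lemma Retr.of_bij (f : A →ₗ[R] B) (hf : Function.Bijective f) : Retr A B :=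
  Retr.of_equiv (LinearEquiv.ofBijective f hf)

lemma Retr.of_bij' (f : A →ₗ[R] B) (hf : Function.Bijective f) : Retr B A :=
  Retr.of_equiv (LinearEquiv.ofBijective f hf).symm

lemma Retr.fp (h : Retr A B) (hB : FP R B) : FP R A := by
  obtain ⟨i, r, hir⟩ := h
  exact FP.retract i r hir hB

lemma Retr.pd (h : Retr A B) {d : ℕ} (hB : PD R B d) : PD R A d := by
  obtain ⟨i, r, hir⟩ := h
  exact PD.retract i r hir hB

lemma Retr.fin (h : Retr A B) (hB : Module.Finite R B) : Module.Finite R A := by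
  obtain ⟨i, r, hir⟩ := h
  exact Module.Finite.of_surjective r (fun x => ⟨_, hir x⟩)

lemma Retr.proj (h : Retr A B) (hB : Module.Projective R B) : Module.Projective R A := by
  obtain ⟨i, r, hir⟩ := h
  exact Module.Projective.of_split i r (LinearMap.ext hir)

lemma XV.of_pd {d : ℕ} (h : PD R S d) (hn : (d : ℤ) ≤ n) : XV S V n := fun m hm x =>
  haveI : HasProjectiveDimensionLT S d := h
  Ext.eq_zero_of_hasProjectiveDimensionLT x d (by omega)

lemma XV.of_proj (h : Module.Projective R S) (hn : 1 ≤ n) : XV S V n :=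
  XV.of_pd (d := 1) PD.of_proj hn

lemma pd_of_xv {d : ℕ} (h : ∀ (V : ModuleCat.{u} R) (n : ℤ), (d : ℤ) ≤ n → XV S V n) : PD R S d := by
  have : HasProjectiveDimensionLT S d := by
    rw [hasProjectiveDimensionLT_iff]
    intro i hi Y e
    exact h Y i (by omega) i rfl e
  exact this

lemma XV.of_inj (h : Module.Injective R V) (hn : 1 ≤ n) : XV S V n := fun m hm x => by
  haveI : Injective V := (Module.injective_iff_injective_object R V).1 h
  obtain ⟨m, rfl⟩ : ∃ m', m = m' + 1 := ⟨m - 1, by omega⟩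
  exact Ext.eq_zero_of_injective x

lemma XV.src_zero (h : Subsingleton S) : XV S V n := by
  rcases lt_or_ge n 0 with hn | hn
  · exact XV.neg hn
  · exact XV.of_pd (d := 0) PD.of_subsingleton hn

lemma XV.tgt_zero (h : Subsingleton V) : XV S V n := fun m _ x => by
  have e : 𝟙 V = 0 := by ext y; exact Subsingleton.elim _ _
  rw [← Ext.comp_mk₀_id x, e, Ext.mk₀_zero, Ext.comp_zero]

/-- degree zero: no nonzero homomorphism -/
lemma xv_zero_iff : XV S V 0 ↔ ∀ f : S →ₗ[R] V, f = 0 := by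
  constructor
  · intro h f
    have := (Ext.mk₀_eq_zero_iff _).1 (h 0 rfl (Ext.mk₀ (ModuleCat.ofHom f)))
    exact congrArg ModuleCat.Hom.hom this
  · intro h
    refine XV.nat (m := 0) fun x => ?_
    obtain ⟨g, rfl⟩ := (Ext.mk₀_bijective S V).2 x
    rw [Ext.mk₀_eq_zero_iff]
    ext1; exact h _

/-- `Ext¹(C, V) = 0` lets maps extend -/
lemma XV.extend (f : A →ₗ[R] B) (g : B →ₗ[R] C) (hf : Function.Injective f)
    (hfg : Function.Exact f g) (hg : Function.Surjective g) (h : XV C V 1) (φ : A →ₗ[R] V) :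
    ∃ ψ : B →ₗ[R] V, ∀ x, ψ (f x) = φ x := by
  have hS := ses f g hf hfg hg
  obtain ⟨y, hy⟩ := Ext.contravariant_sequence_exact₁ hS V (Ext.mk₀ (ModuleCat.ofHom φ))
    (n₁ := 1) rfl (h 1 rfl _)
  obtain ⟨ψ, rfl⟩ := (Ext.mk₀_bijective _ _).2 y
  rw [Ext.mk₀_comp_mk₀] at hy
  have := (Ext.mk₀_bijective _ _).1 hy
  exact ⟨ψ.hom, fun x => congr(($this).hom x)⟩

/-- `Ext¹(S, A) = 0` lets maps lift -/
lemma XV.lift (f : A →ₗ[R] B) (g : B →ₗ[R] C) (hf : Function.Injective f)
    (hfg : Function.Exact f g) (hg : Function.Surjective g) (h : XV S A 1) (φ : S →ₗ[R] C) :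
    ∃ ψ : S →ₗ[R] B, ∀ x, g (ψ x) = φ x := by
  have hS := ses f g hf hfg hg
  obtain ⟨y, hy⟩ := Ext.covariant_sequence_exact₃ S hS (Ext.mk₀ (ModuleCat.ofHom φ))
    (n₁ := 1) rfl (h 1 rfl _)
  obtain ⟨ψ, rfl⟩ := (Ext.mk₀_bijective _ _).2 y
  rw [Ext.mk₀_comp_mk₀] at hy
  have := (Ext.mk₀_bijective _ _).1 hy
  exact ⟨ψ.hom, fun x => congr(($this).hom x)⟩

/-- converse of `XV.extend` -/
lemma XV.of_extend (f : A →ₗ[R] B) (g : B →ₗ[R] C) (hf : Function.Injective f)
    (hfg : Function.Exact f g) (hg : Function.Surjective g) (hB : XV B V 1)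
    (h : ∀ φ : A →ₗ[R] V, ∃ ψ : B →ₗ[R] V, ∀ x, ψ (f x) = φ x) : XV C V 1 := by
  have hS := ses f g hf hfg hg
  refine XV.nat (m := 1) fun x => ?_
  obtain ⟨y, hy⟩ := Ext.contravariant_sequence_exact₃ hS V x (hB 1 rfl _) (n₀ := 0) rfl
  obtain ⟨φ, rfl⟩ := (Ext.mk₀_bijective _ _).2 y
  obtain ⟨ψ, hψ⟩ := h φ.hom
  have e : φ = (ModuleCat.shortComplexOfCompEqZero f g hfg.linearMap_comp_eq_zero).f ≫
      ModuleCat.ofHom ψ := by ext z; exact (hψ z).symm
  rw [← hy, e, ← Ext.mk₀_comp_mk₀, ← Ext.comp_assoc_of_third_deg_zero, hS.extClass_comp,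
    Ext.zero_comp]

/-- converse of `XV.lift` -/
lemma XV.of_lift (f : A →ₗ[R] B) (g : B →ₗ[R] C) (hf : Function.Injective f)
    (hfg : Function.Exact f g) (hg : Function.Surjective g) (hB : XV S B 1)
    (h : ∀ φ : S →ₗ[R] C, ∃ ψ : S →ₗ[R] B, ∀ x, g (ψ x) = φ x) : XV S A 1 := by
  have hS := ses f g hf hfg hg
  refine XV.nat (m := 1) fun x => ?_
  obtain ⟨y, hy⟩ := Ext.covariant_sequence_exact₁ S hS x (hB 1 rfl _) (n₀ := 0) rfl
  obtain ⟨φ, rfl⟩ := (Ext.mk₀_bijective _ _).2 y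
  obtain ⟨ψ, hψ⟩ := h φ.hom
  have e : φ = ModuleCat.ofHom ψ ≫
      (ModuleCat.shortComplexOfCompEqZero f g hfg.linearMap_comp_eq_zero).g := by
    ext z; exact (hψ z).symm
  rw [← hy, e, ← Ext.mk₀_comp_mk₀, Ext.comp_assoc_of_second_deg_zero, hS.comp_extClass,
    Ext.comp_zero]

lemma SES.prod (A B : ModuleCat.{u} R) : SES A (ModuleCat.of R (A × B)) B :=
  ⟨LinearMap.inl R A B, LinearMap.snd R A B, LinearMap.inl_injective, Function.Exact.inl_snd,
    LinearMap.snd_surjective⟩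

lemma SES.ker (g : B →ₗ[R] C) (hg : Function.Surjective g) :
    SES (ModuleCat.of R (LinearMap.ker g)) B C :=
  ⟨(LinearMap.ker g).subtype, g, Submodule.injective_subtype _, LinearMap.exact_subtype_ker_map g,
    hg⟩

lemma SES.coker (f : A →ₗ[R] B) (hf : Function.Injective f) :
    SES A B (ModuleCat.of R (B ⧸ LinearMap.range f)) :=
  ⟨f, (LinearMap.range f).mkQ, hf, LinearMap.exact_map_mkQ_range f, Submodule.mkQ_surjective _⟩

lemma XV.pi_tgt (h : XV S V n) (r : ℕ) : XV S (ModuleCat.of R (Fin r → V)) n := by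
  induction r with
  | zero => exact XV.tgt_zero inferInstance
  | succ r ih =>
    refine XV.retr_tgt (Retr.of_equiv (B := ModuleCat.of R (V × (Fin r → V)))
      (Fin.consLinearEquiv R (fun _ : Fin (r + 1) => (V : Type u))).symm) ?_
    exact XV.tgt₂ (SES.prod V (ModuleCat.of R (Fin r → V))) h ih

lemma XV.pi_src (h : XV S V n) (r : ℕ) : XV (ModuleCat.of R (Fin r → S)) V n := by
  induction r with
  | zero => exact XV.src_zero inferInstance
  | succ r ih =>
    refine XV.retr_src (Retr.of_equiv (B := ModuleCat.of R (S × (Fin r → S)))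
      (Fin.consLinearEquiv R (fun _ : Fin (r + 1) => (S : Type u))).symm) ?_
    exact XV.src₂ (SES.prod S (ModuleCat.of R (Fin r → S))) h ih

lemma SES.fp₁ (h : SES A B C) (hB : FP R B) (hC : FP R C) : FP R A := by
  obtain ⟨f, g, hf, hfg, hg⟩ := h
  exact FP.X₁ f g hf hfg hg hB hC

lemma SES.fp₂ (h : SES A B C) (hA : FP R A) (hC : FP R C) : FP R B := by
  obtain ⟨f, g, hf, hfg, hg⟩ := h
  exact FP.X₂ f g hf hfg hg hA hC

lemma SES.fp₃ (h : SES A B C) (hA : FP R A) (hB : FP R B) : FP R C := by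
  obtain ⟨f, g, hf, hfg, hg⟩ := h
  exact FP.X₃ f g hf hfg hg hA hB

lemma SES.pd₁ (h : SES A B C) {d : ℕ} (hB : PD R B d) (hC : PD R C (d + 1)) : PD R A d := by
  obtain ⟨f, g, hf, hfg, hg⟩ := h
  exact PD.X₁ f g hf hfg hg hB hC

lemma SES.pd₂ (h : SES A B C) {d : ℕ} (hA : PD R A d) (hC : PD R C d) : PD R B d := by
  obtain ⟨f, g, hf, hfg, hg⟩ := h
  exact PD.X₂ f g hf hfg hg hA hC

lemma SES.pd₃ (h : SES A B C) {d : ℕ} (hA : PD R A d) (hB : PD R B (d + 1)) : PD R C (d + 1) := by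
  obtain ⟨f, g, hf, hfg, hg⟩ := h
  exact PD.X₃ f g hf hfg hg hA hB

lemma SES.fin₁ [IsNoetherianRing R] (h : SES A B C) (hB : Module.Finite R B) :
    Module.Finite R A := by
  obtain ⟨f, g, hf, hfg, hg⟩ := h
  exact Module.Finite.of_injective f hf

lemma SES.fin₂ (h : SES A B C) (hA : Module.Finite R A) (hC : Module.Finite R C) :
    Module.Finite R B := by
  obtain ⟨f, g, hf, hfg, hg⟩ := h
  exact Module.Finite.of_exact hfg hg

lemma SES.fin₃ (h : SES A B C) (hB : Module.Finite R B) : Module.Finite R C := by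
  obtain ⟨f, g, hf, hfg, hg⟩ := h
  exact Module.Finite.of_surjective g hg

/-- a finitely generated module has a finite free cover -/
lemma exists_cover (M : ModuleCat.{u} R) (hM : Module.Finite R M) :
    ∃ (r : ℕ) (K : ModuleCat.{u} R), SES K (ModuleCat.of R (Fin r → R)) M := by
  obtain ⟨r, g, hg⟩ := Module.Finite.exists_fin' R M
  exact ⟨r, _, SES.ker (B := ModuleCat.of R (Fin r → R)) g hg⟩

/-- a finitely generated projective module is a retract of a finite free module -/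
lemma retr_free (M : ModuleCat.{u} R) (hM : Module.Finite R M) (hP : Module.Projective R M) :
    ∃ r : ℕ, Retr M (ModuleCat.of R (Fin r → R)) := by
  obtain ⟨r, g, hg⟩ := Module.Finite.exists_fin' R M
  obtain ⟨s, hs⟩ := Module.projective_lifting_property g LinearMap.id hg
  exact ⟨r, s, g, fun x => congr($hs x)⟩

/-- `Ext^{> D}(S, R) = 0` -/
def GD (S : ModuleCat.{u} R) (D : ℤ) : Prop := ∀ n, D < n → XV S (ModuleCat.of R R) n

lemma GD.mono {D D' : ℤ} (h : GD S D) (hD : D ≤ D') : GD S D' := fun n hn => h n (by omega)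

/-- vanishing against a module `N` in degrees `> D` passes from `R` to all finitely generated
modules of finite projective dimension -/
lemma GD.xv [IsNoetherianRing R] {D : ℤ} (h : GD S D) (F : ModuleCat.{u} R)
    (hF : Module.Finite R F) (hp : FP R F) (hn : D < n) : XV S F n := by
  obtain ⟨d, hd⟩ := hp
  induction d generalizing F n with
  | zero =>
    have : HasProjectiveDimensionLT F 0 := hd
    exact XV.tgt_zero (ModuleCat.subsingleton_of_isZero
      (isZero_of_hasProjectiveDimensionLT_zero F))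
  | succ d ih =>
    rcases d with _ | d
    · obtain ⟨r, hr⟩ := retr_free F hF hd.proj
      exact XV.retr_tgt hr (XV.pi_tgt (V := ModuleCat.of R R) (h n hn) r)
    · obtain ⟨r, K, hK⟩ := exists_cover F hF
      refine XV.tgt₃ hK (ih K (hK.fin₁ inferInstance) (by omega)
        (hK.pd₁ ((PD.of_proj (A := Fin r → R)).mono (by omega)) hd)) ?_
      exact XV.pi_tgt (V := ModuleCat.of R R) (h n hn) r

lemma GD.src₁ {D : ℤ} (h : SES A B C) (hB : GD B D) (hC : GD C (D + 1)) : GD A D :=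
  fun n hn => XV.src₁ h (hB n hn) (hC _ (by omega))

lemma GD.src₂ {D : ℤ} (h : SES A B C) (hA : GD A D) (hC : GD C D) : GD B D :=
  fun n hn => XV.src₂ h (hA n hn) (hC _ hn)

lemma GD.src₃ {D : ℤ} (h : SES A B C) (hA : GD A D) (hB : GD B (D + 1)) : GD C (D + 1) :=
  fun n hn => XV.src₃ h (hA _ (by omega)) (hB _ hn)

lemma GD.of_proj (h : Module.Projective R S) : GD S 0 := fun _ hn => XV.of_proj h (by omega)

/-- cokernels of a map of short exact sequences -/
lemma SES.coker_map {A' B' C' : ModuleCat.{u} R} (f : A →ₗ[R] B) (g : B →ₗ[R] C)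
    (f' : A' →ₗ[R] B') (g' : B' →ₗ[R] C') (hg : Function.Surjective g)
    (hfg' : Function.Exact f' g') (hg' : Function.Surjective g')
    (a : A →ₗ[R] A') (b : B →ₗ[R] B') (c : C →ₗ[R] C') (hab : ∀ x, b (f x) = f' (a x))
    (hbc : ∀ x, c (g x) = g' (b x))
    (hinj : ∀ x y, f' x = b y → ∃ z, a z = x) :
    SES (ModuleCat.of R (A' ⧸ LinearMap.range a)) (ModuleCat.of R (B' ⧸ LinearMap.range b))
      (ModuleCat.of R (C' ⧸ LinearMap.range c)) := by
  refine ⟨Submodule.mapQ _ _ f' ?_, Submodule.mapQ _ _ g' ?_, ?_, ?_, ?_⟩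
  · rintro _ ⟨x, rfl⟩; exact ⟨f x, hab x⟩
  · rintro _ ⟨x, rfl⟩; exact ⟨g x, hbc x⟩
  · rw [injective_iff_map_eq_zero]
    intro x hx
    obtain ⟨x, rfl⟩ := Submodule.mkQ_surjective _ x
    obtain ⟨y, hy⟩ := (Submodule.Quotient.mk_eq_zero _).1 hx
    exact (Submodule.Quotient.mk_eq_zero _).2 (hinj x y hy.symm)
  · intro y
    obtain ⟨y, rfl⟩ := Submodule.mkQ_surjective _ y
    constructor
    · intro hy
      obtain ⟨z, hz⟩ := (Submodule.Quotient.mk_eq_zero _).1 hy
      obtain ⟨w, rfl⟩ := hg z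
      have : g' (y - b w) = 0 := by rw [map_sub, ← hbc, hz, sub_self]
      obtain ⟨x, hx⟩ := (hfg' _).1 this
      refine ⟨Submodule.Quotient.mk x, ?_⟩
      change Submodule.Quotient.mk (f' x) = Submodule.Quotient.mk y
      rw [Submodule.Quotient.eq, hx]
      exact ⟨-w, by simp⟩
    · rintro ⟨x, hx⟩
      obtain ⟨x, rfl⟩ := Submodule.mkQ_surjective _ x
      rw [← hx]
      change Submodule.Quotient.mk (g' (f' x)) = 0
      rw [hfg'.apply_apply_eq_zero]; rfl
  · intro z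
    obtain ⟨z, rfl⟩ := Submodule.mkQ_surjective _ z
    obtain ⟨y, rfl⟩ := hg' z
    exact ⟨Submodule.Quotient.mk y, rfl⟩

end

end Crest.Agent.R186
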