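import Crest.Agent.R186.Tate1

/-! The bar syzygy functor and vanishing of Tate cohomology. -/

set_option autoImplicit false
open CategoryTheory Abelian
open scoped TensorProduct ModuleCat

namespace Crest.Agent.R186

open Crest.Agent.R178

universe u

/-- the functor preserves short exact sequences -/
def ExF {R R' : Type u} [Ring R] [Ring R'] (F : ModuleCat.{u} R ⥤ ModuleCat.{u} R') : Prop :=
  ∀ ⦃A B C : ModuleCat.{u} R⦄ (f : A ⟶ B) (g : B ⟶ C), Function.Injective f.hom →
    Function.Exact f.hom g.hom → Function.Surjective g.hom →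
    Function.Injective (F.map f).hom ∧ Function.Exact (F.map f).hom (F.map g).hom ∧
      Function.Surjective (F.map g).hom

/-- the functor preserves finite generation -/
def FinF {R R' : Type u} [Ring R] [Ring R'] (F : ModuleCat.{u} R ⥤ ModuleCat.{u} R') : Prop :=
  ∀ M : ModuleCat.{u} R, Module.Finite R M → Module.Finite R' (F.obj M)

section
variable {R R' R'' : Type u} [Ring R] [Ring R'] [Ring R'']

lemma ExF.ses {F : ModuleCat.{u} R ⥤ ModuleCat.{u} R'} (hF : ExF F) {A B C : ModuleCat.{u} R}
    (h : SES A B C) : SES (F.obj A) (F.obj B) (F.obj C) := by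
  obtain ⟨f, g, hf, hfg, hg⟩ := h
  obtain ⟨h1, h2, h3⟩ := hF (ModuleCat.ofHom f) (ModuleCat.ofHom g) hf hfg hg
  exact ⟨_, _, h1, h2, h3⟩

lemma ExF.comp {F : ModuleCat.{u} R ⥤ ModuleCat.{u} R'} {G : ModuleCat.{u} R' ⥤ ModuleCat.{u} R''}
    (hF : ExF F) (hG : ExF G) : ExF (F ⋙ G) := fun _ _ _ f g hf hfg hg => by
  obtain ⟨h1, h2, h3⟩ := hF f g hf hfg hg
  exact hG _ _ h1 h2 h3

lemma FinF.comp {F : ModuleCat.{u} R ⥤ ModuleCat.{u} R'} {G : ModuleCat.{u} R' ⥤ ModuleCat.{u} R''}
    (hF : FinF F) (hG : FinF G) : FinF (F ⋙ G) := fun M hM => hG _ (hF M hM)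

lemma ExF.inj {F : ModuleCat.{u} R ⥤ ModuleCat.{u} R'} (hF : ExF F) {A B : ModuleCat.{u} R}
    (f : A ⟶ B) (hf : Function.Injective f.hom) : Function.Injective (F.map f).hom :=
  (hF f (ModuleCat.ofHom (LinearMap.range f.hom).mkQ) hf (LinearMap.exact_map_mkQ_range _)
    (Submodule.mkQ_surjective _)).1

lemma ExF.surj {F : ModuleCat.{u} R ⥤ ModuleCat.{u} R'} (hF : ExF F) {B C : ModuleCat.{u} R}
    (g : B ⟶ C) (hg : Function.Surjective g.hom) : Function.Surjective (F.map g).hom :=
  (hF (ModuleCat.ofHom (LinearMap.ker g.hom).subtype) g (Submodule.injective_subtype _)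
    (LinearMap.exact_subtype_ker_map _) hg).2.2

lemma Retr.map (F : ModuleCat.{u} R ⥤ ModuleCat.{u} R') {A B : ModuleCat.{u} R} (h : Retr A B) :
    Retr (F.obj A) (F.obj B) := by
  obtain ⟨i, r, hir⟩ := h
  refine ⟨(F.map (ModuleCat.ofHom i)).hom, (F.map (ModuleCat.ofHom r)).hom, fun x => ?_⟩
  have e : ModuleCat.ofHom i ≫ ModuleCat.ofHom r = 𝟙 A := by ext y; exact hir y
  have := congr((F.map $e).hom x)
  rw [F.map_comp] at this
  exact this.trans (by rw [F.map_id]; rfl)

/-- an additive functor maps `M^r` to a retract of `(F M)^r` -/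
lemma retr_pi (F : ModuleCat.{u} R ⥤ ModuleCat.{u} R') [F.Additive] (M : ModuleCat.{u} R) (r : ℕ) :
    Retr (F.obj (ModuleCat.of R (Fin r → M))) (ModuleCat.of R' (Fin r → F.obj M)) := by
  refine ⟨LinearMap.pi fun i => (F.map (ModuleCat.ofHom (X := Fin r → M) (Y := M)
      (LinearMap.proj i))).hom,
    ∑ i, (F.map (ModuleCat.ofHom (X := M) (Y := Fin r → M)
      (LinearMap.single R (fun _ => (M : Type u)) i))).hom ∘ₗ LinearMap.proj i, fun x => ?_⟩
  have e : ∑ i : Fin r, ModuleCat.ofHom (X := Fin r → M) (Y := M) (LinearMap.proj i) ≫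
      ModuleCat.ofHom (X := M) (Y := Fin r → M) (LinearMap.single R (fun _ => (M : Type u)) i) =
      𝟙 (ModuleCat.of R (Fin r → M)) := by
    ext1
    rw [ModuleCat.hom_sum]
    ext1 i; ext1 m
    simp [Finset.univ_sum_single]
  have := congr((F.map $e).hom x)
  rw [F.map_sum, F.map_id, ModuleCat.hom_sum] at this
  simpa using this

lemma fp_pi {M : ModuleCat.{u} R} (h : FP R M) (r : ℕ) : FP R (Fin r → M) := by
  induction r with
  | zero => exact ⟨0, PD.of_subsingleton⟩
  | succ r ih =>
    refine Retr.fp (A := ModuleCat.of R (Fin (r + 1) → M))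
      (Retr.of_equiv (B := ModuleCat.of R (M × (Fin r → M)))
      (Fin.consLinearEquiv R (fun _ : Fin (r + 1) => (M : Type u))).symm) ?_
    exact (SES.prod M (ModuleCat.of R (Fin r → M))).fp₂ h ih

/-- an exact additive functor with `F R` of finite projective dimension preserves finitely
generated modules of finite projective dimension -/
lemma ExF.fp [IsNoetherianRing R] {F : ModuleCat.{u} R ⥤ ModuleCat.{u} R'} [F.Additive]
    (hF : ExF F) (h : FP R' (F.obj (ModuleCat.of R R))) (M : ModuleCat.{u} R)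
    (hM : Module.Finite R M) (hp : FP R M) : FP R' (F.obj M) := by
  obtain ⟨d, hd⟩ := hp
  have free : ∀ r : ℕ, FP R' (F.obj (ModuleCat.of R (Fin r → R))) := fun r =>
    (retr_pi F (ModuleCat.of R R) r).fp (fp_pi h r)
  induction d generalizing M with
  | zero =>
    obtain ⟨r, hr⟩ := retr_free M hM (hd.mono (by omega : 0 ≤ 1)).proj
    exact (hr.map F).fp (free r)
  | succ d ih =>
    rcases d with _ | d
    · obtain ⟨r, hr⟩ := retr_free M hM hd.proj
      exact (hr.map F).fp (free r)
    · obtain ⟨r, K, hK⟩ := exists_cover M hM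
      exact (hF.ses hK).fp₃ (ih K (hK.fin₁ inferInstance)
        (hK.pd₁ ((PD.of_proj (A := Fin r → R)).mono (by omega)) hd)) (free r)

end

section
variable (k : Type u) [Field k] {R : Type u} [Ring R] [Algebra k R]

/-- the multiplication map `R ⊗ M → M` -/
noncomputable def barMap (M : ModuleCat.{u} R) : R ⊗[k] M →ₗ[R] M :=
  TensorProduct.AlgebraTensorModule.lift
    { toFun := fun r => { toFun := fun m => r • m
                          map_add' := smul_add r
                          map_smul' := fun c m => smul_comm r c m }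
      map_add' := fun a b => by ext m; exact add_smul a b m
      map_smul' := fun a b => by ext m; exact mul_smul a b m }

@[simp] lemma barMap_tmul (M : ModuleCat.{u} R) (r : R) (m : M) :
    barMap k M (r ⊗ₜ m) = r • m := rfl

lemma barMap_surj (M : ModuleCat.{u} R) : Function.Surjective (barMap k M) :=
  fun m => ⟨1 ⊗ₜ m, by simp⟩

/-- `id ⊗ f` -/
noncomputable def barF {M N : ModuleCat.{u} R} (f : M ⟶ N) : R ⊗[k] M →ₗ[R] R ⊗[k] N :=
  TensorProduct.AlgebraTensorModule.map LinearMap.id (f.hom.restrictScalars k)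

@[simp] lemma barF_tmul {M N : ModuleCat.{u} R} (f : M ⟶ N) (r : R) (m : M) :
    barF k f (r ⊗ₜ m) = r ⊗ₜ f.hom m := rfl

lemma barF_eq {M N : ModuleCat.{u} R} (f : M ⟶ N) (t : R ⊗[k] M) :
    barF k f t = LinearMap.lTensor R (f.hom.restrictScalars k) t := rfl

lemma barMap_nat {M N : ModuleCat.{u} R} (f : M ⟶ N) (t : R ⊗[k] M) :
    barMap k N (barF k f t) = f.hom (barMap k M t) := by
  induction t with
  | zero => simp
  | tmul r m => simp
  | add a b ha hb => simp [ha, hb]

variable (R) in
/-- the functor `M ↦ R ⊗ M` -/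
noncomputable def Bar : ModuleCat.{u} R ⥤ ModuleCat.{u} R where
  obj M := ModuleCat.of R (R ⊗[k] M)
  map f := ModuleCat.ofHom (barF k f)
  map_id M := by ext; simp
  map_comp f g := by ext; simp

variable (R) in
/-- the bar syzygy functor -/
noncomputable def OmF : ModuleCat.{u} R ⥤ ModuleCat.{u} R where
  obj M := ModuleCat.of R (LinearMap.ker (barMap k M))
  map {M N} f := ModuleCat.ofHom ((barF k f).restrict (p := LinearMap.ker (barMap k M))
    (q := LinearMap.ker (barMap k N)) fun t ht => by
      rw [LinearMap.mem_ker] at ht ⊢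
      rw [barMap_nat, ht, map_zero])
  map_id M := by
    ext1; ext1 t; apply Subtype.ext
    exact congr(($((Bar k R).map_id M)).hom t.1)
  map_comp f g := by
    ext1; ext1 t; apply Subtype.ext
    exact congr(($((Bar k R).map_comp f g)).hom t.1)

lemma OmF_map_val {M N : ModuleCat.{u} R} (f : M ⟶ N) (t : LinearMap.ker (barMap k M)) :
    (((OmF k R).map f).hom t : LinearMap.ker (barMap k N)).1 = barF k f t.1 := rfl

instance : (Bar k R).Additive where
  map_add {M N f g} := by
    ext1; apply TensorProduct.AlgebraTensorModule.ext; intro r m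
    exact TensorProduct.tmul_add r (f.hom m) (g.hom m)

instance : (Bar k R).Linear k where
  map_smul {M N} f c := by
    ext1; apply TensorProduct.AlgebraTensorModule.ext; intro r m
    change r ⊗ₜ[k] (c • f.hom m) = (algebraMap k R c) • (r ⊗ₜ[k] f.hom m)
    rw [TensorProduct.tmul_smul, algebraMap_smul]

instance : (OmF k R).Additive where
  map_add {M N f g} := by
    ext1; ext1 t; apply Subtype.ext
    exact congr(($((Bar k R).map_add (f := f) (g := g))).hom t.1)

instance : (OmF k R).Linear k where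
  map_smul {M N} f c := by
    ext1; ext1 t; apply Subtype.ext
    exact congr(($((Bar k R).map_smul c f)).hom t.1)

lemma exF_bar : ExF (Bar k R) := fun A B C f g hf hfg hg =>
  ⟨Module.Flat.lTensor_preserves_injective_linearMap (M := R) (f.hom.restrictScalars k) hf,
    lTensor_exact R (f := f.hom.restrictScalars k) (g := g.hom.restrictScalars k) hfg hg,
    LinearMap.lTensor_surjective R (g := g.hom.restrictScalars k) hg⟩

lemma exF_om : ExF (OmF k R) := fun A B C f g hf hfg hg => by
  obtain ⟨h1, h2, h3⟩ := exF_bar k f g hf hfg hg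
  refine ⟨fun x y h => Subtype.ext (h1 (congrArg Subtype.val h)), fun t => ⟨fun ht => ?_, ?_⟩,
    fun t => ?_⟩
  · obtain ⟨s, hs⟩ := (h2 t.1).1 (congrArg Subtype.val ht)
    refine ⟨⟨s, hf ?_⟩, Subtype.ext hs⟩
    rw [← barMap_nat, map_zero]
    exact (congrArg (barMap k B) hs).trans t.2
  · rintro ⟨s, rfl⟩
    exact Subtype.ext (h2.apply_apply_eq_zero s.1)
  · obtain ⟨s, hs'⟩ : ∃ s : R ⊗[k] B, barF k g s = t.1 := h3 t.1
    refine ⟨⟨s - 1 ⊗ₜ barMap k B s, ?_⟩, Subtype.ext ?_⟩
    · simp
    · change barF k g (s - 1 ⊗ₜ barMap k B s) = t.1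
      have : barMap k C t.1 = 0 := t.2
      rw [map_sub, barF_tmul, ← barMap_nat, hs', this, TensorProduct.tmul_zero, sub_zero]

/-- the bar syzygy -/
noncomputable abbrev Om (M : ModuleCat.{u} R) : ModuleCat.{u} R := (OmF k R).obj M

lemma ses_om (M : ModuleCat.{u} R) : SES (Om k M) ((Bar k R).obj M) M :=
  SES.ker (B := ModuleCat.of R (R ⊗[k] M)) (barMap k M) (barMap_surj k M)

lemma bar_proj (M : ModuleCat.{u} R) : Module.Projective R ((Bar k R).obj M) :=
  inferInstanceAs (Module.Projective R (R ⊗[k] M))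

lemma SES.om_iter {A B C : ModuleCat.{u} R} (h : SES A B C) (b : ℕ) :
    SES ((Om k)^[b] A) ((Om k)^[b] B) ((Om k)^[b] C) := by
  induction b generalizing A B C with
  | zero => exact h
  | succ b ih => exact ih ((exF_om k).ses h)

lemma Retr.om_iter {A B : ModuleCat.{u} R} (h : Retr A B) (b : ℕ) :
    Retr ((Om k)^[b] A) ((Om k)^[b] B) := by
  induction b generalizing A B with
  | zero => exact h
  | succ b ih => exact ih (h.map (OmF k R))

lemma ses_om_iter (M : ModuleCat.{u} R) (b : ℕ) :
    SES ((Om k)^[b + 1] M) ((Bar k R).obj ((Om k)^[b] M)) ((Om k)^[b] M) := by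
  rw [Function.iterate_succ_apply']
  exact ses_om k _

lemma fp_om_iter {M : ModuleCat.{u} R} (h : FP R M) (b : ℕ) :
    FP R ((Om k)^[b] M : ModuleCat.{u} R) := by
  induction b with
  | zero => exact h
  | succ b ih => exact (ses_om_iter k M b).fp₁ (@FP.of_proj _ _ _ _ _ (bar_proj k _)) ih

lemma gd_om_iter {M : ModuleCat.{u} R} {D : ℤ} (b : ℕ) (hD : 0 ≤ D) (h : GD M (D + b)) :
    GD ((Om k)^[b] M) D := by
  induction b generalizing D with
  | zero => simpa using h
  | succ b ih =>
    exact GD.src₁ (ses_om_iter k M b) ((GD.of_proj (bar_proj k _)).mono hD)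
      (ih (by omega) (by convert h using 1; push_cast; ring))

/-- vanishing of Tate cohomology `\hat{Ext}^n(S, M)` -/
def TV (S M : ModuleCat.{u} R) (n : ℤ) : Prop :=
  ∀ᶠ b : ℕ in Filter.atTop, XV S ((Om k)^[b] M) (n + b)

variable {k}
variable {A B C S V : ModuleCat.{u} R} {n : ℤ}

lemma TV.src₁ (h : SES A B C) (hB : TV k B V n) (hC : TV k C V (n + 1)) : TV k A V n := by
  filter_upwards [hB, hC] with b h1 h2
  exact XV.src₁ h h1 (by convert h2 using 1; ring)

lemma TV.src₂ (h : SES A B C) (hA : TV k A V n) (hC : TV k C V n) : TV k B V n := by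
  filter_upwards [hA, hC] with b h1 h2
  exact XV.src₂ h h1 h2

lemma TV.src₃ (h : SES A B C) (hA : TV k A V (n - 1)) (hB : TV k B V n) : TV k C V n := by
  filter_upwards [hA, hB] with b h1 h2
  exact XV.src₃ h (by convert h1 using 1; ring) h2

lemma TV.tgt₁ (h : SES A B C) (hB : TV k S B n) (hC : TV k S C (n - 1)) : TV k S A n := by
  filter_upwards [hB, hC] with b h1 h2
  exact XV.tgt₁ (h.om_iter k b) h1 (by convert h2 using 1; ring)

lemma TV.tgt₂ (h : SES A B C) (hA : TV k S A n) (hC : TV k S C n) : TV k S B n := by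
  filter_upwards [hA, hC] with b h1 h2
  exact XV.tgt₂ (h.om_iter k b) h1 h2

lemma TV.tgt₃ (h : SES A B C) (hA : TV k S A (n + 1)) (hB : TV k S B n) : TV k S C n := by
  filter_upwards [hA, hB] with b h1 h2
  exact XV.tgt₃ (h.om_iter k b) (by convert h1 using 1; ring) h2

lemma TV.retr_src (h : Retr A B) (hB : TV k B V n) : TV k A V n := by
  filter_upwards [hB] with b h1
  exact XV.retr_src h h1

lemma TV.retr_tgt (h : Retr A B) (hB : TV k S B n) : TV k S A n := by
  filter_upwards [hB] with b h1
  exact XV.retr_tgt (h.om_iter k b) h1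

lemma TV.of_fp_src (h : FP R S) : TV k S V n := by
  obtain ⟨d, hd⟩ := h
  filter_upwards [Filter.eventually_ge_atTop (d - n).toNat] with b hb
  exact XV.of_pd hd (by omega)

variable [Module.Finite k R]

include k in
variable (k R) in
lemma noeth : IsNoetherianRing R :=
  isNoetherian_of_tower k (inferInstanceAs (IsNoetherian k R))

variable (k) in
lemma fin_k (M : ModuleCat.{u} R) (h : Module.Finite R M) : Module.Finite k M :=
  Module.Finite.trans R M

variable (k) in
lemma finF_bar : FinF (Bar k R) := fun M h =>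
  have := fin_k k M h
  inferInstanceAs (Module.Finite R (R ⊗[k] M))

variable (k) in
lemma finF_om : FinF (OmF k R) := fun M h =>
  have := noeth k R
  (ses_om k M).fin₁ (finF_bar k M h)

variable (k) in
lemma fin_om_iter {M : ModuleCat.{u} R} (h : Module.Finite R M) (b : ℕ) :
    Module.Finite R ((Om k)^[b] M : ModuleCat.{u} R) := by
  induction b generalizing M with
  | zero => exact h
  | succ b ih => exact ih (finF_om k M h)

lemma TV.of_fp_tgt {D : ℤ} (hS : GD S D) (hV : Module.Finite R V) (h : FP R V) : TV k S V n := by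
  have := noeth k R
  filter_upwards [Filter.eventually_ge_atTop (D + 1 - n).toNat] with b hb
  exact hS.xv _ (fin_om_iter k hV b) (fp_om_iter k h b) (by omega)

variable (k) in
lemma xv_om_iter {D : ℤ} (hS : GD S D) (hV : Module.Finite R V) (hn : D < n) (b : ℕ) :
    XV S ((Om k)^[b] V) (n + b) ↔ XV S V n := by
  have := noeth k R
  induction b with
  | zero => simp
  | succ b ih =>
    refine Iff.trans ?_ ih
    have hP : ∀ m, D < m → XV S ((Bar k R).obj ((Om k)^[b] V)) m := fun m hm =>
      hS.xv _ (finF_bar k _ (fin_om_iter k hV b)) (@FP.of_proj _ _ _ _ _ (bar_proj k _)) hm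
    constructor
    · intro h
      exact XV.tgt₃ (ses_om_iter k V b) (by convert h using 1; push_cast; ring) (hP _ (by omega))
    · intro h
      exact XV.tgt₁ (ses_om_iter k V b) (hP _ (by omega)) (by convert h using 1; push_cast; ring)

/-- above the Gorenstein dimension Tate cohomology is ordinary cohomology -/
lemma tv_iff {D : ℤ} (hS : GD S D) (hV : Module.Finite R V) (hn : D < n) :
    TV k S V n ↔ XV S V n := by
  constructor
  · intro h
    obtain ⟨b, hb⟩ := h.exists
    exact (xv_om_iter k hS hV hn b).1 hb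
  · intro h
    exact Filter.Eventually.of_forall fun b => (xv_om_iter k hS hV hn b).2 h

/-- shifting along a chain `W (b+1) → P b → W b` in the target -/
lemma tv_chain_tgt (W P : ℕ → ModuleCat.{u} R) (h : ∀ b, SES (W (b + 1)) (P b) (W b))
    (hP : ∀ b n, TV k S (P b) n) (b : ℕ) : TV k S (W b) (n + b) ↔ TV k S (W 0) n := by
  induction b with
  | zero => simp
  | succ b ih =>
    rw [← ih]
    exact ⟨fun h' => TV.tgt₃ (h b) (by convert h' using 1; push_cast; ring) (hP _ _),
      fun h' => TV.tgt₁ (h b) (hP _ _) (by convert h' using 1; push_cast; ring)⟩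

omit [Module.Finite k R] in
/-- shifting along a chain `W (b+1) → P b → W b` in the source -/
lemma tv_chain_src (W P : ℕ → ModuleCat.{u} R) (h : ∀ b, SES (W (b + 1)) (P b) (W b))
    (hP : ∀ b n, TV k (P b) V n) (b : ℕ) : TV k (W b) V (n - b) ↔ TV k (W 0) V n := by
  induction b with
  | zero => simp
  | succ b ih =>
    rw [← ih]
    exact ⟨fun h' => TV.src₃ (h b) (by convert h' using 1; push_cast; ring) (hP _ _),
      fun h' => TV.src₁ (h b) (hP _ _) (by convert h' using 1; push_cast; ring)⟩

end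

end Crest.Agent.R186
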