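import Crest.Agent.R186.Defs1

/-! Row 186, task K2: the external tensor product of modules. -/

set_option autoImplicit false
set_option linter.unusedSectionVars false
open CategoryTheory Abelian
open scoped TensorProduct ModuleCat

namespace Crest.Agent.R186.K2

open Crest.Agent.R178

universe u

section gen
variable {R R' : Type u} [Ring R] [Ring R'] {F : ModuleCat.{u} R ⥤ ModuleCat.{u} R'}

lemma ses_bij {A B C C' : ModuleCat.{u} R} (h : SES A B C) (φ : C →ₗ[R] C')
    (hφ : Function.Bijective φ) : SES A B C' := by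
  obtain ⟨f, g, hf, hfg, hg⟩ := h
  exact ⟨f, φ ∘ₗ g, hf, fun y => by
    rw [LinearMap.comp_apply, map_eq_zero_iff _ hφ.1]; exact hfg y, hφ.2.comp hg⟩

lemma ses_comp {A B C K₁ K₂ : ModuleCat.{u} R} (h₁ : SES K₁ A B) (h₂ : SES K₂ B C) :
    ∃ W, SES W A C ∧ SES K₁ W K₂ := by
  obtain ⟨f, g, hf, hfg, hg⟩ := h₁
  obtain ⟨f', g', hf', hfg', hg'⟩ := h₂
  have hm : ∀ x : LinearMap.ker (g' ∘ₗ g), (g ∘ₗ Submodule.subtype _) x ∈ LinearMap.range f' :=
    fun x => (hfg' _).1 x.2
  have hv := fun x => congrArg Subtype.val ((LinearEquiv.ofInjective f' hf').apply_symm_apply x)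
  refine ⟨_, SES.ker (g' ∘ₗ g) (hg'.comp hg), f.codRestrict _ fun x => ?_,
    (LinearEquiv.ofInjective f' hf').symm.toLinearMap ∘ₗ LinearMap.codRestrict _ _ hm,
    fun a b h => hf (congrArg Subtype.val h), fun y => ?_, fun z => ?_⟩
  · rw [LinearMap.mem_ker, LinearMap.comp_apply, hfg.apply_apply_eq_zero, map_zero]
  · rw [LinearMap.comp_apply, LinearEquiv.coe_coe, LinearEquiv.map_eq_zero_iff, Subtype.ext_iff]
    refine (hfg y.1).trans ⟨fun ⟨x, hx⟩ => ⟨x, Subtype.ext hx⟩, fun ⟨x, hx⟩ => ⟨x, congrArg Subtype.val hx⟩⟩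
  · obtain ⟨y, hy⟩ := hg (f' z)
    exact ⟨⟨y, by rw [LinearMap.mem_ker, LinearMap.comp_apply, hy, hfg'.apply_apply_eq_zero]⟩,
      hf' ((hv _).trans hy)⟩

lemma fin_F [F.Additive] (hF : ExF F) (h : Module.Finite R' (F.obj (ModuleCat.of R R))) :
    FinF F := fun M hM => by
  obtain ⟨r, K, hK⟩ := exists_cover M hM
  exact (hF.ses hK).fin₃ ((retr_pi F (ModuleCat.of R R) r).fin inferInstance)

lemma pd_F [F.Additive] {d : ℕ} (h : PD R' (F.obj (ModuleCat.of R R)) d) (M : ModuleCat.{u} R)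
    (hM : Module.Finite R M) (hp : Module.Projective R M) : PD R' (F.obj M) d := by
  obtain ⟨r, hr⟩ := retr_free M hM hp
  exact ((hr.map F).trans (retr_pi F (ModuleCat.of R R) r)).pd (pd_pi h r)

/-- injective dimension at most `d` -/
def ID (V : ModuleCat.{u} R) (d : ℤ) : Prop := ∀ U n, d < n → XV U V n

end gen

variable {k : Type u} [Field k] {C : Type u} [Ring C] [Algebra k C] {Γ : Type u} [Ring Γ]
  [Algebra k Γ] (e : Γ ≃ₐ[k] C ⊗[k] C)

/-- the external tensor product -/
def T (_e : Γ ≃ₐ[k] C ⊗[k] C) (M N : ModuleCat.{u} C) : Type u := M ⊗[k] N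

noncomputable instance (M N : ModuleCat.{u} C) : AddCommGroup (T e M N) :=
  inferInstanceAs (AddCommGroup (M ⊗[k] N))

noncomputable instance (M N : ModuleCat.{u} C) : Module Γ (T e M N) :=
  Module.compHom (M ⊗[k] N) (((Module.endTensorEndAlgHom (R := k) (S := k) (A := k) (M := M)
    (N := N)).comp (Algebra.TensorProduct.map (Algebra.lsmul k k M : C →ₐ[k] Module.End k M)
      (Algebra.lsmul k k N : C →ₐ[k] Module.End k N))).comp e.toAlgHom).toRingHom

variable {M N M' N' : ModuleCat.{u} C}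

/-- pure tensors -/
noncomputable def tm (m : M) (n : N) : T e M N := m ⊗ₜ[k] n

lemma smul_tm (a c : C) (m : M) (n : N) :
    e.symm (a ⊗ₜ c) • tm e m n = tm e (a • m) (c • n) := by
  change Module.endTensorEndAlgHom (R := k) (S := k) (A := k) (M := M) (N := N)
    (Algebra.TensorProduct.map _ _ (e (e.symm (a ⊗ₜ c)))) (m ⊗ₜ n) = _
  rw [e.apply_symm_apply]
  rfl

lemma add_tm (m m' : M) (n : N) : tm e (m + m') n = tm e m n + tm e m' n :=
  TensorProduct.add_tmul _ _ _

lemma T.ind {p : T e M N → Prop} (t : T e M N) (h0 : p 0) (h1 : ∀ m n, p (tm e m n))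
    (h2 : ∀ a b, p a → p b → p (a + b)) : p t := TensorProduct.induction_on t h0 h1 h2

lemma T.ext {X : Type u} [AddCommGroup X] [Module Γ X] {f g : T e M N →ₗ[Γ] X}
    (h : ∀ m n, f (tm e m n) = g (tm e m n)) : f = g :=
  LinearMap.ext fun t => T.ind e (p := fun t => f t = g t) t (by simp) h fun a b ha hb => by
    simp only [map_add, ha, hb]

/-- an additive map that is compatible with pure tensors is linear -/
noncomputable def mkLin {X : Type u} [AddCommGroup X] [Module Γ X] (F : T e M N →+ X)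
    (h : ∀ (a c : C) m n, F (tm e (a • m) (c • n)) = e.symm (a ⊗ₜ c) • F (tm e m n)) :
    T e M N →ₗ[Γ] X where
  toFun := F
  map_add' := F.map_add
  map_smul' γ t := by
    obtain ⟨s, rfl⟩ := e.symm.surjective γ
    rw [RingHom.id_apply]
    induction s with
    | zero => simp
    | add a b ha hb => rw [map_add, add_smul, add_smul, map_add, ha, hb]
    | tmul a c =>
      refine T.ind e (p := fun t => F (e.symm (a ⊗ₜ c) • t) = e.symm (a ⊗ₜ c) • F t) t (by simp)
        (fun m n => by rw [smul_tm, h]) fun a b ha hb => ?_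
      rw [smul_add, map_add, ha, hb, map_add, smul_add]

/-- functoriality -/
noncomputable def T.map (f : M →ₗ[C] M') (g : N →ₗ[C] N') : T e M N →ₗ[Γ] T e M' N' :=
  mkLin e (TensorProduct.map (f.restrictScalars k) (g.restrictScalars k)).toAddMonoidHom
    fun a c m n => by
      change tm e (f (a • m)) (g (c • n)) = _ • tm e (f m) (g n)
      rw [smul_tm, map_smul, map_smul]

@[simp] lemma T.map_tm (f : M →ₗ[C] M') (g : N →ₗ[C] N') (m : M) (n : N) :
    T.map e f g (tm e m n) = tm e (f m) (g n) := rfl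

/-- `M ↦ M ⊠ N` -/
noncomputable def TL (N : ModuleCat.{u} C) : ModuleCat.{u} C ⥤ ModuleCat.{u} Γ where
  obj M := ModuleCat.of Γ (T e M N)
  map f := ModuleCat.ofHom (T.map e f.hom LinearMap.id)
  map_id _ := ModuleCat.hom_ext (T.ext e fun _ _ => rfl)
  map_comp _ _ := ModuleCat.hom_ext (T.ext e fun _ _ => rfl)

/-- `N ↦ M ⊠ N` -/
noncomputable def TR (M : ModuleCat.{u} C) : ModuleCat.{u} C ⥤ ModuleCat.{u} Γ where
  obj N := ModuleCat.of Γ (T e M N)
  map f := ModuleCat.ofHom (T.map e LinearMap.id f.hom)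
  map_id _ := ModuleCat.hom_ext (T.ext e fun _ _ => rfl)
  map_comp _ _ := ModuleCat.hom_ext (T.ext e fun _ _ => rfl)

instance : (TL e N).Additive where
  map_add {_ _ f g} := ModuleCat.hom_ext (T.ext e fun m n =>
    TensorProduct.add_tmul (f.hom m) (g.hom m) n)

instance : (TR e M).Additive where
  map_add {_ _ f g} := ModuleCat.hom_ext (T.ext e fun m n =>
    TensorProduct.tmul_add m (f.hom n) (g.hom n))

lemma exL : ExF (TL e N) := fun _ _ _ f g hf hfg hg =>
  ⟨Module.Flat.rTensor_preserves_injective_linearMap (M := N) (f.hom.restrictScalars k) hf,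
    rTensor_exact N (f := f.hom.restrictScalars k) (g := g.hom.restrictScalars k) hfg hg,
    LinearMap.rTensor_surjective N (g := g.hom.restrictScalars k) hg⟩

lemma exR : ExF (TR e M) := fun _ _ _ f g hf hfg hg =>
  ⟨Module.Flat.lTensor_preserves_injective_linearMap (M := M) (f.hom.restrictScalars k) hf,
    lTensor_exact M (f := f.hom.restrictScalars k) (g := g.hom.restrictScalars k) hfg hg,
    LinearMap.lTensor_surjective M (g := g.hom.restrictScalars k) hg⟩

/-- the bundled module -/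
noncomputable abbrev TT (M N : ModuleCat.{u} C) : ModuleCat.{u} Γ := ModuleCat.of Γ (T e M N)

lemma retr_swap : Retr (TT e M N) (TT (e.trans (Algebra.TensorProduct.comm k C C)) N M) :=
  Retr.of_bij (mkLin e (TensorProduct.comm k M N).toLinearMap.toAddMonoidHom fun a c m n =>
    (smul_tm (e.trans (Algebra.TensorProduct.comm k C C)) c a n m).symm)
    (TensorProduct.comm k M N).bijective

lemma retr_swap' : Retr (TT (e.trans (Algebra.TensorProduct.comm k C C)) N M) (TT e M N) :=
  Retr.of_bij' (mkLin e (TensorProduct.comm k M N).toLinearMap.toAddMonoidHom fun a c m n =>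
    (smul_tm (e.trans (Algebra.TensorProduct.comm k C C)) c a n m).symm)
    (TensorProduct.comm k M N).bijective

/-- forget the module structure -/
noncomputable def fg {V : Type u} [AddCommGroup V] [Module k V] (f : M →+ V)
    (h : ∀ (c : k) m, f (algebraMap k C c • m) = c • f m) : T e M M →+ V ⊗[k] V :=
  (TensorProduct.map (⟨⟨f, f.map_add⟩, h⟩ : M →ₗ[k] V)
    (⟨⟨f, f.map_add⟩, h⟩ : M →ₗ[k] V)).toAddMonoidHom

lemma fg_bij {V : Type u} [AddCommGroup V] [Module k V] (f : M →+ V)
    (h : ∀ (c : k) m, f (algebraMap k C c • m) = c • f m) (hf : Function.Bijective f) :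
    Function.Bijective (fg e f h) :=
  (TensorProduct.congr (LinearEquiv.ofBijective (⟨⟨f, f.map_add⟩, h⟩ : M →ₗ[k] V) hf)
    (LinearEquiv.ofBijective (⟨⟨f, f.map_add⟩, h⟩ : M →ₗ[k] V) hf)).bijective

/-- `C ⊠ C = Γ` -/
noncomputable def eΓ : T e (ModuleCat.of C C) (ModuleCat.of C C) →ₗ[Γ] Γ :=
  mkLin e (e.symm.toLinearMap.toAddMonoidHom.comp (fg e (M := ModuleCat.of C C) (V := C)
      (AddMonoidHom.id C) fun c m => (Algebra.smul_def c m).symm)) fun a c m n => by
    change e.symm ((a * m) ⊗ₜ (c * n)) = e.symm (a ⊗ₜ c) * e.symm (m ⊗ₜ n)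
    rw [← map_mul, Algebra.TensorProduct.tmul_mul_tmul]

lemma eΓ_tm (a c : C) : eΓ e (tm e (M := ModuleCat.of C C) (N := ModuleCat.of C C) a c) =
    e.symm (a ⊗ₜ c) := rfl

lemma eΓ_bij : Function.Bijective (eΓ e) :=
  e.symm.bijective.comp (fg_bij e _ _ Function.bijective_id)

/-- `DC ⊠ DC = DΓ` -/
noncomputable def eD : T e (DG k C) (DG k C) →ₗ[Γ] DG k Γ :=
  mkLin e ((e.toLinearMap.dualMap ∘ₗ TensorProduct.dualDistrib k C C).toAddMonoidHom.comp
      (fg e (M := DG k C) (V := Module.Dual k C) ⟨⟨CoI.lin, rfl⟩, fun _ _ => rfl⟩ CoI.lin_smul))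
      fun a c m n => CoI.ext fun x => by
    change TensorProduct.dualDistrib k C C (CoI.lin (a • m) ⊗ₜ CoI.lin (c • n)) (e x) =
      TensorProduct.dualDistrib k C C (CoI.lin m ⊗ₜ CoI.lin n) (e (x * e.symm (a ⊗ₜ c)))
    rw [map_mul, e.apply_symm_apply]
    induction e x with
    | zero => simp
    | add a b ha hb => rw [add_mul, map_add, map_add, ha, hb]
    | tmul a b => rw [Algebra.TensorProduct.tmul_mul_tmul]; rfl

lemma eD_bij [Module.Finite k C] : Function.Bijective (eD e) :=
  e.toLinearEquiv.dualMap.bijective.comp ((TensorProduct.dualDistribEquiv k C C).bijective.comp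
    (fg_bij e _ _ Function.bijective_id))

/-- the character `χ ⊗ χ` -/
noncomputable def χ2 (χ : C →ₐ[k] k) : Γ →ₐ[k] k :=
  (Algebra.TensorProduct.lift χ χ fun _ _ => Commute.all _ _).comp e.toAlgHom

lemma χ2_tmul (χ : C →ₐ[k] k) (a c : C) : χ2 e χ (e.symm (a ⊗ₜ c)) = χ a * χ c := by
  simp [χ2]

/-- `s ⊠ s = s` -/
noncomputable def eS (χ : C →ₐ[k] k) : T e (sM χ) (sM χ) →ₗ[Γ] sM (χ2 e χ) :=
  mkLin e ((TensorProduct.lid k k).toLinearMap.toAddMonoidHom.comp
    (fg e (M := sM χ) (V := k) ⟨⟨Chi.val χ, rfl⟩, fun _ _ => rfl⟩ fun c m => by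
      change χ (algebraMap k C c) * _ = _
      rw [AlgHom.commutes]; rfl))
    fun a c m n => by
      change (χ a * Chi.val χ m) * (χ c * Chi.val χ n) =
        χ2 e χ (e.symm (a ⊗ₜ c)) * (Chi.val χ m * Chi.val χ n)
      rw [χ2_tmul]; ring

lemma eS_bij (χ : C →ₐ[k] k) : Function.Bijective (eS e χ) :=
  (TensorProduct.lid k k).bijective.comp (fg_bij e _ _ Function.bijective_id)

lemma pd_T (hM : Module.Finite C M) (hp : Module.Projective C M) (hN : Module.Finite C N)
    (hp' : Module.Projective C N) : PD Γ (T e M N) 1 :=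
  pd_F (F := TL e N) (pd_F (F := TR e (ModuleCat.of C C))
    ((Retr.of_bij (A := TT e _ _) (B := ModuleCat.of Γ Γ) (eΓ e) (eΓ_bij e)).pd PD.of_proj)
    N hN hp') M hM hp

lemma fin_T (hM : Module.Finite C M) (hN : Module.Finite C N) : Module.Finite Γ (T e M N) :=
  fin_F (exL e) (fin_F (F := TR e (ModuleCat.of C C)) (exR e)
    ((Retr.of_bij (A := TT e _ _) (B := ModuleCat.of Γ Γ) (eΓ e) (eΓ_bij e)).fin inferInstance)
    N hN) M hM

/-- contraction with a functional -/
noncomputable def co (l : N →ₗ[k] k) : T e M N →+ M :=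
  ((TensorProduct.rid k M).toLinearMap ∘ₗ l.lTensor M).toAddMonoidHom

lemma co_smul (l : N →ₗ[k] k) (a : C) (t : T e M N) :
    co e l (e.symm (a ⊗ₜ 1) • t) = a • co e l t := by
  refine T.ind e (p := fun t => co e l (e.symm (a ⊗ₜ 1) • t) = a • co e l t) t (by simp)
    (fun m n => ?_) fun a b ha hb => by rw [smul_add, map_add, ha, hb, map_add, smul_add]
  rw [smul_tm, one_smul]
  exact smul_comm (l n) a m

lemma expand {ι : Type} [Fintype ι] (b : Module.Basis ι k N) (t : T e M N) :
    ∑ i, tm e (co e (b.coord i) t) (b i) = t := by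
  refine T.ind e (p := fun t => ∑ i, tm e (co e (b.coord i) t) (b i) = t) t ?_
    (fun m n => ?_) fun x y hx hy => ?_
  · exact Finset.sum_eq_zero fun i _ => by rw [map_zero]; exact TensorProduct.zero_tmul _ _
  · change ∑ i, (b.repr n i • m) ⊗ₜ[k] b i = m ⊗ₜ n
    simp only [TensorProduct.smul_tmul, ← TensorProduct.tmul_sum, b.sum_repr]
  · refine Eq.trans (Finset.sum_congr rfl fun i _ => ?_)
      (Finset.sum_add_distrib.trans (congrArg₂ _ hx hy))
    rw [map_add]; exact TensorProduct.add_tmul _ _ _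

/-- components of a map out of `U ⊠ C` -/
noncomputable def comp {U : ModuleCat.{u} C} (φ : T e U (ModuleCat.of C C) →ₗ[Γ] T e M N)
    (l : N →ₗ[k] k) : U →ₗ[C] M where
  toFun u := co e l (φ (tm e u (1 : C)))
  map_add' a b := by
    rw [add_tm, map_add, map_add]
  map_smul' a u := by
    rw [RingHom.id_apply, ← co_smul, ← map_smul, smul_tm, one_smul]

lemma comp_spec {ι : Type} [Fintype ι] (b : Module.Basis ι k N) {U : ModuleCat.{u} C}
    (φ : T e U (ModuleCat.of C C) →ₗ[Γ] T e M N) (u : U) (c : C) :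
    φ (tm e u c) = ∑ i, tm e (comp e φ (b.coord i) u) (c • b i) := by
  have : tm e (N := ModuleCat.of C C) u c = e.symm (1 ⊗ₜ c) • tm e u (1 : C) := by
    rw [smul_tm, one_smul, smul_eq_mul, mul_one]
  rw [this, map_smul, ← expand e b (φ _), Finset.smul_sum]
  exact Finset.sum_congr rfl fun i _ => by rw [smul_tm, one_smul]; rfl

variable [Module.Finite k C]

lemma kv_left (hM : Module.Finite C M) (hN : Module.Finite C N) (hN' : Module.Finite C N')
    (h : ∀ n, XV M M' n) (n : ℤ) : XV (TT e M N) (TT e M' N') n := by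
  have := noeth k C
  have := fin_k k N' hN'
  let b := Module.finBasis k N'
  have h1 : ∀ n, XV (TT e M (ModuleCat.of C C)) (TT e M' N') n := fun n => by
    refine sim (TL e (ModuleCat.of C C)) (exL e) (fun r => (pd_T e inferInstance inferInstance
      inferInstance inferInstance).proj) _ M' (fun U _ h0 φ => T.ext e fun u c => ?_)
      (fun r K f _ h1 φ => ?_) n M hM (h n)
    · rw [comp_spec e b φ]
      exact Finset.sum_eq_zero fun i _ => by rw [h0 (comp e φ _)]; exact TensorProduct.zero_tmul _ _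
    · choose ψ hψ using fun i => h1 (comp e φ (b.coord i))
      refine ⟨∑ i, T.map e (M := ModuleCat.of C (Fin r → C)) (N := ModuleCat.of C C) (ψ i)
        (LinearMap.toSpanSingleton C N' (b i)), fun x => ?_⟩
      refine congr($(T.ext e (f := _ ∘ₗ ((TL e (ModuleCat.of C C)).map f).hom) (g := φ)
        fun u c => ?_) x)
      rw [comp_spec e b φ]
      exact (LinearMap.sum_apply _ _ _).trans (Finset.sum_congr rfl fun i _ => by rw [← hψ]; rfl)
  refine xv_all_src (ι := {N : ModuleCat.{u} C // Module.Finite C N}) (fun N => TT e M N.1) _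
    (fun N => ?_) n ⟨N, hN⟩
  obtain ⟨r, K, hK⟩ := exists_cover N.1 N.2
  exact ⟨⟨K, hK.fin₁ inferInstance⟩, _, (exR e).ses hK, fun n =>
    XV.retr_src (retr_pi (TR e M) (ModuleCat.of C C) r) (XV.pi_src (h1 n) r)⟩

lemma kv_right (hM : Module.Finite C M) (hN : Module.Finite C N) (hM' : Module.Finite C M')
    (h : ∀ n, XV N N' n) (n : ℤ) : XV (TT e M N) (TT e M' N') n :=
  XV.retr_src (retr_swap e) (XV.retr_tgt (retr_swap e) (kv_left _ hN hM hM' h n))

end Crest.Agent.R186.K2
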